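import Mathlib

/-!
# P087: microstates and nonmicrostates free entropy, at the level of laws

A law of an `N`-tuple is a function on words in the letters `Fin N`.  `freeEntropy` is
Voiculescu's microstates entropy, `freeEntropyStar` the nonmicrostates one.
-/

namespace VAgent.P087

open MeasureTheory Filter
open scoped ENNReal EReal

noncomputable section

/-- The law of a bounded self-adjoint tuple in a tracial von Neumann algebra: unital, tracial,
self-adjoint, positive, exponentially bounded. -/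
structure IsLaw {N : ℕ} (m : List (Fin N) → ℂ) : Prop where
  unit : m [] = 1
  tracial : ∀ u v, m (u ++ v) = m (v ++ u)
  selfAdjoint : ∀ w, m w.reverse = starRingEnd ℂ (m w)
  positive : ∀ P : List (Fin N) →₀ ℂ,
    0 ≤ (∑ v ∈ P.support, ∑ w ∈ P.support,
      starRingEnd ℂ (P v) * P w * m (v.reverse ++ w)).re
  bounded : ∃ R : ℝ, ∀ w, ‖m w‖ ≤ R ^ w.length

/-- Coordinates `x` of the Hermitian matrix `herm x`, orthonormal for `⟨A, B⟩ = Tr (A B)`. -/
def herm {k : ℕ} (x : Fin k → Fin k → ℝ) : Matrix (Fin k) (Fin k) ℂ :=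
  Matrix.of fun a b =>
    if a = b then (x a a : ℂ)
    else if a < b then ((x a b : ℂ) + Complex.I * (x b a : ℂ)) / (Real.sqrt 2 : ℂ)
    else ((x b a : ℂ) - Complex.I * (x a b : ℂ)) / (Real.sqrt 2 : ℂ)

/-- The normalised trace. -/
def ntr {k : ℕ} (A : Matrix (Fin k) (Fin k) ℂ) : ℂ := (k : ℂ)⁻¹ * A.trace

/-- The value of a word on a tuple of matrices. -/
def wordMat {N k : ℕ} (A : Fin N → Matrix (Fin k) (Fin k) ℂ) (w : List (Fin N)) :
    Matrix (Fin k) (Fin k) ℂ :=
  (w.map A).prod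

/-- Operator norm at most `R`. -/
def OpLe {k : ℕ} (A : Matrix (Fin k) (Fin k) ℂ) (R : ℝ) : Prop :=
  ∀ v : Fin k → ℂ, ∑ a, ‖(A.mulVec v) a‖ ^ 2 ≤ R ^ 2 * ∑ a, ‖v a‖ ^ 2

/-- Microstates: tuples of self-adjoint `k × k` matrices of norm at most `R` whose moments of
degree `1, …, M` are `ε`-close to those of `m`, in orthonormal coordinates. -/
def microstates {N : ℕ} (m : List (Fin N) → ℂ) (R : ℝ) (M k : ℕ) (ε : ℝ) :
    Set (Fin N → Fin k → Fin k → ℝ) :=
  {x | (∀ j, OpLe (herm (x j)) R) ∧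
    ∀ w : List (Fin N), 1 ≤ w.length → w.length ≤ M →
      ‖ntr (wordMat (fun j => herm (x j)) w) - m w‖ < ε}

/-- `k⁻² log vol Γ_R(X; M, k, ε) + (N/2) log k`, in `[-∞, ∞]`. -/
def microEntropy {N : ℕ} (m : List (Fin N) → ℂ) (R : ℝ) (M k : ℕ) (ε : ℝ) : EReal :=
  (((k : ℝ) ^ 2)⁻¹ : ℝ) * ENNReal.log (volume (microstates m R M k ε))
    + (((N : ℝ) / 2 * Real.log k : ℝ) : EReal)

/-- Voiculescu's microstates free entropy `χ`. -/
def freeEntropy {N : ℕ} (m : List (Fin N) → ℂ) : EReal :=
  ⨆ (R : ℝ) (_ : 0 < R), ⨅ (M : ℕ) (ε : ℝ) (_ : 0 < ε),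
    limsup (fun k : ℕ => microEntropy m R M k ε) atTop

/-- Mixed moments of the tuple (`Sum.inl`) and a free family of variance one semicirculars
(`Sum.inr`) free from it: `τ (a s_i b) = ∑ τ p * τ q` over the splittings `b a = p s_i q`. -/
def mixedMoment {N : ℕ} (m : List (Fin N) → ℂ) : List (Fin N ⊕ Fin N) → ℂ
  | w =>
    if h : ∃ l : Fin w.length, (w.get l).isRight then
      let l := Fin.find (p := fun l : Fin w.length => (w.get l).isRight = true) h
      let v := w.drop (l + 1) ++ w.take l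
      ∑ q : Fin v.length, if v.get q = w.get l then
        mixedMoment m (v.take q) * mixedMoment m (v.drop (q + 1)) else 0
    else m (w.map (Sum.elim id id))
  termination_by w => w.length
  decreasing_by
    all_goals
      have := q.isLt
      have := l.isLt
      simp only [v, List.length_append, List.length_take, List.length_drop] at *
      omega

/-- The law of `(X_j + √(t_j) S_j)_j` with `S` free semicirculars, free from `X`. -/
def addSemicircular {N : ℕ} (m : List (Fin N) → ℂ) (t : Fin N → ℝ) (w : List (Fin N)) : ℂ :=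
  ∑ c : Fin w.length → Bool,
    (∏ l : Fin w.length, if c l then (Real.sqrt (t (w.get l)) : ℂ) else 1) *
      mixedMoment m (List.ofFn fun l => if c l then Sum.inr (w.get l) else Sum.inl (w.get l))

/-- `(τ ⊗ τ)(∂_j w)`. -/
def dqPair {N : ℕ} (m : List (Fin N) → ℂ) (j : Fin N) (w : List (Fin N)) : ℂ :=
  ∑ l : Fin w.length, if w.get l = j then m (w.take l) * m (w.drop (l + 1)) else 0

/-- Free Fisher information: the sum over `j` of the squared `L²` norms of the functionals
`P ↦ (τ ⊗ τ)(∂_j P)`, i.e. `∑ ‖ξ_j‖₂²`, and `∞` when conjugate variables do not exist. -/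
def fisher {N : ℕ} (m : List (Fin N) → ℂ) : ℝ≥0∞ :=
  ∑ j : Fin N, ⨆ P : List (Fin N) →₀ ℂ,
    ENNReal.ofReal (‖∑ w ∈ P.support, P w * dqPair m j w‖ ^ 2) /
      ENNReal.ofReal (∑ v ∈ P.support, ∑ w ∈ P.support,
        starRingEnd ℂ (P v) * P w * m (v.reverse ++ w)).re

/-- The integrand in the definition of `χ*`. -/
def starIntegrand {N : ℕ} (m : List (Fin N) → ℂ) (t : ℝ) : ℝ :=
  (N : ℝ) / (1 + t) - (fisher (addSemicircular m fun _ => t)).toReal

/-- Voiculescu's nonmicrostates free entropy `χ*`. -/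
def freeEntropyStar {N : ℕ} (m : List (Fin N) → ℂ) : ℝ :=
  1 / 2 * (∫ t in Set.Ioi (0 : ℝ), starIntegrand m t)
    + (N : ℝ) / 2 * Real.log (2 * Real.pi * Real.exp 1)

end

end VAgent.P087
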