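import Mathlib
import Vale.Agent.P087.Defs

/-!
# P087: the model

Letters `U k` (`k ∈ ℤ`, powers of a Haar unitary) and a free family of semicirculars `G j`, free
from `U`; `tau` is their joint law.  The counterexample is the law of the tuple `Y 0`.
-/

namespace VAgent.P087

open scoped ComplexConjugate

noncomputable section

/-- Letters: `Sum.inl k` is `U^k`, `Sum.inr j` is the semicircular `G j`. -/
abbrev Letter (J : Type) : Type := ℤ ⊕ J

/-- Sum of the exponents. -/
def charge {J : Type} (w : List (Letter J)) : ℤ := (w.map (Sum.elim id fun _ => 0)).sum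

/-- The joint law. -/
def tau {J : Type} [DecidableEq J] : List (Letter J) → ℂ
  | w =>
    if h : ∃ l : Fin w.length, (w.get l).isRight then
      let l := Fin.find (p := fun l : Fin w.length => (w.get l).isRight = true) h
      let v := w.drop (l + 1) ++ w.take l
      ∑ q : Fin v.length, if v.get q = w.get l then
        tau (v.take q) * tau (v.drop (q + 1)) else 0
    else if charge w = 0 then 1 else 0
  termination_by w => w.length
  decreasing_by
    all_goals
      have := q.isLt
      have := l.isLt
      simp only [v, List.length_append, List.length_take, List.length_drop] at *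
      omega

/-- Noncommutative polynomials in the letters. -/
abbrev Poly (J : Type) : Type := MonoidAlgebra ℂ (FreeMonoid (Letter J))

variable {J : Type}

/-- A single letter as a polynomial. -/
def letterPoly (a : Letter J) : Poly J := MonoidAlgebra.single (FreeMonoid.of a) 1

/-- `U^k`. -/
def polyU (k : ℤ) : Poly J := letterPoly (Sum.inl k)

/-- `G j`. -/
def polyG (j : J) : Poly J := letterPoly (Sum.inr j)

/-- The linear extension of `tau`. -/
def tauL [DecidableEq J] : Poly J →ₗ[ℂ] ℂ :=
  (MonoidAlgebra.basis (FreeMonoid (Letter J)) ℂ).constr ℂ fun w => tau (FreeMonoid.toList w)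

/-- The adjoint of a word. -/
def adjWord (w : List (Letter J)) : List (Letter J) := (w.map (Sum.map (fun k => -k) id)).reverse

/-- Evaluation of the letters at matrices: `U` the cyclic shift, `G j` the given matrices. -/
def letterMat {k : ℕ} (G : J → Matrix (Fin k) (Fin k) ℂ) : Letter J → Matrix (Fin k) (Fin k) ℂ
  | Sum.inl i => Matrix.of fun a b => if ((a : ℕ) : ℤ) ≡ ((b : ℕ) : ℤ) + i [ZMOD (k : ℤ)] then 1 else 0
  | Sum.inr j => G j

/-- Parameters of the counterexample. -/
structure Params where
  /-- number of conjugates -/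
  n : ℕ
  /-- exponents -/
  g : Fin n → ℤ
  /-- weight of the unitary -/
  θ : ℝ
  /-- noise variances -/
  v : Fin (2 + n) → ℝ

variable (p : Params)

/-- Noise letters `(j, false)` and `(j, true)`, and `z`. -/
abbrev Params.Noise : Type := (Fin (2 + p.n) × Bool) ⊕ Unit

/-- `θ (u + u*)`, `-i θ (u - u*)` and `u^(g e) z u^(-g e)`. -/
def Params.base : Fin (2 + p.n) → Poly p.Noise :=
  Fin.addCases
    (fun i : Fin 2 => if i = 0 then (p.θ : ℂ) • (polyU 1 + polyU (-1))
      else (p.θ : ℂ) • ((-Complex.I) • polyU 1 + Complex.I • polyU (-1)))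
    (fun e => polyU (p.g e) * polyG (Sum.inr ()) * polyU (-p.g e))

/-- `Y t j = base j + √(v j) S + √t S'`. -/
def Params.Y (t : ℝ) (j : Fin (2 + p.n)) : Poly p.Noise :=
  p.base j + (Real.sqrt (p.v j) : ℂ) • polyG (Sum.inl (j, false))
    + (Real.sqrt t : ℂ) • polyG (Sum.inl (j, true))

/-- The law of `Y t`. -/
def Params.law (t : ℝ) (w : List (Fin (2 + p.n))) : ℂ := tauL ((w.map (p.Y t)).prod)

end

end VAgent.P087
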