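import Mathlib
import Vale.Agent.P087.Model
import Vale.Agent.P087.Matrices.Moments
import Vale.Agent.P087.Matrices.Norm

/-!
# P087: Gaussian matrices approximate the model
-/

namespace VAgent.P087

open MeasureTheory ProbabilityTheory Filter
open scoped ComplexConjugate Topology

noncomputable section

variable {J : Type} [Fintype J] [DecidableEq J]

/-- The normalised trace of a word at a sample. -/
def wtr {k : ℕ} (x : J → Fin k → Fin k → ℝ) (w : List (Letter J)) : ℂ :=
  ntr ((w.map (letterMat fun j => herm (x j))).prod)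

omit [DecidableEq J] in
lemma integrable_wtr (k : ℕ) (L : List (List (Letter J))) :
    Integrable (fun x => (L.map (wtr x)).prod) (gaussCoord J k) :=
  (integrable_ev (FP L)).congr (.of_forall fun x => ev_FP x L)

lemma tendsto_prod_wtr (L : List (List (Letter J))) :
    Tendsto (fun k => ∫ x, (L.map (wtr x)).prod ∂gaussCoord J k) atTop (𝓝 (L.map tau).prod) :=
  (tendsto_expv L).congr fun _ => integral_congr_ae (.of_forall fun x => ev_FP x L)

lemma tendsto_wtr (w : List (Letter J)) :
    Tendsto (fun k => ∫ x, wtr x w ∂gaussCoord J k) atTop (𝓝 (tau w)) := by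
  simpa using tendsto_prod_wtr [w]

/-- The joint law is tracial. -/
theorem tau_cyclic (u v : List (Letter J)) : tau (u ++ v) = tau (v ++ u) := by
  refine tendsto_nhds_unique ((tendsto_wtr (u ++ v)).congr fun k => ?_) (tendsto_wtr (v ++ u))
  refine integral_congr_ae (.of_forall fun x => ?_)
  simp only [wtr, ntr, List.map_append, List.prod_append]
  rw [Matrix.trace_mul_comm]

omit [Fintype J] [DecidableEq J] in
lemma herm_isHermitian {k : ℕ} (y : Fin k → Fin k → ℝ) : (herm y).IsHermitian := by
  ext a b
  simp only [Matrix.conjTranspose_apply, herm, Matrix.of_apply]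
  rcases lt_trichotomy a b with h | rfl | h
  · simp only [h.ne, h.ne', h, h.not_gt, if_true, if_false]
    simp [sub_eq_add_neg]
  · simp
  · simp only [h.ne, h.ne', h, h.not_gt, if_true, if_false]
    simp [sub_eq_add_neg]

omit [Fintype J] [DecidableEq J] in
lemma prod_adjWord {k : ℕ} (x : J → Fin k → Fin k → ℝ) (w : List (Letter J)) :
    ((adjWord w).map (letterMat fun j => herm (x j))).prod =
      ((w.map (letterMat fun j => herm (x j))).prod).conjTranspose := by
  induction w with
  | nil => simp [adjWord]
  | cons a w ih =>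
    have e : adjWord (a :: w) = adjWord w ++ [Sum.map (fun i => -i) id a] := by simp [adjWord]
    rw [e, List.map_append, List.prod_append, ih]
    simp only [List.map_cons, List.prod_cons, List.map_nil, List.prod_nil, mul_one,
      Matrix.conjTranspose_mul]
    congr 1
    rcases a with i | j
    · ext c d
      simp only [Sum.map_inl, Matrix.conjTranspose_apply, letterMat, Matrix.of_apply]
      have hiff : (((c : ℕ) : ℤ) ≡ ((d : ℕ) : ℤ) + -i [ZMOD (k : ℤ)]) ↔
          (((d : ℕ) : ℤ) ≡ ((c : ℕ) : ℤ) + i [ZMOD (k : ℤ)]) := by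
        rw [Int.modEq_iff_dvd, Int.modEq_iff_dvd, ← dvd_neg]
        ring_nf
      by_cases h : ((d : ℕ) : ℤ) ≡ ((c : ℕ) : ℤ) + i [ZMOD (k : ℤ)]
      · rw [if_pos (hiff.2 h), if_pos h, star_one]
      · rw [if_neg (mt hiff.1 h), if_neg h, star_zero]
    · simp [letterMat, (herm_isHermitian (x j)).eq]

omit [Fintype J] [DecidableEq J] in
lemma wtr_adjWord {k : ℕ} (x : J → Fin k → Fin k → ℝ) (w : List (Letter J)) :
    wtr x (adjWord w) = conj (wtr x w) := by
  simp [wtr, ntr, prod_adjWord, Matrix.trace_conjTranspose]

/-- The joint law is self-adjoint. -/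
theorem tau_adjWord (w : List (Letter J)) : tau (adjWord w) = conj (tau w) := by
  refine tendsto_nhds_unique ((tendsto_wtr (adjWord w)).congr fun k => ?_)
    ((Complex.continuous_conj.tendsto _).comp (tendsto_wtr w))
  simp only [Function.comp_apply, wtr_adjWord]
  exact integral_conj

/-- The joint law is positive. -/
theorem tau_positive (P : List (Letter J) →₀ ℂ) :
    0 ≤ (∑ v ∈ P.support, ∑ w ∈ P.support, conj (P v) * P w * tau (adjWord v ++ w)).re := by
  refine ge_of_tendsto' ((Complex.continuous_re.tendsto _).comp (tendsto_finsetSum P.support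
    fun v _ => tendsto_finsetSum P.support fun w _ =>
      (tendsto_wtr (adjWord v ++ w)).const_mul (conj (P v) * P w))) fun k => ?_
  have hint : ∀ w, Integrable (fun x => wtr x w) (gaussCoord J k) := fun w => by
    simpa using integrable_wtr k [w]
  have hi : ∀ v w, Integrable (fun x => conj (P v) * P w * wtr x (adjWord v ++ w)) (gaussCoord J k) :=
    fun v w => (hint _).const_mul _
  simp only [Function.comp_apply, ← integral_const_mul]
  rw [Finset.sum_congr rfl fun v _ => (integral_finsetSum _ fun w _ => hi v w).symm,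
    ← integral_finsetSum _ fun v _ => integrable_finsetSum _ fun w _ => hi v w]
  have hsum : ∀ x : J → Fin k → Fin k → ℝ,
      ∑ v ∈ P.support, ∑ w ∈ P.support, conj (P v) * P w * wtr x (adjWord v ++ w) =
        ntr ((∑ w ∈ P.support, P w • (w.map (letterMat fun j => herm (x j))).prod).conjTranspose *
          ∑ w ∈ P.support, P w • (w.map (letterMat fun j => herm (x j))).prod) := by
    intro x
    simp only [wtr, ntr, List.map_append, List.prod_append, prod_adjWord, Matrix.conjTranspose_sum,
      Matrix.conjTranspose_smul, Finset.sum_mul, Finset.mul_sum, Matrix.trace_sum,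
      Matrix.smul_mul, Matrix.mul_smul, Matrix.trace_smul, smul_smul, smul_eq_mul]
    rw [Finset.sum_comm]
    exact Finset.sum_congr rfl fun v _ => Finset.sum_congr rfl fun w _ => by
      rw [starRingEnd_apply]; ring
  have hre := integral_re (integrable_finsetSum P.support fun v _ =>
    integrable_finsetSum P.support fun w _ => hi v w)
  simp only [RCLike.re_to_complex] at hre
  rw [← hre]
  refine integral_nonneg fun x => ?_
  simp only [Pi.zero_apply, hsum]
  set Q := ∑ w ∈ P.support, P w • (w.map (letterMat fun j => herm (x j))).prod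
  have hQ : (0 : ℝ) ≤ (Matrix.trace (Q.conjTranspose * Q)).re := by
    simp only [Matrix.trace, Matrix.diag, Matrix.mul_apply, Matrix.conjTranspose_apply,
      Complex.re_sum]
    refine Finset.sum_nonneg fun a _ => Finset.sum_nonneg fun b _ => ?_
    simp [Complex.mul_re, ← sq]
    positivity
  rw [ntr, ← Complex.ofReal_natCast, ← Complex.ofReal_inv, Complex.re_ofReal_mul]
  positivity

lemma tendsto_real_bad_moment (w : List (Letter J)) {ε : ℝ} (hε : 0 < ε) :
    Tendsto (fun k => (gaussCoord J k).real {x | ε ≤ ‖wtr x w - tau w‖}) atTop (𝓝 0) := by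
  have hint : ∀ k L, Integrable (fun x => (List.map (wtr x) L).prod) (gaussCoord J k) :=
    fun k L => integrable_wtr k L
  have e : ∀ (k : ℕ) (x : J → Fin k → Fin k → ℝ), ((‖wtr x w - tau w‖ ^ 2 : ℝ) : ℂ) =
      ([adjWord w, w].map (wtr x)).prod - conj (tau w) * ([w].map (wtr x)).prod -
        tau w * ([adjWord w].map (wtr x)).prod + conj (tau w) * tau w := by
    intro k x
    push_cast
    rw [← Complex.conj_mul' (wtr x w - tau w)]
    simp [wtr_adjWord]
    ring
  have h2 : Tendsto (fun k => ∫ x, ((‖wtr x w - tau w‖ ^ 2 : ℝ) : ℂ) ∂gaussCoord J k) atTop (𝓝 0) := by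
    have hfun : ∀ k, ∫ x, ((‖wtr x w - tau w‖ ^ 2 : ℝ) : ℂ) ∂gaussCoord J k =
        (∫ x, ([adjWord w, w].map (wtr x)).prod ∂gaussCoord J k) -
          conj (tau w) * (∫ x, ([w].map (wtr x)).prod ∂gaussCoord J k) -
          tau w * (∫ x, ([adjWord w].map (wtr x)).prod ∂gaussCoord J k) + conj (tau w) * tau w := by
      intro k
      simp only [e]
      rw [integral_add, integral_sub, integral_sub, integral_const_mul, integral_const_mul,
        integral_const]
      · simp
      · exact hint k _
      · exact (hint k _).const_mul _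
      · exact (hint k _).sub ((hint k _).const_mul _)
      · exact (hint k _).const_mul _
      · exact ((hint k _).sub ((hint k _).const_mul _)).sub ((hint k _).const_mul _)
      · exact integrable_const _
    simp only [hfun]
    have h := (((tendsto_prod_wtr [adjWord w, w]).sub
      ((tendsto_prod_wtr [w]).const_mul (conj (tau w)))).sub
      ((tendsto_prod_wtr [adjWord w]).const_mul (tau w))).add_const (conj (tau w) * tau w)
    convert h using 2
    simp [tau_adjWord]
    ring
  have h3 : Tendsto (fun k => ∫ x, ‖wtr x w - tau w‖ ^ 2 ∂gaussCoord J k) atTop (𝓝 0) := by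
    have h := (Complex.continuous_re.tendsto 0).comp h2
    simp only [Complex.zero_re] at h
    refine h.congr fun k => ?_
    simp only [Function.comp_apply, integral_complex_ofReal, Complex.ofReal_re]
  have hlim := h3.div_const (ε ^ 2)
  rw [zero_div] at hlim
  refine tendsto_of_tendsto_of_tendsto_of_le_of_le' tendsto_const_nhds hlim
    (.of_forall fun _ => measureReal_nonneg) (.of_forall fun k => ?_)
  rw [le_div_iff₀' (by positivity)]
  have hsq : Integrable (fun x => ‖wtr x w - tau w‖ ^ 2) (gaussCoord J k) := by
    have h : Integrable (fun x => ((‖wtr x w - tau w‖ ^ 2 : ℝ) : ℂ)) (gaussCoord J k) := by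
      simp only [e]
      exact (((hint k _).sub ((hint k _).const_mul _)).sub ((hint k _).const_mul _)).add
        (integrable_const _)
    simpa [← Complex.ofReal_pow] using h.re
  refine le_trans ?_ (mul_meas_ge_le_integral_of_nonneg (.of_forall fun x => by positivity) hsq
    (ε ^ 2))
  refine mul_le_mul_of_nonneg_left (measureReal_mono ?_ (measure_ne_top _ _)) (by positivity)
  exact fun x hx => pow_le_pow_left₀ hε.le hx 2

/-- With probability at least one half, Gaussian matrices are microstates of the model. -/
theorem gauss_microstates (S : Finset (List (Letter J))) {ε : ℝ} (hε : 0 < ε) :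
    ∀ᶠ k : ℕ in atTop, 1 / 2 ≤ gaussCoord J k {x |
      (∀ w ∈ S, ‖ntr ((w.map (letterMat fun j => herm (x j))).prod) - tau w‖ < ε) ∧
        ∀ j, OpLe (herm (x j)) 16} := by
  have hlim := (tendsto_finsetSum S fun w _ => tendsto_real_bad_moment w hε).add
    (tendsto_norm_bad (J := J))
  simp only [Finset.sum_const_zero, add_zero] at hlim
  filter_upwards [hlim.eventually (gt_mem_nhds (by norm_num : (0 : ℝ) < 1 / 2))] with k hk
  set A := {x : J → Fin k → Fin k → ℝ |
      (∀ w ∈ S, ‖ntr ((w.map (letterMat fun j => herm (x j))).prod) - tau w‖ < ε) ∧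
        ∀ j, OpLe (herm (x j)) 16}
  have hB : (gaussCoord J k).real Aᶜ ≤ 1 / 2 := by
    refine le_trans ?_ hk.le
    refine (measureReal_mono (s₂ := (⋃ w ∈ S, {x | ε ≤ ‖wtr x w - tau w‖}) ∪
      {x | ¬ ∀ j, OpLe (herm (x j)) 16}) ?_ (measure_ne_top _ _)).trans
      ((measureReal_union_le _ _).trans (add_le_add (measureReal_biUnion_finset_le _ _) le_rfl))
    intro x hx
    by_contra h
    simp only [Set.mem_union, Set.mem_iUnion, Set.mem_ofPred_eq, not_or, not_exists, not_le,
      not_not] at h
    exact hx ⟨fun w hw => h.1 w hw, h.2⟩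
  have h1 : 1 ≤ (gaussCoord J k).real A + (gaussCoord J k).real Aᶜ := by
    have := measureReal_union_le (μ := gaussCoord J k) A Aᶜ
    simpa using this
  have h2 : ENNReal.ofReal (1 / 2) ≤ ENNReal.ofReal ((gaussCoord J k).real A) :=
    ENNReal.ofReal_le_ofReal (by linarith)
  rw [ofReal_measureReal] at h2
  simpa [ENNReal.ofReal_div_of_pos] using h2

omit [Fintype J] [DecidableEq J] in
/-- Operator bounds multiply along words. -/
lemma opLe_wordMat {k : ℕ} (x : J → Fin k → Fin k → ℝ) (hx : ∀ j, OpLe (herm (x j)) 16)
    (w : List (Letter J)) : OpLe ((w.map (letterMat fun j => herm (x j))).prod) (16 ^ w.length) := by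
  induction w with
  | nil => intro v; simp
  | cons a w ih =>
    intro v
    rw [List.map_cons, List.prod_cons, ← Matrix.mulVec_mulVec, List.length_cons, pow_succ']
    have ha : OpLe (letterMat (fun j => herm (x j)) a) 16 := by
      rcases a with i | j
      · intro u
        refine le_trans ?_ (le_mul_of_one_le_left (by positivity) (by norm_num : (1:ℝ) ≤ 16 ^ 2))
        set m : Fin k → Fin k := fun c =>
          ⟨((((c : ℕ) : ℤ) - i) % (k : ℤ)).toNat, by
            have := Int.emod_lt_of_pos (((c : ℕ) : ℤ) - i) (by exact_mod_cast c.pos : (0:ℤ) < k)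
            have := Int.emod_nonneg (((c : ℕ) : ℤ) - i) (by
              have := c.pos; positivity : (k:ℤ) ≠ 0)
            omega⟩
        have hm : ∀ c d : Fin k,
            (((c : ℕ) : ℤ) ≡ ((d : ℕ) : ℤ) + i [ZMOD (k : ℤ)]) ↔ d = m c := by
          intro c d
          have hmc : ((m c : ℕ) : ℤ) = (((c : ℕ) : ℤ) - i) % (k : ℤ) :=
            Int.toNat_of_nonneg (Int.emod_nonneg _ (by have := c.pos; positivity))
          constructor
          · intro h
            refine Fin.ext ?_
            have h' := (h.sub_right i).eq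
            rw [add_sub_cancel_right, Int.emod_eq_of_lt (a := ((d : ℕ) : ℤ)) (by positivity)
              (by exact_mod_cast d.2), ← hmc] at h'
            exact_mod_cast h'.symm
          · rintro rfl
            rw [hmc]
            have := ((Int.mod_modEq (((c : ℕ) : ℤ) - i) (k : ℤ)).add_right i).symm
            rwa [sub_add_cancel] at this
        have hinj : Function.Injective m := by
          intro c c' h
          have h1 := (hm c (m c)).2 rfl
          have h2 := (hm c' (m c)).2 h
          have h3 := (h1.trans h2.symm).eq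
          rw [Int.emod_eq_of_lt (by positivity) (by exact_mod_cast c.2),
            Int.emod_eq_of_lt (by positivity) (by exact_mod_cast c'.2)] at h3
          exact Fin.ext (by exact_mod_cast h3)
        have hval : ∀ c, ((letterMat (fun j => herm (x j)) (Sum.inl i)).mulVec u) c = u (m c) := by
          intro c
          simp only [Matrix.mulVec, dotProduct, letterMat, Matrix.of_apply, ite_mul, one_mul,
            zero_mul]
          simp [hm]
        simp only [hval]
        exact le_of_eq ((Equiv.ofBijective m
          (Finite.injective_iff_bijective.1 hinj)).sum_comp fun c => ‖u c‖ ^ 2)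
      · exact hx j
    calc _ ≤ (16 : ℝ) ^ 2 * _ := ha _
      _ ≤ 16 ^ 2 * ((16 ^ w.length) ^ 2 * ∑ c, ‖v c‖ ^ 2) := by gcongr; exact ih v
      _ = _ := by ring

/-- Moments grow exponentially. -/
theorem tau_norm_le (w : List (Letter J)) : ‖tau w‖ ≤ 16 ^ w.length := by
  refine le_of_forall_pos_lt_add fun ε hε => ?_
  obtain ⟨k, hk, hk0⟩ := ((gauss_microstates {w} hε).and (eventually_gt_atTop 0)).exists
  obtain ⟨x, hx, hop⟩ := nonempty_of_measure_ne_zero (lt_of_lt_of_le (by norm_num) hk).ne'
  have h := hx w (Finset.mem_singleton_self w)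
  set A := (w.map (letterMat fun j => herm (x j))).prod
  have hA := opLe_wordMat x hop w
  have hd : ∀ c : Fin k, ‖A c c‖ ≤ 16 ^ w.length := by
    intro c
    have h1 := hA (Pi.single c 1)
    simp only [Matrix.mulVec_single_one] at h1
    have h2 : ‖A c c‖ ^ 2 ≤ ∑ a, ‖A.col c a‖ ^ 2 :=
      Finset.single_le_sum (f := fun a => ‖A.col c a‖ ^ 2) (fun a _ => by positivity)
        (Finset.mem_univ c)
    have h3 : ∑ a, ‖(Pi.single c 1 : Fin k → ℂ) a‖ ^ 2 = 1 := by
      simp [Pi.single_apply, apply_ite]
    rw [h3, mul_one] at h1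
    exact (pow_le_pow_iff_left₀ (norm_nonneg _) (by positivity) two_ne_zero).1 (h2.trans h1)
  have hn : ‖ntr A‖ ≤ 16 ^ w.length := by
    rw [ntr, norm_mul, norm_inv, Complex.norm_natCast, inv_mul_le_iff₀ (by exact_mod_cast hk0)]
    calc ‖A.trace‖ ≤ ∑ c, ‖A c c‖ := norm_sum_le _ _
      _ ≤ ∑ _c : Fin k, (16 : ℝ) ^ w.length := Finset.sum_le_sum fun c _ => hd c
      _ = _ := by simp
  calc ‖tau w‖ ≤ ‖ntr A‖ + ‖ntr A - tau w‖ := by
        simpa using norm_sub_le (ntr A) (ntr A - tau w)
    _ < 16 ^ w.length + ε := add_lt_add_of_le_of_lt hn h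

end

end VAgent.P087
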