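import Mathlib
import Vale.Agent.P087.Matrices

/-!
# P087: the tuple has microstates

The law of the tuple is a limit of laws of tuples of Hermitian matrices (`gauss_microstates`),
hence a law; at `t = 0` the noise gives the microstates positive volume at the scale `k ^ (-N/2)`.
-/

namespace VAgent.P087

open MeasureTheory ProbabilityTheory Filter
open scoped ComplexConjugate NNReal ENNReal Matrix

noncomputable section

namespace Lower

variable {k : ℕ}

/-- The operator norm. -/
def opn (A : Matrix (Fin k) (Fin k) ℂ) : ℝ :=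
  ‖Matrix.toEuclideanCLM (n := Fin k) (𝕜 := ℂ) A‖

lemma opn_le_of_opLe {A : Matrix (Fin k) (Fin k) ℂ} {R : ℝ} (hR : 0 ≤ R) (h : OpLe A R) :
    opn A ≤ R := by
  refine ContinuousLinearMap.opNorm_le_bound _ hR fun x => ?_
  have h2 := h (WithLp.ofLp x)
  rw [EuclideanSpace.norm_eq, EuclideanSpace.norm_eq, ← Real.sqrt_sq hR,
    ← Real.sqrt_mul (sq_nonneg R)]
  refine Real.sqrt_le_sqrt ?_
  simpa [Matrix.ofLp_toEuclideanCLM] using h2

lemma opLe_of_opn_le {A : Matrix (Fin k) (Fin k) ℂ} {R : ℝ} (h : opn A ≤ R) : OpLe A R := by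
  intro v
  have h1 : ‖Matrix.toEuclideanCLM (n := Fin k) (𝕜 := ℂ) A (WithLp.toLp 2 v)‖ ≤
      R * ‖(WithLp.toLp 2 v : EuclideanSpace ℂ (Fin k))‖ :=
    ((Matrix.toEuclideanCLM (n := Fin k) (𝕜 := ℂ) A).le_opNorm _).trans
      (mul_le_mul_of_nonneg_right h (norm_nonneg _))
  have h2 := pow_le_pow_left₀ (norm_nonneg _) h1 2
  rw [mul_pow, EuclideanSpace.norm_sq_eq, EuclideanSpace.norm_sq_eq] at h2
  simpa [Matrix.toEuclideanCLM_toLp] using h2

lemma opn_nonneg (A : Matrix (Fin k) (Fin k) ℂ) : 0 ≤ opn A := norm_nonneg _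

lemma opn_add (A B : Matrix (Fin k) (Fin k) ℂ) : opn (A + B) ≤ opn A + opn B := by
  simp only [opn, map_add]
  exact norm_add_le _ _

lemma opn_smul (c : ℂ) (A : Matrix (Fin k) (Fin k) ℂ) : opn (c • A) = ‖c‖ * opn A := by
  simp only [opn, map_smul, norm_smul]

lemma opn_mul (A B : Matrix (Fin k) (Fin k) ℂ) : opn (A * B) ≤ opn A * opn B := by
  simp only [opn, map_mul]
  exact norm_mul_le _ _

lemma opn_one : opn (1 : Matrix (Fin k) (Fin k) ℂ) ≤ 1 := by
  simp only [opn, map_one]
  exact ContinuousLinearMap.norm_id_le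

lemma opn_list_prod (l : List (Matrix (Fin k) (Fin k) ℂ)) (R : ℝ) (hR : 0 ≤ R)
    (h : ∀ A ∈ l, opn A ≤ R) : opn l.prod ≤ R ^ l.length := by
  induction l with
  | nil => simpa using opn_one
  | cons A l ih =>
    rw [List.prod_cons, List.length_cons, pow_succ']
    exact (opn_mul _ _).trans (mul_le_mul (h A (by simp)) (ih fun B hB => h B (by simp [hB]))
      (opn_nonneg _) hR)

lemma norm_entry_le (A : Matrix (Fin k) (Fin k) ℂ) (a b : Fin k) : ‖A a b‖ ≤ opn A := by
  have h := (Matrix.toEuclideanCLM (n := Fin k) (𝕜 := ℂ) A).le_opNorm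
    (EuclideanSpace.single b (1 : ℂ))
  rw [PiLp.norm_single, norm_one, mul_one] at h
  refine le_trans (le_of_eq ?_) ((PiLp.norm_apply_le _ a).trans h)
  simp [EuclideanSpace.single, Matrix.toEuclideanCLM_toLp]

lemma norm_ntr_le (A : Matrix (Fin k) (Fin k) ℂ) : ‖ntr A‖ ≤ opn A := by
  rcases Nat.eq_zero_or_pos k with rfl | hk
  · simp [ntr, Matrix.trace, opn_nonneg]
  rw [ntr, norm_mul, norm_inv, Complex.norm_natCast, inv_mul_le_iff₀ (by exact_mod_cast hk)]
  refine (norm_sum_le _ _).trans ((Finset.sum_le_sum fun a _ => norm_entry_le A a a).trans ?_)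
  simp [mul_comm]

lemma ntr_mul_comm (A B : Matrix (Fin k) (Fin k) ℂ) : ntr (A * B) = ntr (B * A) := by
  rw [ntr, ntr, Matrix.trace_mul_comm]

lemma ntr_conjTranspose (A : Matrix (Fin k) (Fin k) ℂ) : ntr Aᴴ = conj (ntr A) := by
  simp [ntr, Matrix.trace_conjTranspose]

lemma herm_isHermitian (x : Fin k → Fin k → ℝ) : (herm x).IsHermitian := by
  ext a b
  simp only [Matrix.conjTranspose_apply, herm, Matrix.of_apply]
  rcases lt_trichotomy a b with h | h | h
  · simp [h, h.ne, h.ne', h.not_gt, sub_eq_add_neg]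
  · subst h; simp
  · simp [h, h.ne, h.ne', h.not_gt, sub_eq_add_neg]

/-- Coordinates of a Hermitian matrix. -/
def crd (A : Matrix (Fin k) (Fin k) ℂ) : Fin k → Fin k → ℝ := fun a b =>
  if a = b then (A a a).re
  else if a < b then Real.sqrt 2 * (A a b).re else Real.sqrt 2 * (A b a).im

lemma herm_crd {A : Matrix (Fin k) (Fin k) ℂ} (hA : A.IsHermitian) : herm (crd A) = A := by
  ext a b
  have h2 : (Real.sqrt 2 : ℂ) ≠ 0 := by simp
  have hba : ∀ a b, A b a = conj (A a b) := fun a b => (hA.apply b a).symm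
  simp only [herm, crd, Matrix.of_apply]
  rcases lt_trichotomy a b with h | h | h
  · rw [if_neg h.ne, if_pos h, if_pos h, if_neg h.ne', if_neg h.not_gt, if_neg h.ne]
    rw [div_eq_iff h2]
    push_cast
    linear_combination (Real.sqrt 2 : ℂ) * Complex.re_add_im (A a b)
  · subst h
    simpa using Complex.conj_eq_iff_re.1 (hba a a).symm
  · rw [if_neg h.ne', if_neg h.not_gt, if_neg h.ne, if_pos h, if_neg h.ne', if_neg h.not_gt]
    rw [div_eq_iff h2, hba b a]
    apply Complex.ext <;> simp <;> ring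

lemma herm_add (x y : Fin k → Fin k → ℝ) : herm (x + y) = herm x + herm y := by
  ext a b
  simp only [herm, Matrix.of_apply, Matrix.add_apply, Pi.add_apply]
  split_ifs <;> push_cast <;> ring

lemma herm_smul (c : ℝ) (x : Fin k → Fin k → ℝ) : herm (c • x) = (c : ℂ) • herm x := by
  ext a b
  simp only [herm, Matrix.of_apply, Matrix.smul_apply, Pi.smul_apply, smul_eq_mul]
  split_ifs <;> push_cast <;> ring

lemma continuous_herm : Continuous (herm : (Fin k → Fin k → ℝ) → Matrix (Fin k) (Fin k) ℂ) := by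
  refine continuous_matrix fun a b => ?_
  simp only [herm, Matrix.of_apply]
  split_ifs <;> fun_prop

lemma continuous_crd : Continuous (crd : Matrix (Fin k) (Fin k) ℂ → Fin k → Fin k → ℝ) := by
  refine continuous_pi fun a => continuous_pi fun b => ?_
  simp only [crd]
  split_ifs <;> fun_prop

variable {J : Type}

/-- Evaluation of polynomials at matrices. -/
def ev (G : J → Matrix (Fin k) (Fin k) ℂ) : Poly J →ₐ[ℂ] Matrix (Fin k) (Fin k) ℂ :=
  MonoidAlgebra.lift ℂ (Matrix (Fin k) (Fin k) ℂ) (FreeMonoid (Letter J))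
    (FreeMonoid.lift (letterMat G))

lemma ev_letter (G : J → Matrix (Fin k) (Fin k) ℂ) (a : Letter J) :
    ev G (letterPoly a) = letterMat G a := by
  simp [ev, letterPoly]

lemma ev_single (G : J → Matrix (Fin k) (Fin k) ℂ) (w : FreeMonoid (Letter J)) (c : ℂ) :
    ev G (MonoidAlgebra.single w c) = c • ((FreeMonoid.toList w).map (letterMat G)).prod := by
  simp [ev, FreeMonoid.lift_apply]

lemma opn_shift (G : J → Matrix (Fin k) (Fin k) ℂ) (i : ℤ) : opn (letterMat G (Sum.inl i)) ≤ 1 := by
  rcases Nat.eq_zero_or_pos k with rfl | hk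
  · refine opn_le_of_opLe zero_le_one fun v => ?_
    simp
  refine opn_le_of_opLe zero_le_one fun v => ?_
  haveI : NeZero k := ⟨hk.ne'⟩
  let σ : Fin k ≃ ZMod k := (ZMod.finEquiv k).toEquiv
  have hσ : ∀ a : Fin k, σ a = ((a : ℕ) : ZMod k) := fun a => by
    obtain ⟨k, rfl⟩ := Nat.exists_eq_succ_of_ne_zero hk.ne'
    exact (ZMod.natCast_zmod_val _).symm.trans rfl
  have key : ∀ a, ((letterMat G (Sum.inl i)).mulVec v) a = v (σ.symm (σ a - (i : ZMod k))) := by
    intro a
    simp only [Matrix.mulVec, dotProduct, letterMat, Matrix.of_apply, ite_mul, one_mul, zero_mul]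
    rw [Finset.sum_eq_single (σ.symm (σ a - (i : ZMod k)))]
    · rw [if_pos]
      rw [← ZMod.intCast_eq_intCast_iff]
      push_cast
      rw [← hσ a, ← hσ, Equiv.apply_symm_apply, sub_add_cancel]
    · intro b _ hb
      rw [if_neg]
      intro h
      apply hb
      rw [← ZMod.intCast_eq_intCast_iff] at h
      push_cast at h
      rw [← hσ a, ← hσ b] at h
      rw [Equiv.eq_symm_apply, h, add_sub_cancel_right]
    · simp
  simp only [key, one_pow, one_mul]
  exact le_of_eq (Equiv.sum_comp ((σ.trans (Equiv.subRight (i : ZMod k))).trans σ.symm)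
    fun a => ‖v a‖ ^ 2)

lemma letterMat_inr (G : J → Matrix (Fin k) (Fin k) ℂ) (j : J) :
    letterMat G (Sum.inr j) = G j := rfl

lemma shift_conjTranspose (G : J → Matrix (Fin k) (Fin k) ℂ) (i : ℤ) :
    (letterMat G (Sum.inl i))ᴴ = letterMat G (Sum.inl (-i)) := by
  ext a b
  simp only [Matrix.conjTranspose_apply, letterMat, Matrix.of_apply, apply_ite star, star_one,
    star_zero]
  refine if_congr ?_ rfl rfl
  rw [← ZMod.intCast_eq_intCast_iff, ← ZMod.intCast_eq_intCast_iff]
  push_cast
  constructor <;> intro h <;> rw [h] <;> ring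

lemma ev_opn_le (G : J → Matrix (Fin k) (Fin k) ℂ) {R : ℝ} (hR : 1 ≤ R)
    (hG : ∀ j, opn (G j) ≤ R) (P : Poly J) :
    opn (ev G P) ≤ P.coeff.sum fun w c => ‖c‖ * R ^ (FreeMonoid.toList w).length := by
  have hlm : ∀ a, opn (letterMat G a) ≤ R := by
    rintro (i | j)
    · exact (opn_shift G i).trans hR
    · exact hG j
  conv_lhs => rw [← MonoidAlgebra.sum_coeff_single P, map_finsuppSum]
  simp only [Finsupp.sum, ev_single]
  refine le_trans (le_of_le_of_eq (b := ∑ w ∈ P.coeff.support,
    opn (P.coeff w • ((FreeMonoid.toList w).map (letterMat G)).prod)) ?_ rfl) ?_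
  · simp only [opn, map_sum]
    exact norm_sum_le _ _
  · refine Finset.sum_le_sum fun w _ => ?_
    rw [opn_smul]
    refine mul_le_mul_of_nonneg_left ?_ (norm_nonneg _)
    exact (opn_list_prod _ R (by linarith) fun A hA => by
      obtain ⟨a, -, rfl⟩ := List.mem_map.1 hA
      exact hlm a).trans (le_of_eq (by rw [List.length_map]))

lemma gauss_tendsto_trace {J : Type} [Fintype J] [DecidableEq J] (T : Finset (Poly J)) {ε : ℝ}
    (hε : 0 < ε) :
    ∀ᶠ k : ℕ in atTop, 1 / 2 ≤ gaussCoord J k {x |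
      (∀ P ∈ T, ‖ntr (ev (fun j => herm (x j)) P) - tauL P‖ < ε) ∧
        ∀ j, OpLe (herm (x j)) 16} := by
  classical
  let S : Finset (List (Letter J)) := T.biUnion fun P => P.coeff.support.image FreeMonoid.toList
  set C : ℝ := ∑ P ∈ T, ∑ w ∈ P.coeff.support, ‖P.coeff w‖ with hC
  have hC0 : 0 ≤ C := Finset.sum_nonneg fun P _ => Finset.sum_nonneg fun w _ => norm_nonneg _
  filter_upwards [gauss_microstates S (show 0 < ε / (C + 1) by positivity)] with k hk
  refine hk.trans (measure_mono fun x hx => ⟨fun P hP => ?_, hx.2⟩)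
  set G := fun j => herm (x j)
  have e1 : ntr (ev G P) =
      ∑ w ∈ P.coeff.support, P.coeff w * ntr (((FreeMonoid.toList w).map (letterMat G)).prod) := by
    conv_lhs => rw [← MonoidAlgebra.sum_coeff_single P, map_finsuppSum]
    simp [Finsupp.sum, ev_single, ntr, Matrix.trace_sum, Matrix.trace_smul, Finset.mul_sum,
      mul_left_comm]
  have e2 : tauL P = ∑ w ∈ P.coeff.support, P.coeff w * tau (FreeMonoid.toList w) := by
    conv_lhs => rw [← MonoidAlgebra.sum_coeff_single P, map_finsuppSum]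
    refine Finset.sum_congr rfl fun w _ => ?_
    show tauL (MonoidAlgebra.single w (P.coeff w)) = _
    have h1 : (MonoidAlgebra.single w (P.coeff w) : Poly J) =
        P.coeff w • MonoidAlgebra.basis (FreeMonoid (Letter J)) ℂ w := by
      simp [MonoidAlgebra.basis]
    rw [h1, map_smul, tauL, Module.Basis.constr_basis, smul_eq_mul]
  rw [e1, e2, ← Finset.sum_sub_distrib]
  calc ‖∑ w ∈ P.coeff.support, (P.coeff w * ntr (((FreeMonoid.toList w).map (letterMat G)).prod) -
        P.coeff w * tau (FreeMonoid.toList w))‖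
      ≤ ∑ w ∈ P.coeff.support, ‖P.coeff w‖ * (ε / (C + 1)) := by
        refine (norm_sum_le _ _).trans (Finset.sum_le_sum fun w hw => ?_)
        rw [← mul_sub, norm_mul]
        refine mul_le_mul_of_nonneg_left (hx.1 _ ?_).le (norm_nonneg _)
        exact Finset.mem_biUnion.2 ⟨P, hP, Finset.mem_image_of_mem _ hw⟩
    _ ≤ C * (ε / (C + 1)) := by
        rw [← Finset.sum_mul]
        refine mul_le_mul_of_nonneg_right ?_ (by positivity)
        exact Finset.single_le_sum (f := fun P : Poly J => ∑ w ∈ P.coeff.support, ‖P.coeff w‖)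
          (fun P _ => Finset.sum_nonneg fun w _ => norm_nonneg _) hP
    _ < ε := by
        rw [mul_div_assoc', div_lt_iff₀ (by linarith)]
        nlinarith

section Model

variable (p : Params) (t : ℝ)

/-- The matrices of the tuple. -/
def mats (x : p.Noise → Fin k → Fin k → ℝ) (j : Fin (2 + p.n)) : Matrix (Fin k) (Fin k) ℂ :=
  ev (fun i => herm (x i)) (p.Y t j)

lemma base_hermitian (x : p.Noise → Fin k → Fin k → ℝ) (j : Fin (2 + p.n)) :
    (ev (fun i => herm (x i)) (p.base j)).IsHermitian := by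
  unfold Matrix.IsHermitian
  refine Fin.addCases (fun i => ?_) (fun e => ?_) j
  · simp only [Params.base, Fin.addCases_left]
    split_ifs <;> simp only [polyU, map_add, map_smul, ev_letter, Matrix.conjTranspose_add,
      Matrix.conjTranspose_smul, shift_conjTranspose, Complex.star_def, Complex.conj_ofReal,
      map_neg, Complex.conj_I, neg_neg, add_comm]
  · simp only [Params.base, Fin.addCases_right, polyU, polyG, map_mul, ev_letter,
      Matrix.conjTranspose_mul, shift_conjTranspose, Matrix.mul_assoc, letterMat_inr,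
      (herm_isHermitian _).eq, neg_neg]

lemma mats_hermitian (x : p.Noise → Fin k → Fin k → ℝ) (j : Fin (2 + p.n)) :
    (mats p t x j).IsHermitian := by
  have h1 := base_hermitian p x j
  unfold Matrix.IsHermitian at *
  simp only [mats, Params.Y, polyG, map_add, map_smul, ev_letter, letterMat_inr,
    Matrix.conjTranspose_add, Matrix.conjTranspose_smul, h1, (herm_isHermitian _).eq,
    Complex.star_def, Complex.conj_ofReal]

lemma wordMat_mats (x : p.Noise → Fin k → Fin k → ℝ) (w : List (Fin (2 + p.n))) :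
    wordMat (mats p t x) w = ev (fun i => herm (x i)) ((w.map (p.Y t)).prod) := by
  rw [map_list_prod, List.map_map]
  rfl

/-- A bound on the norms of the matrices. -/
def bnd : ℝ :=
  ∑ j, (p.Y t j).coeff.sum fun w c => ‖c‖ * (16 : ℝ) ^ (FreeMonoid.toList w).length

lemma bnd_nonneg : 0 ≤ bnd p t :=
  Finset.sum_nonneg fun _ _ => Finset.sum_nonneg fun _ _ => by positivity

lemma gauss_good (T : Finset (List (Fin (2 + p.n)))) {ε : ℝ} (hε : 0 < ε) :
    ∀ᶠ k : ℕ in atTop, 1 / 2 ≤ gaussCoord p.Noise k {x |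
      (∀ w ∈ T, ‖ntr (wordMat (mats p t x) w) - p.law t w‖ < ε) ∧
        ∀ j, opn (mats p t x j) ≤ bnd p t} := by
  classical
  filter_upwards [gauss_tendsto_trace (T.image fun w => (w.map (p.Y t)).prod) hε] with k hk
  refine hk.trans (measure_mono fun x hx => ⟨fun w hw => ?_, fun j => ?_⟩)
  · rw [wordMat_mats]
    exact hx.1 _ (Finset.mem_image_of_mem _ hw)
  · exact (ev_opn_le _ (R := 16) (by norm_num)
      (fun i => opn_le_of_opLe (by norm_num) (hx.2 i)) _).trans
      (Finset.single_le_sum (f := fun j => (p.Y t j).coeff.sum fun w c =>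
        ‖c‖ * (16 : ℝ) ^ (FreeMonoid.toList w).length)
        (fun j _ => Finset.sum_nonneg fun _ _ => by positivity) (Finset.mem_univ j))

lemma exists_approx (T : Finset (List (Fin (2 + p.n)))) {ε : ℝ} (hε : 0 < ε) :
    ∃ (k : ℕ) (A : Fin (2 + p.n) → Matrix (Fin k) (Fin k) ℂ), 0 < k ∧
      (∀ j, (A j).IsHermitian) ∧ (∀ j, opn (A j) ≤ bnd p t) ∧
      ∀ w ∈ T, ‖ntr (wordMat A w) - p.law t w‖ < ε := by
  obtain ⟨k, hk, hk0⟩ := ((gauss_good p t T hε).and (eventually_gt_atTop 0)).exists
  obtain ⟨x, hx⟩ := nonempty_of_measure_ne_zero (ne_of_gt (lt_of_lt_of_le (by norm_num) hk))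
  exact ⟨k, mats p t x, hk0, mats_hermitian p t x, hx.2, hx.1⟩

lemma wordMat_append {N : ℕ} (A : Fin N → Matrix (Fin k) (Fin k) ℂ) (u v : List (Fin N)) :
    wordMat A (u ++ v) = wordMat A u * wordMat A v := by
  simp [wordMat]

lemma wordMat_reverse {N : ℕ} (A : Fin N → Matrix (Fin k) (Fin k) ℂ)
    (hA : ∀ j, (A j).IsHermitian) (w : List (Fin N)) :
    wordMat A w.reverse = (wordMat A w)ᴴ := by
  induction w with
  | nil => simp [wordMat]
  | cons a w ih =>
    rw [List.reverse_cons, wordMat_append, ih]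
    simp [wordMat, Matrix.conjTranspose_mul, (hA a).eq]

lemma eq_of_forall_lt {a b : ℂ} (h : ∀ δ : ℝ, 0 < δ → ‖a - b‖ ≤ δ) : a = b :=
  sub_eq_zero.1 (norm_le_zero_iff.1 (le_of_forall_pos_le_add fun δ hδ => by simpa using h δ hδ))

end Model

lemma gaussianReal_le_smul_volume (c : ℝ) {v : ℝ≥0} (hv : v ≠ 0) :
    gaussianReal c v ≤ ENNReal.ofReal (√(2 * Real.pi * v))⁻¹ • (volume : Measure ℝ) := by
  rw [gaussianReal_of_var_ne_zero _ hv]
  refine Measure.le_iff.2 fun s hs => ?_
  rw [withDensity_apply _ hs, Measure.smul_apply, smul_eq_mul]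
  calc ∫⁻ x in s, gaussianPDF c v x
      ≤ ∫⁻ _ in s, ENNReal.ofReal (√(2 * Real.pi * v))⁻¹ := by
        refine lintegral_mono fun x => ENNReal.ofReal_le_ofReal ?_
        rw [gaussianPDFReal]
        refine mul_le_of_le_one_right (by positivity) (Real.exp_le_one_iff.2 ?_)
        exact div_nonpos_of_nonpos_of_nonneg (neg_nonpos.2 (sq_nonneg _)) (by positivity)
    _ = _ := setLIntegral_const _ _

lemma pi_le_smul_pi {ι : Type} [Fintype ι] {α : ι → Type} [∀ i, MeasurableSpace (α i)]
    (μ ν : ∀ i, Measure (α i)) [∀ i, SigmaFinite (μ i)] [∀ i, SigmaFinite (ν i)]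
    (C : ι → ℝ≥0∞) (hC : ∀ i, C i ≠ ∞) (hC0 : ∀ i, C i ≠ 0) (h : ∀ i, μ i ≤ C i • ν i) :
    Measure.pi μ ≤ (∏ i, C i) • Measure.pi ν := by
  have hP : (∏ i, C i) ≠ ∞ := ENNReal.prod_ne_top fun i _ => hC i
  have hP0 : (∏ i, C i) ≠ 0 := Finset.prod_ne_zero_iff.2 fun i _ => hC0 i
  have key : ((∏ i, C i)⁻¹ • Measure.pi μ).toOuterMeasure ≤
      OuterMeasure.pi fun i => (ν i).toOuterMeasure := by
    refine OuterMeasure.le_pi.2 fun s _ => ?_
    simp only [Measure.coe_toOuterMeasure, Measure.smul_apply, smul_eq_mul, Measure.pi_pi]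
    rw [ENNReal.inv_mul_le_iff hP0 hP, ← Finset.prod_mul_distrib]
    exact Finset.prod_le_prod' fun i _ => by simpa using h i (s i)
  refine Measure.le_iff.2 fun s hs => ?_
  have h2 := key s
  have h3 : (Measure.pi ν) s = (OuterMeasure.pi fun i => (ν i).toOuterMeasure) s := by
    rw [Measure.pi]
    exact toMeasure_apply _ _ hs
  simp only [Measure.coe_toOuterMeasure, Measure.smul_apply, smul_eq_mul, ← h3] at h2 ⊢
  rwa [ENNReal.inv_mul_le_iff hP0 hP] at h2

lemma measurableSet_microstates {N : ℕ} (m : List (Fin N) → ℂ) (R : ℝ) (M k : ℕ) (ε : ℝ) :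
    MeasurableSet (microstates m R M k ε) := by
  have hc : ∀ j, Continuous fun x : Fin N → Fin k → Fin k → ℝ => herm (x j) := fun j =>
    continuous_herm.comp (continuous_apply j)
  show MeasurableSet ({x : Fin N → Fin k → Fin k → ℝ | ∀ j, OpLe (herm (x j)) R} ∩
    {x | ∀ w : List (Fin N), 1 ≤ w.length → w.length ≤ M →
      ‖ntr (wordMat (fun j => herm (x j)) w) - m w‖ < ε})
  refine MeasurableSet.inter ?_ ?_
  · refine IsClosed.measurableSet ?_
    simp only [Set.ofPred_forall, OpLe]
    exact isClosed_iInter fun j => isClosed_iInter fun v => isClosed_le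
      (continuous_finsetSum _ fun a _ => ((continuous_apply a).comp
        ((hc j).matrix_mulVec continuous_const)).norm.pow 2) continuous_const
  · simp only [Set.ofPred_forall]
    refine MeasurableSet.iInter fun w => MeasurableSet.iInter fun _ =>
      MeasurableSet.iInter fun _ => IsOpen.measurableSet ?_
    refine isOpen_lt ?_ continuous_const
    refine Continuous.norm (Continuous.sub ?_ continuous_const)
    refine continuous_const.mul (Continuous.matrix_trace ?_)
    exact continuous_list_prod w fun j _ => hc j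

section Volume

variable (p : Params) (hv : ∀ j, 0 < p.v j)

include hv in
lemma volume_microstates_ge {M : ℕ} {ε : ℝ} (hε : 0 < ε) :
    ∀ᶠ k : ℕ in atTop, ENNReal.ofReal ((1 / 2) *
        ∏ j, (Real.sqrt (2 * Real.pi * (p.v j / k)) ^ (k * k))) ≤
      volume (microstates (p.law 0) (bnd p 0 + 1) M k ε) := by
  classical
  let T : Finset (List (Fin (2 + p.n))) :=
    (Finset.range (M + 1)).biUnion fun L => Finset.univ.image (List.ofFn (n := L))
  have hT : ∀ w : List (Fin (2 + p.n)), w.length ≤ M → w ∈ T := fun w hw =>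
    Finset.mem_biUnion.2 ⟨w.length, by simpa [Nat.lt_succ_iff] using hw,
      Finset.mem_image.2 ⟨fun i => w.get i, Finset.mem_univ _, List.ofFn_get w⟩⟩
  filter_upwards [gauss_good p 0 T hε, eventually_gt_atTop 0] with k hk hk0
  set Γ := microstates (p.law 0) (bnd p 0 + 1) M k ε with hΓ
  set v : ℝ≥0 := (k : ℝ≥0)⁻¹ with hvk
  have hv0 : v ≠ 0 := inv_ne_zero (Nat.cast_ne_zero.2 hk0.ne')
  let P : p.Noise → Prop := fun i => ∃ j, i = Sum.inl (j, false)
  let emb : Fin (2 + p.n) ≃ {i // P i} := Equiv.ofBijective (fun j => ⟨Sum.inl (j, false), j, rfl⟩)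
    ⟨fun a b h => by simpa using h, fun i => by
      obtain ⟨i, j, rfl⟩ := i
      exact ⟨j, rfl⟩⟩
  let μ₁ : Measure (Fin k → Fin k → ℝ) :=
    Measure.pi fun _ => Measure.pi fun _ => gaussianReal 0 v
  let e := (MeasurableEquiv.piEquivPiSubtypeProd (fun _ : p.Noise => (Fin k → Fin k → ℝ)) P)
  have hmp := measurePreserving_piEquivPiSubtypeProd (fun _ : p.Noise => μ₁) P
  -- the base part only depends on the remaining coordinates
  let cen : ({i // ¬P i} → Fin k → Fin k → ℝ) → Fin (2 + p.n) → Fin k → Fin k → ℝ :=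
    fun r j => crd (ev (fun i => herm (if h : P i then 0 else r ⟨i, h⟩)) (p.base j))
  let Ψ : ({i // P i} → Fin k → Fin k → ℝ) × ({i // ¬P i} → Fin k → Fin k → ℝ) →
      Fin (2 + p.n) → Fin k → Fin k → ℝ :=
    fun q j => cen q.2 j + Real.sqrt (p.v j) • q.1 (emb j)
  have hfalse : ¬P (Sum.inr ()) := by rintro ⟨j, hj⟩; simp at hj
  have hrel : ∀ x j, herm (Ψ (e x) j) = mats p 0 x j := by
    intro x j
    have hb : ev (fun i => herm (if h : P i then 0 else (e x).2 ⟨i, h⟩)) (p.base j) =
        ev (fun i => herm (x i)) (p.base j) := by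
      refine Fin.addCases (fun i => ?_) (fun c => ?_) j
      · simp only [Params.base, Fin.addCases_left]
        split_ifs <;> simp only [polyU, map_add, map_smul, ev_letter, letterMat]
      · simp [Params.base, polyU, polyG, ev_letter, letterMat, hfalse, e,
          MeasurableEquiv.piEquivPiSubtypeProd, Equiv.piEquivPiSubtypeProd]
    simp only [Ψ, cen, herm_add, herm_smul, hb, herm_crd (base_hermitian p x j), mats, Params.Y,
      Real.sqrt_zero, Complex.ofReal_zero, zero_smul, add_zero, map_add, map_smul, polyG,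
      ev_letter]
    rfl
  have hsub : {x | (∀ w ∈ T, ‖ntr (wordMat (mats p 0 x) w) - p.law 0 w‖ < ε) ∧
      ∀ j, opn (mats p 0 x j) ≤ bnd p 0} ⊆ e ⁻¹' (Ψ ⁻¹' Γ) := by
    intro x hx
    refine ⟨fun j => ?_, fun w _ hw => ?_⟩
    · rw [hrel]
      exact opLe_of_opn_le ((hx.2 j).trans (by linarith))
    · rw [show (fun j => herm (Ψ (e x) j)) = mats p 0 x from funext (hrel x)]
      exact hx.1 w (hT w hw)
  have hcen : Measurable cen := by
    refine measurable_pi_lambda _ fun j => (continuous_crd.comp ?_).measurable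
    have hg : Continuous fun r : {i // ¬P i} → Fin k → Fin k → ℝ =>
        herm (if h : P (Sum.inr ()) then 0 else r ⟨Sum.inr (), h⟩) := by
      simp only [dif_neg hfalse]
      exact continuous_herm.comp (continuous_apply _)
    refine Fin.addCases (fun i => ?_) (fun c => ?_) j
    · simp only [Params.base, Fin.addCases_left]
      split_ifs <;> simp only [polyU, map_add, map_smul, ev_letter, letterMat] <;>
        fun_prop
    · simp only [Params.base, Fin.addCases_right, polyU, polyG, map_mul, ev_letter, letterMat]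
      fun_prop
  have hΨ : Measurable Ψ := measurable_pi_lambda _ fun j =>
    ((measurable_pi_apply j).comp (hcen.comp measurable_snd)).add
      (((measurable_pi_apply (emb j)).comp measurable_fst).const_smul (Real.sqrt (p.v j)))
  have hΓm : MeasurableSet Γ := measurableSet_microstates _ _ _ _ _
  set C : Fin (2 + p.n) → ℝ≥0∞ := fun j =>
    ENNReal.ofReal (√(2 * Real.pi * (p.v j / k)))⁻¹ ^ (k * k) with hC
  -- for fixed remaining coordinates the law has bounded density
  have hfib : ∀ r, (Measure.pi fun _ : {i // P i} => μ₁) ((fun a => Ψ (a, r)) ⁻¹' Γ) ≤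
      (∏ j, C j) * volume Γ := by
    intro r
    have h1 := measurePreserving_piCongrLeft (α := fun _ : {i // P i} => (Fin k → Fin k → ℝ))
      (fun _ => μ₁) emb
    rw [← h1.map_eq, MeasurableEquiv.map_apply, ← Set.preimage_comp]
    let f : Fin (2 + p.n) → (Fin k → Fin k → ℝ) → (Fin k → Fin k → ℝ) :=
      fun j y => fun a b => cen r j a b + Real.sqrt (p.v j) * y a b
    have hcomp : ((fun a => Ψ (a, r)) ∘ MeasurableEquiv.piCongrLeft
        (fun _ : {i // P i} => (Fin k → Fin k → ℝ)) emb) = fun y j => f j (y j) := by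
      funext y j a b
      simp [Ψ, f, MeasurableEquiv.coe_piCongrLeft, Equiv.piCongrLeft_apply_apply]
    rw [hcomp]
    have hvj : ∀ j, (NNReal.mk (Real.sqrt (p.v j) ^ 2) (sq_nonneg _) * v : ℝ≥0) ≠ 0 := fun j => by
      refine mul_ne_zero (fun h => ?_) hv0
      have := congrArg NNReal.toReal h
      simp [Real.sq_sqrt (hv j).le, (hv j).ne'] at this
    let ν : Fin (2 + p.n) → Measure (Fin k → Fin k → ℝ) := fun j => Measure.pi fun a =>
      Measure.pi fun b =>
        gaussianReal (cen r j a b) (NNReal.mk (Real.sqrt (p.v j) ^ 2) (sq_nonneg _) * v)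
    have hf : ∀ j, μ₁.map (f j) = ν j := by
      intro j
      have h0 : ∀ a b, (gaussianReal 0 v).map (fun y => cen r j a b + Real.sqrt (p.v j) * y) =
          gaussianReal (cen r j a b) (NNReal.mk (Real.sqrt (p.v j) ^ 2) (sq_nonneg _) * v) := by
        intro a b
        rw [show (fun y => cen r j a b + Real.sqrt (p.v j) * y) =
          (cen r j a b + ·) ∘ (Real.sqrt (p.v j) * ·) from rfl, ← Measure.map_map (by fun_prop)
          (by fun_prop), gaussianReal_map_const_mul, gaussianReal_map_const_add]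
        simp
      have h2 : ∀ a, (Measure.pi fun _ : Fin k => gaussianReal 0 v).map
          (fun y b => cen r j a b + Real.sqrt (p.v j) * y b) = Measure.pi fun b =>
            gaussianReal (cen r j a b) (NNReal.mk (Real.sqrt (p.v j) ^ 2) (sq_nonneg _) * v) := by
        intro a
        haveI : ∀ b : Fin k, SigmaFinite ((gaussianReal 0 v).map
            (fun y => cen r j a b + Real.sqrt (p.v j) * y)) := fun b => by rw [h0]; infer_instance
        refine (Measure.pi_map_pi (μ := fun _ : Fin k => gaussianReal 0 v)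
          (f := fun b y => cen r j a b + Real.sqrt (p.v j) * y) fun b => by fun_prop).trans ?_
        simp only [h0]
      haveI : ∀ a : Fin k, SigmaFinite ((Measure.pi fun _ : Fin k => gaussianReal 0 v).map
          (fun y b => cen r j a b + Real.sqrt (p.v j) * y b)) := fun a => by
        rw [h2]; infer_instance
      show (Measure.pi fun _ => Measure.pi fun _ => gaussianReal 0 v).map _ = _
      refine (Measure.pi_map_pi (μ := fun _ : Fin k => Measure.pi fun _ : Fin k => gaussianReal 0 v)
        (f := fun a y b => cen r j a b + Real.sqrt (p.v j) * y b) fun a => (measurable_pi_lambda _ fun b =>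
          ((measurable_pi_apply b).const_mul _).const_add _).aemeasurable).trans ?_
      simp only [h2]
      rfl
    haveI : ∀ j, SigmaFinite (μ₁.map (f j)) := fun j => by rw [hf]; infer_instance
    have hfm : ∀ j, Measurable (f j) := fun j => by fun_prop
    rw [show (Measure.pi fun _ : Fin (2 + p.n) => μ₁) ((fun y j => f j (y j)) ⁻¹' Γ) =
        ((Measure.pi fun _ : Fin (2 + p.n) => μ₁).map fun y j => f j (y j)) Γ from
        (Measure.map_apply (measurable_pi_lambda _ fun j =>
          (hfm j).comp (measurable_pi_apply j)) hΓm).symm,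
      Measure.pi_map_pi (μ := fun _ : Fin (2 + p.n) => μ₁) (f := f) fun j => (hfm j).aemeasurable]
    simp only [hf]
    refine (pi_le_smul_pi ν (fun _ => volume) C (fun j => ENNReal.pow_ne_top ENNReal.ofReal_ne_top)
      (fun j => pow_ne_zero _ ?_) (fun j => ?_) Γ).trans (le_of_eq ?_)
    · rw [ne_eq, ENNReal.ofReal_eq_zero, not_le]
      have := hv j
      positivity
    · set c0 := ENNReal.ofReal (√(2 * Real.pi * (p.v j / k)))⁻¹
      have hc0 : c0 ≠ 0 := by
        rw [ne_eq, ENNReal.ofReal_eq_zero, not_le]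
        have := hv j
        positivity
      have hlin : ∀ a, (Measure.pi fun b => gaussianReal (cen r j a b)
          (NNReal.mk (Real.sqrt (p.v j) ^ 2) (sq_nonneg _) * v)) ≤ c0 ^ k • (volume : Measure (Fin k → ℝ)) := by
        intro a
        refine (pi_le_smul_pi _ (fun _ : Fin k => (volume : Measure ℝ)) (fun _ => c0)
          (fun _ => ENNReal.ofReal_ne_top) (fun _ => hc0) fun b => ?_).trans (le_of_eq ?_)
        · refine (gaussianReal_le_smul_volume _ (hvj j)).trans (le_of_eq ?_)
          simp [c0, hvk, Real.sq_sqrt (hv j).le, div_eq_mul_inv]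
        · rw [Finset.prod_const, Finset.card_univ, Fintype.card_fin]
          rfl
      refine (pi_le_smul_pi _ (fun _ : Fin k => (volume : Measure (Fin k → ℝ))) (fun _ => c0 ^ k)
        (fun _ => ENNReal.pow_ne_top ENNReal.ofReal_ne_top) (fun _ => pow_ne_zero _ hc0)
        hlin).trans (le_of_eq ?_)
      rw [Finset.prod_const, Finset.card_univ, Fintype.card_fin, ← pow_mul, hC]
      rfl
    · rw [Measure.smul_apply, smul_eq_mul]
      rfl
  have htot : gaussCoord p.Noise k (e ⁻¹' (Ψ ⁻¹' Γ)) ≤ (∏ j, C j) * volume Γ := by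
    change (Measure.pi fun _ : p.Noise => μ₁) (e ⁻¹' (Ψ ⁻¹' Γ)) ≤ _
    rw [hmp.measure_preimage (hΨ hΓm).nullMeasurableSet, Measure.prod_apply_symm (hΨ hΓm)]
    refine (lintegral_mono fun r => hfib r).trans (le_of_eq ?_)
    simp
  have hhalf := (hk.trans (measure_mono hsub)).trans htot
  have hCne : (∏ j, C j) = ENNReal.ofReal (∏ j, ((√(2 * Real.pi * (p.v j / k)))⁻¹) ^ (k * k)) := by
    rw [ENNReal.ofReal_prod_of_nonneg fun j _ => by positivity]
    exact Finset.prod_congr rfl fun j _ => (ENNReal.ofReal_pow (by positivity) _).symm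
  rw [hCne] at hhalf
  set D := ∏ j, ((√(2 * Real.pi * (p.v j / k)))⁻¹) ^ (k * k) with hD
  have hD0 : 0 < D := Finset.prod_pos fun j _ => by
    have := hv j
    positivity
  have hDi : ∏ j, (√(2 * Real.pi * (p.v j / k))) ^ (k * k) = D⁻¹ := by
    rw [hD, ← Finset.prod_inv_distrib]
    exact Finset.prod_congr rfl fun j _ => by rw [inv_pow, inv_inv]
  rw [hDi, ← div_eq_mul_inv, ENNReal.ofReal_div_of_pos hD0,
    ENNReal.div_le_iff (by simp [hD0]) ENNReal.ofReal_ne_top, mul_comm]
  refine le_trans (le_of_eq ?_) hhalf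
  rw [one_div, ENNReal.ofReal_inv_of_pos two_pos, ENNReal.ofReal_ofNat, one_div]

end Volume

end Lower

open Lower

theorem Params.law_isLaw (p : Params) {t : ℝ} (_ht : 0 ≤ t) : IsLaw (p.law t) := by
  classical
  refine ⟨?_, fun u v => eq_of_forall_lt fun δ hδ => ?_, fun w => eq_of_forall_lt fun δ hδ => ?_,
    fun P => ?_, ⟨max (bnd p t) 0, fun w => ?_⟩⟩
  · refine eq_of_forall_lt fun δ hδ => ?_
    obtain ⟨k, A, hk, -, -, hT⟩ := exists_approx p t {[]} hδ
    have := (hT [] (by simp)).le
    rw [norm_sub_rev] at this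
    simpa [wordMat, ntr, Nat.pos_iff_ne_zero.1 hk] using this
  · obtain ⟨k, A, -, -, -, hT⟩ := exists_approx p t {u ++ v, v ++ u} (half_pos hδ)
    have h1 := hT (u ++ v) (by simp)
    have h2 := hT (v ++ u) (by simp)
    rw [wordMat_append, ntr_mul_comm, ← wordMat_append, norm_sub_rev] at h1
    linarith [norm_sub_le_norm_sub_add_norm_sub (p.law t (u ++ v)) (ntr (wordMat A (v ++ u)))
      (p.law t (v ++ u))]
  · obtain ⟨k, A, -, hA, -, hT⟩ := exists_approx p t {w.reverse, w} (half_pos hδ)
    have h1 := hT w.reverse (by simp)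
    have h2 := hT w (by simp)
    rw [wordMat_reverse A hA, ntr_conjTranspose, norm_sub_rev] at h1
    rw [← Complex.norm_conj, map_sub] at h2
    linarith [norm_sub_le_norm_sub_add_norm_sub (p.law t w.reverse) (conj (ntr (wordMat A w)))
      (conj (p.law t w))]
  · refine le_of_forall_pos_le_add fun δ hδ => ?_
    set K : ℝ := ∑ v ∈ P.support, ∑ w ∈ P.support, ‖conj (P v) * P w‖ with hK
    have hK0 : 0 ≤ K := Finset.sum_nonneg fun _ _ => Finset.sum_nonneg fun _ _ => norm_nonneg _
    obtain ⟨k, A, -, hA, -, hT⟩ := exists_approx p t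
      ((P.support ×ˢ P.support).image fun q => q.1.reverse ++ q.2)
      (show 0 < δ / (K + 1) by positivity)
    set B := ∑ w ∈ P.support, P w • wordMat A w with hB
    have hpos : 0 ≤ (ntr (Bᴴ * B)).re := by
      rw [ntr, Matrix.trace, Finset.mul_sum, Complex.re_sum]
      refine Finset.sum_nonneg fun a _ => ?_
      simp only [Matrix.diag_apply, Matrix.mul_apply, Matrix.conjTranspose_apply, Finset.mul_sum,
        Complex.re_sum]
      refine Finset.sum_nonneg fun b _ => ?_
      rw [Complex.star_def, ← Complex.normSq_eq_conj_mul_self, ← Complex.ofReal_natCast,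
        ← Complex.ofReal_inv, ← Complex.ofReal_mul, Complex.ofReal_re]
      exact mul_nonneg (inv_nonneg.2 (Nat.cast_nonneg k)) (Complex.normSq_nonneg _)
    have hexp : ntr (Bᴴ * B) = ∑ v ∈ P.support, ∑ w ∈ P.support,
        conj (P v) * P w * ntr (wordMat A (v.reverse ++ w)) := by
      simp only [hB, Matrix.conjTranspose_sum, Matrix.conjTranspose_smul, Matrix.sum_mul,
        smul_mul_assoc, mul_smul_comm, ntr, Matrix.trace_sum, Matrix.trace_smul,
        Finset.mul_sum, wordMat_append, wordMat_reverse A hA, smul_eq_mul, Complex.star_def]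
      rw [Finset.sum_comm]
      exact Finset.sum_congr rfl fun v _ => Finset.sum_congr rfl fun w _ => by ring
    have hclose : ‖ntr (Bᴴ * B) - ∑ v ∈ P.support, ∑ w ∈ P.support,
        conj (P v) * P w * p.law t (v.reverse ++ w)‖ ≤ δ := by
      rw [hexp, ← Finset.sum_sub_distrib]
      refine (norm_sum_le _ _).trans (le_trans (Finset.sum_le_sum fun v hv => ?_)
        (b := ∑ v ∈ P.support, ∑ w ∈ P.support, ‖conj (P v) * P w‖ * (δ / (K + 1))) ?_)
      · rw [← Finset.sum_sub_distrib]
        refine (norm_sum_le _ _).trans (Finset.sum_le_sum fun w hw => ?_)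
        rw [← mul_sub, norm_mul]
        exact mul_le_mul_of_nonneg_left
          (hT _ (Finset.mem_image.2 ⟨(v, w), Finset.mem_product.2 ⟨hv, hw⟩, rfl⟩)).le
          (norm_nonneg _)
      · simp only [← Finset.sum_mul, ← hK]
        rw [mul_div_assoc', div_le_iff₀ (by linarith)]
        nlinarith
    have := (abs_le.1 ((Complex.abs_re_le_norm _).trans hclose)).2
    rw [Complex.sub_re] at this
    linarith
  · refine le_of_forall_pos_le_add fun δ hδ => ?_
    obtain ⟨k, A, -, -, hA, hT⟩ := exists_approx p t {w} hδ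
    have h1 := hT w (by simp)
    have h2 : ‖ntr (wordMat A w)‖ ≤ max (bnd p t) 0 ^ w.length :=
      (norm_ntr_le _).trans ((opn_list_prod _ _ (le_max_right _ _) fun B hB => by
        obtain ⟨j, -, rfl⟩ := List.mem_map.1 hB
        exact (hA j).trans (le_max_left _ _)).trans (le_of_eq (by simp [wordMat])))
    linarith [norm_le_norm_add_norm_sub' (p.law t w) (ntr (wordMat A w)),
      norm_sub_rev (p.law t w) (ntr (wordMat A w))]

theorem Params.freeEntropy_law_ne_bot (p : Params) (hv : ∀ j, 0 < p.v j) :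
    ⊥ < freeEntropy (p.law 0) := by
  set L : ℝ := -Real.log 2 + ∑ j, Real.log (2 * Real.pi * p.v j) / 2 with hL
  refine lt_of_lt_of_le (EReal.bot_lt_coe L) ?_
  unfold freeEntropy
  refine le_trans ?_ (le_iSup₂ (f := fun (R : ℝ) (_ : 0 < R) => ⨅ (M : ℕ) (ε : ℝ) (_ : 0 < ε),
    limsup (fun k : ℕ => microEntropy (p.law 0) R M k ε) atTop) (bnd p 0 + 1)
    (by linarith [bnd_nonneg p 0]))
  refine le_iInf fun M => le_iInf fun ε => le_iInf fun hε => ?_
  refine le_limsup_of_frequently_le (Eventually.frequently ?_)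
  filter_upwards [volume_microstates_ge p hv (M := M) hε, eventually_gt_atTop 0] with k hk hk0
  have hkR : (0 : ℝ) < k := by exact_mod_cast hk0
  set V : ℝ := (1 / 2) * ∏ j, (Real.sqrt (2 * Real.pi * (p.v j / k)) ^ (k * k)) with hV
  have hV0 : 0 < V := mul_pos (by norm_num) (Finset.prod_pos fun j _ => by
    have := hv j
    positivity)
  have hlog : Real.log V = -Real.log 2 +
      ((k : ℝ) * k) * ∑ j, (Real.log (2 * Real.pi * p.v j) - Real.log k) / 2 := by
    rw [hV, Real.log_mul (by norm_num) (right_ne_zero_of_mul hV0.ne'), one_div, Real.log_inv,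
      Real.log_prod fun j _ => pow_ne_zero _ (Real.sqrt_pos.2 (by have := hv j; positivity)).ne',
      Finset.mul_sum]
    congr 1
    refine Finset.sum_congr rfl fun j _ => ?_
    rw [Real.log_pow, Real.log_sqrt (by have := hv j; positivity),
      show 2 * Real.pi * (p.v j / k) = 2 * Real.pi * p.v j / k by ring,
      Real.log_div (by have := hv j; positivity) hkR.ne']
    push_cast
    ring
  have hmono : ((Real.log V : ℝ) : EReal) ≤
      ENNReal.log (volume (microstates (p.law 0) (bnd p 0 + 1) M k ε)) := by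
    refine le_trans (le_of_eq ?_) (ENNReal.log_monotone hk)
    rw [ENNReal.log_ofReal_of_pos hV0]
  unfold microEntropy
  refine le_trans ?_ (add_le_add
    (mul_le_mul_of_nonneg_left hmono (EReal.coe_nonneg.2 (by positivity))) le_rfl)
  rw [← EReal.coe_mul, ← EReal.coe_add, EReal.coe_le_coe_iff, hlog, hL]
  have hk2 : ((k : ℝ) ^ 2)⁻¹ ≤ 1 := inv_le_one_of_one_le₀ (one_le_pow₀ (by exact_mod_cast hk0))
  have e : ((k : ℝ) ^ 2)⁻¹ * (((k : ℝ) * k) *
      ∑ j, (Real.log (2 * Real.pi * p.v j) - Real.log k) / 2) =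
      (∑ j, Real.log (2 * Real.pi * p.v j) / 2) - ((2 + p.n : ℕ) : ℝ) / 2 * Real.log k := by
    rw [← mul_assoc, ← sq, inv_mul_cancel₀ (pow_ne_zero _ hkR.ne'), one_mul]
    simp only [sub_div, Finset.sum_sub_distrib, Finset.sum_const, Finset.card_univ,
      Fintype.card_fin, nsmul_eq_mul]
    ring
  rw [mul_add, e]
  nlinarith [Real.log_nonneg (show (1 : ℝ) ≤ 2 by norm_num)]

end

end VAgent.P087
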