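import Mathlib

/-!
# P087: expansions with gaps

`gapExp M F w = ∑ F S * ∏ M gaps` over the subwords `S` of `w`, the gaps being the segments of
`w` before, between and after the letters of `S`.
-/

namespace VAgent.P087

noncomputable section

variable {α : Type*}

/-- `∑` over subwords `S` of `F S` times the product of `M` over the gaps. -/
def gapExp (M : List α → ℂ) : (List α → ℂ) → List α → ℂ
  | F, w => F [] * M w + ∑ q : Fin w.length,
      M (w.take q) * gapExp M (fun S => F (w.get q :: S)) (w.drop (q + 1))
  termination_by _ w => w.length
  decreasing_by
    simp only [List.length_drop]
    omega

end

end VAgent.P087
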