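import Mathlib
import Vale.Agent.P087.Gap
import Vale.Agent.P087.Cum.Split
import Vale.Agent.P087.Cum.Group
import Vale.Agent.P087.Cum.Weighted

/-!
# P087: cumulants of powers of a unitary and conjugated semicirculars

`M` is any functional on words in `ℤ ⊕ ι` satisfying the two rules of `CumRules`; `cumK` are its
free cumulants, computed by a recursion, and their weighted sums are small.
-/

namespace VAgent.P087

open Cum

noncomputable section

variable {ι : Type} [DecidableEq ι]

/-- Exponent sum. -/
def expSum (w : List (ℤ ⊕ ι)) : ℤ := (w.map (Sum.elim id fun _ => 0)).sum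

/-- The rules: `U^k` is a Haar unitary; a pair letter `e` pairs with `e` with weight `v e`, and
with `f ≠ e` through `U^(g f - g e)` when both exponents exist. -/
structure CumRules (g : ι → Option ℤ) (v : ι → ℂ) (M : List (ℤ ⊕ ι) → ℂ) : Prop where
  group : ∀ l : List ℤ, M (l.map Sum.inl) = if l.sum = 0 then 1 else 0
  pair : ∀ (l : List ℤ) (e : ι) (b : List (ℤ ⊕ ι)),
    M (l.map Sum.inl ++ Sum.inr e :: b) = ∑ q : Fin b.length,
      (match b.get q with
        | Sum.inl _ => 0
        | Sum.inr f =>
          if f = e then v e * M (b.take q) * M (l.map Sum.inl ++ b.drop (q + 1))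
          else
            match g e, g f with
            | some ge, some gf => M (Sum.inl (gf - ge) :: b.take q) *
                M (l.map Sum.inl ++ Sum.inl (ge - gf) :: b.drop (q + 1))
            | _, _ => 0)

/-- A word is a group word, or splits at its first pair letter. -/
def split1 : List (ℤ ⊕ ι) → List ℤ ⊕ (List ℤ × ι × List (ℤ ⊕ ι))
  | [] => Sum.inl []
  | Sum.inr e :: r => Sum.inr ([], e, r)
  | Sum.inl d :: r =>
    match split1 r with
    | Sum.inl l => Sum.inl (d :: l)
    | Sum.inr (l, e, b) => Sum.inr (d :: l, e, b)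

omit [DecidableEq ι] in
theorem split1_inl : ∀ l : List ℤ, split1 (l.map Sum.inl : List (ℤ ⊕ ι)) = Sum.inl l
  | [] => rfl
  | d :: l => by simp [split1, split1_inl l]

omit [DecidableEq ι] in
theorem split1_pair : ∀ (l : List ℤ) (e : ι) (b : List (ℤ ⊕ ι)),
    split1 (l.map Sum.inl ++ Sum.inr e :: b) = Sum.inr (l, e, b)
  | [], e, b => rfl
  | d :: l, e, b => by simp [split1, split1_pair l e b]

omit [DecidableEq ι] in
theorem split1_cases : ∀ w : List (ℤ ⊕ ι),
    (∃ l : List ℤ, w = l.map Sum.inl) ∨
      ∃ (l : List ℤ) (e : ι) (b : List (ℤ ⊕ ι)), w = l.map Sum.inl ++ Sum.inr e :: b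
  | [] => Or.inl ⟨[], rfl⟩
  | Sum.inr e :: r => Or.inr ⟨[], e, r, rfl⟩
  | Sum.inl d :: r => by
    rcases split1_cases r with ⟨l, rfl⟩ | ⟨l, e, b, rfl⟩
    · exact Or.inl ⟨d :: l, rfl⟩
    · exact Or.inr ⟨d :: l, e, b, rfl⟩

omit [DecidableEq ι] in
theorem split1_len (w : List (ℤ ⊕ ι)) {l : List ℤ} {e : ι} {b : List (ℤ ⊕ ι)}
    (h : split1 w = Sum.inr (l, e, b)) : w.length = l.length + b.length + 1 := by
  rcases split1_cases w with ⟨l', rfl⟩ | ⟨l', e', b', rfl⟩
  · rw [split1_inl] at h; exact absurd h (by simp)
  · rw [split1_pair] at h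
    simp only [Sum.inr.injEq, Prod.mk.injEq] at h
    obtain ⟨rfl, rfl, rfl⟩ := h
    simp
    omega

/-- The free cumulants. -/
def cumK (g : ι → Option ℤ) (v : ι → ℂ) (w : List (ℤ ⊕ ι)) : ℂ :=
    match _hs : split1 w with
    | Sum.inl l => KG l
    | Sum.inr (l, e, b) => ∑ q : Fin b.length,
      match b.get q with
      | Sum.inl _ => 0
      | Sum.inr f =>
        if f = e then
          (if l = [] ∧ b.take q = [] ∧ b.drop (q + 1) = [] then v e else 0)
        else
          match g e, g f with
          | some ge, some gf => cumK g v (Sum.inl (gf - ge) :: b.take q) *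
              cumK g v (l.map Sum.inl ++ Sum.inl (ge - gf) :: b.drop (q + 1))
          | _, _ => 0
  termination_by w.length
  decreasing_by
    · have := split1_len _ _hs
      simp only [List.length_cons, List.length_take]
      omega
    · have := split1_len _ _hs
      have := q.isLt
      simp only [List.length_append, List.length_cons, List.length_map, List.length_drop]
      omega

/-- One term of the recursion. -/
def kTerm (g : ι → Option ℤ) (v : ι → ℂ) (l : List ℤ) (e : ι)
    (a : List (ℤ ⊕ ι)) : ℤ ⊕ ι → List (ℤ ⊕ ι) → ℂ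
  | Sum.inl _, _ => 0
  | Sum.inr f, c =>
    if f = e then (if l = [] ∧ a = [] ∧ c = [] then v e else 0)
    else
      match g e, g f with
      | some ge, some gf => cumK g v (Sum.inl (gf - ge) :: a) *
          cumK g v (l.map Sum.inl ++ Sum.inl (ge - gf) :: c)
      | _, _ => 0

variable {g : ι → Option ℤ} {v : ι → ℂ} {M : List (ℤ ⊕ ι) → ℂ}

theorem cumK_map (g : ι → Option ℤ) (v : ι → ℂ) (l : List ℤ) :
    cumK g v (l.map Sum.inl) = KG l := by
  rw [cumK]
  split
  next l' h => rw [split1_inl, Sum.inl.injEq] at h; rw [h]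
  next l' e b h => rw [split1_inl] at h; exact absurd h (by simp)

theorem cumK_pair (g : ι → Option ℤ) (v : ι → ℂ) (l : List ℤ) (e : ι) (b : List (ℤ ⊕ ι)) :
    cumK g v (l.map Sum.inl ++ Sum.inr e :: b) = spl (kTerm g v l e) b := by
  rw [cumK]
  split
  next l' h => rw [split1_pair] at h; exact absurd h (by simp)
  next l' e' b' h =>
    rw [split1_pair, Sum.inr.injEq] at h
    simp only [Prod.mk.injEq] at h
    obtain ⟨rfl, rfl, rfl⟩ := h
    rw [← sum_fin_eq_spl]
    refine Finset.sum_congr rfl fun q _ => ?_
    unfold kTerm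
    split <;> rename_i h1 <;> simp only [h1]

theorem cumK_cons_map (g : ι → Option ℤ) (v : ι → ℂ) (d : ℤ) (l : List ℤ) :
    cumK g v (Sum.inl d :: l.map Sum.inl) = KG (d :: l) :=
  cumK_map g v (d :: l)

/-- The scalar produced when the pair letter `e` meets `x` over the gap `a`. -/
def coef (g : ι → Option ℤ) (v : ι → ℂ) (M : List (ℤ ⊕ ι) → ℂ) (e : ι) :
    ℤ ⊕ ι → List (ℤ ⊕ ι) → ℂ
  | Sum.inl _, _ => 0
  | Sum.inr f, a =>
    if f = e then v e * M a
    else
      match g e, g f with
      | some ge, some gf => M (Sum.inl (gf - ge) :: a)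
      | _, _ => 0

/-- The letters left behind when the pair letter `e` meets `x`. -/
def ins (g : ι → Option ℤ) (e : ι) : ℤ ⊕ ι → List (ℤ ⊕ ι)
  | Sum.inl _ => []
  | Sum.inr f =>
    if f = e then []
    else
      match g e, g f with
      | some ge, some gf => [Sum.inl (ge - gf)]
      | _, _ => []

omit [DecidableEq ι] in
theorem spl_map {β γ A : Type*} [AddCommMonoid A] (f : β → γ) :
    ∀ (u : List β) (h : List γ → γ → List γ → A),
      spl h (u.map f) = spl (fun a x c => h (a.map f) (f x) (c.map f)) u
  | [], h => rfl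
  | x :: u, h => by
    simp only [List.map_cons, spl]
    rw [spl_map f u]
    rfl

omit [DecidableEq ι] in
theorem spl_swap {β γ A : Type*} [AddCommMonoid A] (w : List γ) :
    ∀ (u : List β) (Φ : List β → β → List β → List γ → γ → List γ → A),
      spl (fun a x c => spl (fun a' y c' => Φ a x c a' y c') w) u =
        spl (fun a' y c' => spl (fun a x c => Φ a x c a' y c') u) w
  | [], Φ => by simp [spl, spl_zero]
  | x :: u, Φ => by
    simp only [spl]
    rw [spl_swap w u fun a => Φ (x :: a), ← spl_add]

omit [DecidableEq ι] in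
theorem gapExp_const_zero (M : List (ℤ ⊕ ι) → ℂ) (w : List (ℤ ⊕ ι)) :
    gapExp M (fun _ => 0) w = 0 := by
  have h := gapExp_smul M 0 w.length w (fun _ => 0) le_rfl
  simpa using h

theorem CumRules.rule (h : CumRules g v M) (l : List ℤ) (e : ι) (b : List (ℤ ⊕ ι)) :
    M (l.map Sum.inl ++ Sum.inr e :: b) =
      spl (fun a x c => coef g v M e x a * M (l.map Sum.inl ++ (ins g e x ++ c))) b := by
  rw [h.pair, ← sum_fin_eq_spl]
  refine Finset.sum_congr rfl fun q _ => ?_
  cases hb : b.get q with
  | inl z => simp [coef]
  | inr f =>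
    by_cases hf : f = e
    · simp [coef, ins, hf]
    · cases hge : g e with
      | none => simp [coef, hf, hge]
      | some ge =>
        cases hgf : g f with
        | none => simp [coef, hf, hge, hgf]
        | some gf => simp [coef, ins, hf, hge, hgf]

/-- Expansions of words with group letters only. -/
theorem CumRules.gapExp_inl (h : CumRules g v M) :
    ∀ (n : ℕ) (l : List ℤ) (F : List (ℤ ⊕ ι) → ℂ), l.length ≤ n →
      gapExp M F (l.map Sum.inl) = gapExp M0 (fun S => F (S.map Sum.inl)) l := by
  intro n
  induction n with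
  | zero =>
    intro l F hl
    obtain rfl : l = [] := List.length_eq_zero_iff.1 (by omega)
    have h0 := h.group []
    rw [gapExp_eq, gapExp_eq]
    simp [spl, M0] at h0 ⊢
    rw [h0, mul_one]
  | succ n ih =>
    intro l F hl
    rw [gapExp_eq, gapExp_eq M0, spl_map, h.group]
    congr 1
    refine spl_congr l fun a x c he => ?_
    have := len_of_split he
    rw [h.group, ih c _ (by omega)]
    rfl

/-- The main step: the first pair letter of an expansion. -/
theorem CumRules.star (h : CumRules g v M) (n : ℕ)
    (IH : ∀ (d : ℤ) (a : List (ℤ ⊕ ι)), a.length < n →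
      M (Sum.inl d :: a) = gapExp M (fun S => cumK g v (Sum.inl d :: S)) a)
    (e : ι) (b : List (ℤ ⊕ ι)) :
    ∀ (l P : List ℤ), P ≠ [] → l.length + b.length < n →
      gapExp M (fun S => cumK g v (P.map Sum.inl ++ S)) (l.map Sum.inl ++ Sum.inr e :: b) =
        spl (fun a x c => coef g v M e x a *
          gapExp M (fun S => cumK g v (P.map Sum.inl ++ S))
            (l.map Sum.inl ++ (ins g e x ++ c))) b := by
  intro l
  induction hk : l.length using Nat.strong_induction_on generalizing l with
  | _ k ih =>
  intro P hP hn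
  subst hk
  set F : List (ℤ ⊕ ι) → ℂ := fun S => cumK g v (P.map Sum.inl ++ S) with hF
  set G : ℤ ⊕ ι → List (ℤ ⊕ ι) → ℂ := fun y => gapExp M fun S => F (y :: S) with hG
  set L : List (ℤ ⊕ ι) := l.map Sum.inl with hL
  -- the chosen letter lies among the first group letters
  have hl : spl (fun a x c => M a * G x (c ++ Sum.inr e :: b)) L =
      spl (fun a x c => coef g v M e x a *
        spl (fun a' y c' => M a' * G y (c' ++ (ins g e x ++ c))) L) b := by
    simp only [mul_spl]
    rw [spl_swap L b fun a x c a' y c' =>
      coef g v M e x a * (M a' * G y (c' ++ (ins g e x ++ c)))]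
    refine spl_congr L fun a' y c' he' => ?_
    obtain ⟨l₁, l₂', rfl, h1, h2⟩ := List.map_eq_append_iff.1 he'
    obtain ⟨z, l₂, rfl, hz, h3⟩ := List.map_eq_cons_iff.1 h2
    subst hz h3
    have key : ∀ u : List (ℤ ⊕ ι), G (Sum.inl z) u =
        gapExp M (fun S => cumK g v ((P ++ [z]).map Sum.inl ++ S)) u := fun u => by
      simp [hG, hF]
    simp only [key]
    rw [ih l₂.length (by simp; omega) l₂ rfl (P ++ [z]) (by simp) (by simp at hn; omega), mul_spl]
    exact spl_congr b fun a x c _ => by ring
  -- the first pair letter is chosen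
  have he : M L * G (Sum.inr e) b =
      spl (fun a x c => coef g v M e x a *
        spl (fun a' y c' => M (L ++ a') * G y (c' ++ c)) (ins g e x)) b := by
    set φ : ℤ ⊕ ι → List (ℤ ⊕ ι) → ℂ := fun x a =>
      match x with
      | Sum.inl _ => 0
      | Sum.inr f =>
        if f = e then 0
        else
          match g e, g f with
          | some ge, some gf => cumK g v (Sum.inl (gf - ge) :: a)
          | _, _ => 0 with hφ
    set ψ : ℤ ⊕ ι → List (ℤ ⊕ ι) → ℂ := fun x c =>
      cumK g v (P.map Sum.inl ++ (ins g e x ++ c)) with hψ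
    have hFe : ∀ S : List (ℤ ⊕ ι), F (Sum.inr e :: S) = spl (fun a x c => φ x a * ψ x c) S := by
      intro S
      rw [hF]
      simp only
      rw [cumK_pair]
      refine spl_congr S fun a x c _ => ?_
      cases x with
      | inl z => simp [kTerm, hφ]
      | inr f =>
        by_cases hf : f = e
        · simp [kTerm, hφ, hf, hP]
        · cases hge : g e with
          | none => simp [kTerm, hφ, hf, hge]
          | some ge =>
            cases hgf : g f with
            | none => simp [kTerm, hφ, hf, hge, hgf]
            | some gf => simp [kTerm, hφ, hψ, ins, hf, hge, hgf]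
    simp only [hG]
    rw [gapExp_congr M b.length b _ (fun S => spl (fun a x c => φ x a * ψ x c) S) le_rfl
        (fun S _ => hFe S), gapExp_split M b.length b φ ψ le_rfl, mul_spl]
    refine spl_congr b fun a x c hb => ?_
    have hlen := len_of_split hb
    cases x with
    | inl z => simp [hφ, coef, gapExp_const_zero]
    | inr f =>
      by_cases hf : f = e
      · simp [hφ, ins, hf, gapExp_const_zero, spl]
      · cases hge : g e with
        | none => simp [hφ, coef, hf, hge, gapExp_const_zero]
        | some ge =>
          cases hgf : g f with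
          | none => simp [hφ, coef, hf, hge, hgf, gapExp_const_zero]
          | some gf =>
            have h1 := IH (gf - ge) a (by omega)
            simp only [hφ, hψ, coef, ins, hf, hge, hgf, if_false, spl, List.append_nil,
              List.nil_append, List.singleton_append, add_zero, hF]
            rw [← h1]
            ring
  -- the chosen letter lies behind it
  have hb : spl (fun a y c => M (L ++ Sum.inr e :: a) * G y c) b =
      spl (fun a x c => coef g v M e x a *
        spl (fun a' y c' => M (L ++ (ins g e x ++ a')) * G y c') c) b := by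
    simp only [mul_spl]
    rw [spl_comm]
    refine spl_congr b fun a y c _ => ?_
    rw [hL, h.rule, spl_mul]
    exact spl_congr a fun a' x c' _ => by ring
  -- the first term
  have h0 : F [] * M (L ++ Sum.inr e :: b) =
      spl (fun a x c => coef g v M e x a * (F [] * M (L ++ (ins g e x ++ c)))) b := by
    rw [hL, h.rule, mul_spl]
    exact spl_congr b fun a x c _ => by ring
  have hR : ∀ u : List (ℤ ⊕ ι), gapExp M F (L ++ u) = F [] * M (L ++ u) +
      (spl (fun a x c => M a * G x (c ++ u)) L + spl (fun a x c => M (L ++ a) * G x c) u) := by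
    intro u
    rw [gapExp_eq, spl_append]
  have hR' : ∀ (x : ℤ ⊕ ι) (c : List (ℤ ⊕ ι)), gapExp M F (L ++ (ins g e x ++ c)) =
      F [] * M (L ++ (ins g e x ++ c)) +
      (spl (fun a' y c' => M a' * G y (c' ++ (ins g e x ++ c))) L +
        (spl (fun a' y c' => M (L ++ a') * G y (c' ++ c)) (ins g e x) +
          spl (fun a' y c' => M (L ++ (ins g e x ++ a')) * G y c') c)) := fun x c => by
    rw [hR, spl_append]
  rw [hR]
  simp only [spl, List.append_nil]
  rw [h0, hl, he, hb, ← spl_add, ← spl_add, ← spl_add]
  refine spl_congr b fun a x c _ => ?_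
  rw [hR']
  ring

/-- Moments are sums over gaps of cumulants. -/
theorem CumRules.expansion (h : CumRules g v M) (d : ℤ) (hd : d ≠ 0) (w : List (ℤ ⊕ ι)) :
    M (Sum.inl d :: w) = gapExp M (fun S => cumK g v (Sum.inl d :: S)) w := by
  clear hd
  induction hn : w.length using Nat.strong_induction_on generalizing w d with
  | _ n ih =>
  subst hn
  have IH : ∀ (d' : ℤ) (a : List (ℤ ⊕ ι)), a.length < w.length →
      M (Sum.inl d' :: a) = gapExp M (fun S => cumK g v (Sum.inl d' :: S)) a :=
    fun d' a ha => ih _ ha d' a rfl
  rcases split1_cases w with ⟨l, rfl⟩ | ⟨l, e, b, rfl⟩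
  · rw [h.gapExp_inl l.length l _ le_rfl]
    simp only [cumK_cons_map]
    rw [gapExp_KG]
    exact h.group (d :: l)
  · have h1 := h.rule (d :: l) e b
    have h2 := h.star (l.map Sum.inl ++ Sum.inr e :: b).length IH e b l [d] (by simp) (by simp)
    simp only [List.map_cons, List.map_nil, List.cons_append, List.nil_append] at h1 h2
    rw [h1, h2]
    refine spl_congr b fun a x c he => ?_
    have := len_of_split he
    congr 1
    refine IH d _ ?_
    have hi : (ins g e x).length ≤ 1 := by
      unfold ins
      repeat' split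
      all_goals simp
    simp only [List.length_append, List.length_cons, List.length_map]
    omega

omit [DecidableEq ι] in
theorem expSum_append (a b : List (ℤ ⊕ ι)) : expSum (a ++ b) = expSum a + expSum b := by
  simp [expSum]

omit [DecidableEq ι] in
theorem expSum_inl (d : ℤ) (a : List (ℤ ⊕ ι)) : expSum (Sum.inl d :: a) = d + expSum a := by
  simp [expSum]

omit [DecidableEq ι] in
theorem expSum_inr (e : ι) (a : List (ℤ ⊕ ι)) : expSum (Sum.inr e :: a) = expSum a := by
  simp [expSum]

omit [DecidableEq ι] in
theorem expSum_map : ∀ l : List ℤ, expSum (l.map Sum.inl : List (ℤ ⊕ ι)) = l.sum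
  | [] => rfl
  | d :: l => by rw [List.map_cons, expSum_inl, expSum_map l, List.sum_cons]

theorem cumK_eq_zero_of_expSum (g : ι → Option ℤ) (v : ι → ℂ) :
    ∀ (n : ℕ) (w : List (ℤ ⊕ ι)), w.length ≤ n → expSum w ≠ 0 → cumK g v w = 0 := by
  intro n
  induction n with
  | zero =>
    intro w hw hne
    obtain rfl : w = [] := List.length_eq_zero_iff.1 (by omega)
    exact absurd rfl hne
  | succ n ih =>
    intro w hw hne
    rcases split1_cases w with ⟨l, rfl⟩ | ⟨l, e, b, rfl⟩
    · rw [cumK_map]
      rw [expSum_map] at hne
      exact by_contra fun hK => hne (KG_charge l hK)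
    · rw [cumK_pair, spl_congr b (h' := fun _ _ _ => (0 : ℂ)), spl_zero]
      intro a x c hb
      subst hb
      simp only [List.length_append, List.length_cons, List.length_map] at hw
      simp only [expSum_append, expSum_inr, expSum_map] at hne
      cases x with
      | inl z => rfl
      | inr f =>
        simp only [kTerm]
        by_cases hf : f = e
        · rw [if_pos hf, if_neg]
          rintro ⟨rfl, rfl, rfl⟩
          exact hne (by simp [expSum])
        · rw [if_neg hf]
          cases hge : g e with
          | none => rfl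
          | some ge =>
            cases hgf : g f with
            | none => rfl
            | some gf =>
              simp only
              by_contra hK
              obtain ⟨hA, hC⟩ := mul_ne_zero_iff.1 hK
              have hA' : expSum (Sum.inl (gf - ge) :: a) = 0 :=
                by_contra fun hh => hA (ih _ (by simp; omega) hh)
              have hC' : expSum (l.map Sum.inl ++ Sum.inl (ge - gf) :: c) = 0 :=
                by_contra fun hh => hC (ih _ (by simp; omega) hh)
              rw [expSum_inr] at hne
              simp only [expSum_append, expSum_inl, expSum_map] at hA' hC'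
              omega

/-- A nonzero cumulant starting with `U^d` has total exponent zero. -/
theorem cumK_charge (g : ι → Option ℤ) (v : ι → ℂ) (d : ℤ) (w : List (ℤ ⊕ ι))
    (hne : cumK g v (Sum.inl d :: w) ≠ 0) : d + expSum w = 0 := by
  rw [← expSum_inl d w]
  exact by_contra fun hh => hne (cumK_eq_zero_of_expSum g v _ _ le_rfl hh)

/-- Letters without exponent do not occur in cumulants starting with a group letter. -/
theorem cumK_none (g : ι → Option ℤ) (v : ι → ℂ) (d : ℤ) (w : List (ℤ ⊕ ι)) {e : ι}
    (he : g e = none) (hmem : Sum.inr e ∈ w) : cumK g v (Sum.inl d :: w) = 0 := by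
  induction hn : w.length using Nat.strong_induction_on generalizing w d with
  | _ n ih =>
  subst hn
  rcases split1_cases w with ⟨l, rfl⟩ | ⟨l, e₀, b, rfl⟩
  · simp at hmem
  · rw [show Sum.inl d :: (l.map Sum.inl ++ Sum.inr e₀ :: b) =
        (d :: l).map Sum.inl ++ Sum.inr e₀ :: b by simp,
      cumK_pair, spl_congr b (h' := fun _ _ _ => (0 : ℂ)), spl_zero]
    intro a x c hb
    subst hb
    cases x with
    | inl z => rfl
    | inr f =>
      simp only [kTerm]
      by_cases hf : f = e₀
      · rw [if_pos hf, if_neg (by simp)]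
      · rw [if_neg hf]
        cases hge : g e₀ with
        | none => rfl
        | some ge =>
          cases hgf : g f with
          | none => rfl
          | some gf =>
            have h1 : e ≠ e₀ := fun hh => by simp [hh, hge] at he
            have h2 : e ≠ f := fun hh => by simp [hh, hgf] at he
            simp only
            have hac : Sum.inr e ∈ a ∨ Sum.inr e ∈ c := by simpa [h1, h2] using hmem
            rcases hac with ha | hc
            · rw [ih a.length (by simp; omega) (gf - ge) a ha rfl, zero_mul]
            · rw [show (d :: l).map Sum.inl ++ Sum.inl (ge - gf) :: c =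
                  Sum.inl d :: (l.map Sum.inl ++ Sum.inl (ge - gf) :: c) by simp,
                ih _ (by simp) d _ (by simp [hc]) rfl, mul_zero]

/-- The small alphabet: `U` (`true`), `U⁻¹` (`false`) and the pair letters with exponents. -/
def smallLetter : Bool ⊕ ι → ℤ ⊕ ι := Sum.map (fun b => if b then 1 else -1) id

/-- The weight of a small letter. -/
def smallWeight (σ ρ : ℝ) : Bool ⊕ ι → ℝ := Sum.elim (fun _ => σ) fun _ => ρ

omit [DecidableEq ι] in
theorem expSum_small (w : List (Bool ⊕ ι)) (b : Bool) :
    expSum ((Sum.inl b :: w).map smallLetter) =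
      (if b then 1 else -1) + expSum (w.map smallLetter) := by
  rw [List.map_cons]
  exact expSum_inl _ _

/-- The norm of the cumulant `[-s] a w`, where `s` is the exponent sum of `a w`. -/
def K0 (g : ι → Option ℤ) (v : ι → ℂ) (a : List ℤ) (w : List (Bool ⊕ ι)) : ℝ :=
  ‖cumK g v ((-(a.sum + expSum (w.map smallLetter)) :: a).map Sum.inl ++ w.map smallLetter)‖

/-- `K0 []` away from the empty word. -/
def F0 (g : ι → Option ℤ) (v : ι → ℂ) (w : List (Bool ⊕ ι)) : ℝ :=
  if w = [] then 0 else K0 g v [] w

/-- Jump between two pair letters, if any. -/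
def jump (g : ι → Option ℤ) (e f : ι) : Option ℤ :=
  if f = e then none
  else
    match g e, g f with
    | some ge, some gf => some (gf - ge)
    | _, _ => none

/-- The first factor at the jump from `e`. -/
def phi (g : ι → Option ℤ) (v : ι → ℂ) (e : ι) : Bool ⊕ ι → List (Bool ⊕ ι) → ℝ
  | Sum.inl _, _ => 0
  | Sum.inr f, w =>
    match jump g e f with
    | some δ => if δ + expSum (w.map smallLetter) = 0 then F0 g v w else 0
    | none => 0

/-- The second factor at the jump from `e`. -/
def psi (g : ι → Option ℤ) (v : ι → ℂ) (e : ι) (a : List ℤ) :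
    Bool ⊕ ι → List (Bool ⊕ ι) → ℝ
  | Sum.inl _, _ => 0
  | Sum.inr f, w =>
    match jump g e f with
    | some δ => K0 g v (a ++ [-δ]) w
    | none => 0

theorem K0_nonneg (g : ι → Option ℤ) (v : ι → ℂ) (a : List ℤ) (w : List (Bool ⊕ ι)) :
    0 ≤ K0 g v a w := norm_nonneg _

theorem F0_nonneg (g : ι → Option ℤ) (v : ι → ℂ) (w : List (Bool ⊕ ι)) : 0 ≤ F0 g v w := by
  unfold F0
  split
  · exact le_rfl
  · exact K0_nonneg g v _ _

theorem phi_nonneg (g : ι → Option ℤ) (v : ι → ℂ) (e : ι) (x : Bool ⊕ ι)
    (w : List (Bool ⊕ ι)) : 0 ≤ phi g v e x w := by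
  unfold phi
  repeat' split
  all_goals first
    | exact le_rfl
    | exact F0_nonneg g v w

theorem psi_nonneg (g : ι → Option ℤ) (v : ι → ℂ) (e : ι) (a : List ℤ) (x : Bool ⊕ ι)
    (w : List (Bool ⊕ ι)) : 0 ≤ psi g v e a x w := by
  unfold psi
  repeat' split
  all_goals first
    | exact le_rfl
    | exact K0_nonneg g v _ w

theorem K0_inl (g : ι → Option ℤ) (v : ι → ℂ) (a : List ℤ) (b : Bool) (w : List (Bool ⊕ ι)) :
    K0 g v a (Sum.inl b :: w) = K0 g v (a ++ [if b then 1 else -1]) w := by
  unfold K0
  rw [expSum_small, List.sum_append, List.sum_singleton, add_assoc]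
  simp [smallLetter]

theorem K0_inr (g : ι → Option ℤ) (v : ι → ℂ)
    (hg : ∀ e f δ, jump g e f = some δ → δ ≠ 0) (a : List ℤ) (e : ι) (w : List (Bool ⊕ ι)) :
    K0 g v a (Sum.inr e :: w) ≤ spl (fun w₁ x w₂ => phi g v e x w₁ * psi g v e a x w₂) w := by
  have hs : expSum ((Sum.inr e :: w).map smallLetter) = expSum (w.map smallLetter) :=
    expSum_inr _ _
  unfold K0
  rw [hs, show (Sum.inr e :: w).map smallLetter = Sum.inr e :: w.map smallLetter from rfl,
    cumK_pair, spl_map]
  refine (norm_spl_le _ _).trans (spl_le_spl w _ _ fun w₁ x w₂ hw => ?_)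
  cases x with
  | inl b => simp [phi, smallLetter, kTerm]
  | inr f =>
    rw [show smallLetter (Sum.inr f : Bool ⊕ ι) = Sum.inr f from rfl]
    simp only [kTerm]
    by_cases hf : f = e
    · rw [if_pos hf, if_neg (by simp), norm_zero]
      exact mul_nonneg (phi_nonneg g v e _ _) (psi_nonneg g v e a _ _)
    · rw [if_neg hf]
      cases hge : g e with
      | none =>
        simp only [norm_zero]
        exact mul_nonneg (phi_nonneg g v e _ _) (psi_nonneg g v e a _ _)
      | some ge =>
        cases hgf : g f with
        | none =>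
          simp only [norm_zero]
          exact mul_nonneg (phi_nonneg g v e _ _) (psi_nonneg g v e a _ _)
        | some gf =>
          have hj : jump g e f = some (gf - ge) := by simp [jump, hf, hge, hgf]
          simp only [phi, psi, hj, norm_mul]
          by_cases hK : cumK g v (Sum.inl (gf - ge) :: w₁.map smallLetter) = 0
          · rw [hK, norm_zero, zero_mul]
            refine mul_nonneg ?_ (K0_nonneg g v _ _)
            split
            · exact F0_nonneg g v _
            · exact le_rfl
          · have hc := cumK_charge g v _ _ hK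
            have hne : w₁ ≠ [] := fun hh => hg e f _ hj (by simpa [hh, expSum] using hc)
            rw [if_pos hc, F0, if_neg hne]
            refine le_of_eq ?_
            congr 1
            · unfold K0
              rw [List.sum_nil, zero_add, ← eq_neg_of_add_eq_zero_left hc]
              rfl
            · have hsum : expSum (w.map smallLetter) =
                  -(gf - ge) + expSum (w₂.map smallLetter) := by
                subst hw
                rw [List.map_append, expSum_append, List.map_cons,
                  show smallLetter (Sum.inr f : Bool ⊕ ι) = Sum.inr f from rfl, expSum_inr]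
                omega
              unfold K0
              rw [hsum, List.sum_append, List.sum_singleton, ← add_assoc, neg_sub]
              simp

theorem K0_nil_le (g : ι → Option ℤ) (v : ι → ℂ) (a : List ℤ) :
    K0 g v a [] ≤ 2 * 8 ^ a.length := by
  unfold K0
  rw [List.map_nil, List.append_nil, cumK_map]
  refine (norm_KG_le _).trans (le_of_eq ?_)
  rw [List.length_cons, pow_succ]
  ring

/-- Disjointness of the first factors, by the Sidon property. -/
theorem sum_phi_le [Fintype ι] (g : ι → Option ℤ) (v : ι → ℂ)
    (hg : ∀ e f e' f' δ, jump g e f = some δ → jump g e' f' = some δ → e = e' ∧ f = f')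
    (w : List (Bool ⊕ ι)) : ∑ e, ∑ f, phi g v e (Sum.inr f) w ≤ F0 g v w := by
  have key : ∀ e f, phi g v e (Sum.inr f) w =
      if jump g e f = some (-expSum (w.map smallLetter)) then F0 g v w else 0 := by
    intro e f
    simp only [phi]
    cases jump g e f with
    | none => simp
    | some δ =>
      simp only [Option.some.injEq]
      by_cases h : δ + expSum (w.map smallLetter) = 0
      · rw [if_pos h, if_pos (by omega)]
      · rw [if_neg h, if_neg (by omega)]
  simp only [key]
  rw [← Fintype.sum_prod_type', ← Finset.sum_filter, Finset.sum_const, nsmul_eq_mul]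
  refine mul_le_of_le_one_left (F0_nonneg g v w) ?_
  rw [Nat.cast_le_one, Finset.card_le_one]
  intro p hp q hq
  simp only [Finset.mem_filter] at hp hq
  exact Prod.ext_iff.2 (hg _ _ _ _ _ hp.2 hq.2)

theorem jump_eq_some {g : ι → Option ℤ} {e f : ι} {δ : ℤ} (h : jump g e f = some δ) :
    e ≠ f ∧ ∃ a b, g e = some a ∧ g f = some b ∧ δ = b - a := by
  unfold jump at h
  by_cases hf : f = e
  · simp [hf] at h
  · rw [if_neg hf] at h
    cases hge : g e with
    | none => simp [hge] at h
    | some a =>
      cases hgf : g f with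
      | none => simp [hge, hgf] at h
      | some b => exact ⟨Ne.symm hf, a, b, rfl, rfl, by simp [hge, hgf] at h; omega⟩

/-- The joint induction. -/
theorem wsum_K0_le [Fintype ι] (g : ι → Option ℤ) (v : ι → ℂ)
    (hg : ∀ e f δ, jump g e f = some δ → δ ≠ 0)
    (hg' : ∀ e f e' f' δ, jump g e f = some δ → jump g e' f' = some δ → e = e' ∧ f = f')
    {σ ρ : ℝ} (hσ : 0 ≤ σ) (hσ' : σ ≤ 1 / 200) (hρ : 0 ≤ ρ) (hρ' : ρ ^ 2 ≤ 1 / 1000) :
    ∀ P : ℕ, (∀ a, wsum (smallWeight σ ρ) P (K0 g v a) ≤ 22 / 10 * 8 ^ a.length) ∧
      wsum (smallWeight σ ρ) P (F0 g v) ≤ 40 * σ := by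
  have hwt : ∀ x : Bool ⊕ ι, 0 ≤ smallWeight σ ρ x := fun x => by cases x <;> simp [smallWeight, *]
  intro P
  induction P with
  | zero =>
    refine ⟨fun a => ?_, ?_⟩
    · simp only [wsum]
      refine (K0_nil_le g v a).trans ?_
      have : (0 : ℝ) ≤ 8 ^ a.length := by positivity
      linarith
    · simp only [wsum, F0, if_true]
      linarith
  | succ P ih =>
    obtain ⟨ihK, ihF⟩ := ih
    set wt : Bool ⊕ ι → ℝ := smallWeight σ ρ with hw
    have hkey : ∀ a : List ℤ,
        ∑ x, wt x * wsum wt P (fun w => K0 g v a (x :: w)) ≤ 36 * σ * 8 ^ a.length := by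
      intro a
      have h8 : (0 : ℝ) ≤ 8 ^ a.length := by positivity
      have hU : ∀ b : Bool, wsum wt P (fun w => K0 g v a (Sum.inl b :: w)) ≤
          22 / 10 * 8 * 8 ^ a.length := fun b => by
        simp only [K0_inl]
        refine (ihK (a ++ [if b then 1 else -1])).trans (le_of_eq ?_)
        rw [List.length_append, List.length_singleton, pow_succ]
        ring
      have hE : ∀ e : ι, wsum wt P (fun w => K0 g v a (Sum.inr e :: w)) ≤
          ρ * (22 / 10 * 8 * 8 ^ a.length) * ∑ f, wsum wt P (phi g v e (Sum.inr f)) := by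
        intro e
        refine (wsum_mono hwt P _ _ (fun w => K0_inr g v hg a e w)).trans ?_
        refine (wsum_split_le hwt P (phi g v e) (psi g v e a) (phi_nonneg g v e)
          (psi_nonneg g v e a)).trans ?_
        rw [Fintype.sum_sum_type, Finset.mul_sum]
        have h0 : ∀ b : Bool, wsum wt P (phi g v e (Sum.inl b)) = 0 := fun b => by
          have h := wsum_smul (wt := wt) 0 P (fun _ => 0)
          simp only [zero_mul] at h
          exact h
        simp only [h0, zero_mul, mul_zero, Finset.sum_const_zero, zero_add]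
        refine Finset.sum_le_sum fun f _ => ?_
        have hp : wsum wt P (psi g v e a (Sum.inr f)) ≤ 22 / 10 * 8 * 8 ^ a.length := by
          cases hj : jump g e f with
          | none =>
            have h := wsum_smul (wt := wt) 0 P (fun _ => 0)
            simp only [zero_mul] at h
            rw [show psi g v e a (Sum.inr f) = fun _ => 0 by funext w; simp [psi, hj], h]
            positivity
          | some δ =>
            rw [show psi g v e a (Sum.inr f) = K0 g v (a ++ [-δ]) by funext w; simp [psi, hj]]
            refine (ihK _).trans (le_of_eq ?_)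
            rw [List.length_append, List.length_singleton, pow_succ]
            ring
        calc wt (Sum.inr f) * (wsum wt P (phi g v e (Sum.inr f)) *
              wsum wt P (psi g v e a (Sum.inr f)))
            ≤ ρ * (wsum wt P (phi g v e (Sum.inr f)) * (22 / 10 * 8 * 8 ^ a.length)) :=
              mul_le_mul_of_nonneg_left (mul_le_mul_of_nonneg_left hp
                (wsum_nonneg hwt P _ (phi_nonneg g v e _))) hρ
          _ = _ := by ring
      rw [Fintype.sum_sum_type]
      have hA : ∑ b : Bool, wt (Sum.inl b) * wsum wt P (fun w => K0 g v a (Sum.inl b :: w)) ≤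
          2 * (σ * (22 / 10 * 8 * 8 ^ a.length)) := by
        refine (Finset.sum_le_sum (g := fun _ => σ * (22 / 10 * 8 * 8 ^ a.length))
          fun b _ => mul_le_mul_of_nonneg_left (hU b) hσ).trans (le_of_eq ?_)
        simp
      have hB : ∑ e, wt (Sum.inr e) * wsum wt P (fun w => K0 g v a (Sum.inr e :: w)) ≤
          ρ ^ 2 * (22 / 10 * 8 * 8 ^ a.length) * (40 * σ) := by
        refine (Finset.sum_le_sum fun e _ => mul_le_mul_of_nonneg_left (hE e) hρ).trans ?_
        rw [← Finset.mul_sum, ← Finset.mul_sum, ← mul_assoc,
          show ρ * (ρ * (22 / 10 * 8 * 8 ^ a.length)) = ρ ^ 2 * (22 / 10 * 8 * 8 ^ a.length) by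
            ring]
        refine mul_le_mul_of_nonneg_left ?_ (by positivity)
        simp only [← wsum_sum]
        exact (wsum_mono hwt P _ _ (sum_phi_le g v hg')).trans ihF
      have : ρ ^ 2 * (22 / 10 * 8 * 8 ^ a.length) * (40 * σ) ≤
          1 / 1000 * (22 / 10 * 8 * 8 ^ a.length) * (40 * σ) :=
        mul_le_mul_of_nonneg_right (mul_le_mul_of_nonneg_right hρ' (by positivity)) (by positivity)
      have := mul_nonneg hσ h8
      linarith
    refine ⟨fun a => ?_, ?_⟩
    · simp only [wsum]
      refine (add_le_add (K0_nil_le g v a) (hkey a)).trans ?_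
      have h8 : (0 : ℝ) ≤ 8 ^ a.length := by positivity
      have := mul_le_mul_of_nonneg_right hσ' h8
      linarith
    · have hF : ∀ x w, F0 g v (x :: w) = K0 g v [] (x :: w) := fun x w => by simp [F0]
      simp only [wsum, hF]
      refine (add_le_add (le_of_eq (show F0 g v [] = 0 by simp [F0])) (hkey [])).trans ?_
      simp only [List.length_nil, pow_zero]
      linarith

/-- Weighted sums of cumulants with prescribed total exponent are small, if the exponents form
a Sidon set. -/
theorem cumK_sum_le [Fintype ι] (g : ι → Option ℤ) (v : ι → ℂ)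
    (sidon : ∀ e f e' f' : ι, ∀ a b a' b' : ℤ, g e = some a → g f = some b → g e' = some a' →
      g f' = some b' → e ≠ f → b - a = b' - a' → e = e' ∧ f = f')
    {σ ρ : ℝ} (hσ : 0 ≤ σ) (hσ' : σ ≤ 1 / 200) (hρ : 0 ≤ ρ) (hρ' : ρ ^ 2 ≤ 1 / 1000) (P : ℕ) :
    ∑ q ∈ Finset.Icc 1 P, ∑ w : Fin q → Bool ⊕ ι,
      (∏ i, smallWeight σ ρ (w i)) *
        ‖cumK g v (Sum.inl (-expSum ((List.ofFn w).map smallLetter)) ::
          (List.ofFn w).map smallLetter)‖ ≤ 40 * σ := by
  have hg : ∀ e f δ, jump g e f = some δ → δ ≠ 0 := by
    intro e f δ h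
    obtain ⟨hne, a, b, ha, hb, rfl⟩ := jump_eq_some h
    intro h0
    exact hne (sidon e f f e a b b a ha hb hb ha hne (by omega)).1
  have hg' : ∀ e f e' f' δ, jump g e f = some δ → jump g e' f' = some δ → e = e' ∧ f = f' := by
    intro e f e' f' δ h h'
    obtain ⟨hne, a, b, ha, hb, hd⟩ := jump_eq_some h
    obtain ⟨_, a', b', ha', hb', hd'⟩ := jump_eq_some h'
    exact sidon e f e' f' a b a' b' ha hb ha' hb' hne (by omega)
  refine le_trans (le_of_eq ?_) (wsum_K0_le g v hg hg' hσ hσ' hρ hρ' P).2
  rw [wsum_eq, ← Finset.sum_subset (s₁ := Finset.Icc 1 P) (s₂ := Finset.range (P + 1))]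
  · refine Finset.sum_congr rfl fun q hq => Finset.sum_congr rfl fun w _ => ?_
    have hne : List.ofFn w ≠ [] := by
      intro h0
      have := congrArg List.length h0
      simp at this
      simp [this] at hq
    rw [F0, if_neg hne, K0, List.sum_nil, zero_add]
    rfl
  · intro q hq
    simp only [Finset.mem_Icc, Finset.mem_range] at hq ⊢
    omega
  · intro q hq hq'
    obtain rfl : q = 0 := by
      simp only [Finset.mem_Icc, Finset.mem_range] at hq hq'
      omega
    simp [F0]

end

end VAgent.P087
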