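import Mathlib
import Vale.Agent.P087.Matrices
import Vale.Agent.P087.Micro.Vol
import Vale.Agent.P087.Micro.Net
import Vale.Agent.P087.Micro.Frob
import Vale.Agent.P087.Micro.Eval

/-!
# P087: the microstates lie near `V^g Z V*^g`

Every microstate has its two first coordinates and its coordinate with exponent zero in a fixed
ball, and each further coordinate `e` within `1 + η` of `V^(g e) Z Vᴴ^(g e)`, where `(V, Z)` runs
through a net with logarithmically many points per `k²`.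
-/

namespace VAgent.P087

open MeasureTheory Filter Matrix Metric
open scoped Matrix Matrix.Norms.L2Operator ComplexConjugate ENNReal EReal

noncomputable section

/-- Hypotheses for the upper bound: the noise of the two generators and of the conjugate with
exponent `0` is tiny, the other noises have variance at most one. -/
structure Params.Small (p : Params) (η : ℝ) (G : ℕ) (e0 : Fin p.n) : Prop where
  η_pos : 0 < η
  η_le : η ≤ 1
  θ_pos : 0 < p.θ
  θ_le : p.θ ≤ 1
  G_pos : 0 < G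
  g_le : ∀ e, (p.g e).natAbs ≤ G
  g_nonneg : ∀ e, 0 ≤ p.g e
  g_zero : p.g e0 = 0
  v_gen : ∀ i : Fin 2, p.v (Fin.castAdd p.n i) = (η * p.θ / (10000 * G)) ^ 2
  v_zero : p.v (Fin.natAdd 2 e0) = (η / 10000) ^ 2
  v_rest : ∀ e, e ≠ e0 → p.v (Fin.natAdd 2 e) = 1

namespace Params

variable (p : Params)

/-! ### The polynomials -/

/-- `(x + i x') / (2 θ)`. -/
def polyT : PolyA (2 + p.n) :=
  ((2 * p.θ)⁻¹ : ℂ) • (varA (Fin.castAdd p.n 0) + Complex.I • varA (Fin.castAdd p.n 1))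

/-- `(x - i x') / (2 θ)`. -/
def polyT' : PolyA (2 + p.n) :=
  ((2 * p.θ)⁻¹ : ℂ) • (varA (Fin.castAdd p.n 0) - Complex.I • varA (Fin.castAdd p.n 1))

/-- The residual of a conjugate. -/
def polyRes (e0 e : Fin p.n) : PolyA (2 + p.n) :=
  varA (Fin.natAdd 2 e)
    - p.polyT ^ (p.g e).natAbs * varA (Fin.natAdd 2 e0) * p.polyT' ^ (p.g e).natAbs

/-- The defect applied to `T^i Z T'^g`. -/
def polyDefect (e0 : Fin p.n) (g i : ℕ) : PolyA (2 + p.n) :=
  (1 - p.polyT' * p.polyT) * (p.polyT ^ i * (varA (Fin.natAdd 2 e0) * p.polyT' ^ g))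

/-- The defect applied to `T^i Z`. -/
def polyDefect0 (e0 : Fin p.n) (i : ℕ) : PolyA (2 + p.n) :=
  (1 - p.polyT' * p.polyT) * (p.polyT ^ i * varA (Fin.natAdd 2 e0))

/-- All polynomials whose norms are transferred from the model. -/
def transferSet (e0 : Fin p.n) (G : ℕ) : Finset (PolyA (2 + p.n)) :=
  open scoped Classical in
  Finset.univ.image varA ∪ Finset.univ.image (p.polyRes e0)
    ∪ (Finset.univ ×ˢ Finset.range G).image (fun q => p.polyDefect e0 (p.g q.1).natAbs q.2)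
    ∪ (Finset.range G).image (p.polyDefect0 e0)

variable {p}

theorem evalA_polyT {k : ℕ} (A : Fin (2 + p.n) → Matrix (Fin k) (Fin k) ℂ) :
    evalA A p.polyT
      = ((2 * p.θ)⁻¹ : ℂ) • (A (Fin.castAdd p.n 0) + Complex.I • A (Fin.castAdd p.n 1)) := by
  simp [polyT, evalA_varA]

theorem evalA_polyT' {k : ℕ} {A : Fin (2 + p.n) → Matrix (Fin k) (Fin k) ℂ}
    (hA : ∀ j, (A j)ᴴ = A j) : evalA A p.polyT' = (evalA A p.polyT)ᴴ := by
  rw [evalA_polyT]
  simp [polyT', evalA_varA, hA, Matrix.conjTranspose_add, Matrix.conjTranspose_smul,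
    Complex.conj_ofReal, sub_eq_add_neg]

/-! ### Powers of a near-unitary -/

theorem norm_pow_sub_pow_le_of_le {k : ℕ} {T U : Matrix (Fin k) (Fin k) ℂ} {α : ℝ} (hα : 0 ≤ α)
    (hU : ‖U‖ ≤ 1) (hT : ‖T‖ ≤ 1 + α) (hTU : ‖T - U‖ ≤ α) (g : ℕ) :
    ‖T ^ g‖ ≤ (1 + α) ^ g ∧ ‖T ^ g - U ^ g‖ ≤ g * α * (1 + α) ^ g := by
  induction g with
  | zero => simpa using norm_one_le
  | succ g ih =>
    refine ⟨?_, ?_⟩
    · rw [pow_succ, pow_succ]
      exact (norm_mul_le _ _).trans (mul_le_mul ih.1 hT (norm_nonneg _) (by positivity))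
    · have e : T ^ (g + 1) - U ^ (g + 1) = (T ^ g - U ^ g) * T + U ^ g * (T - U) := by
        rw [pow_succ, pow_succ]
        simp only [sub_mul, mul_sub]
        abel
      rw [e]
      have a1 : ‖(T ^ g - U ^ g) * T‖ ≤ g * α * (1 + α) ^ g * (1 + α) :=
        (norm_mul_le _ _).trans (mul_le_mul ih.2 hT (norm_nonneg _) (by positivity))
      have a2 : ‖U ^ g * (T - U)‖ ≤ α :=
        ((norm_mul_le _ _).trans
          (mul_le_of_le_one_left (norm_nonneg _) (norm_pow_le_one hU g))).trans hTU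
      have a3 : α ≤ α * (1 + α) ^ (g + 1) :=
        le_mul_of_one_le_right hα (one_le_pow₀ (by linarith))
      refine (norm_add_le _ _).trans ?_
      push_cast
      rw [pow_succ] at a3 ⊢
      linarith

/-! ### The model -/

variable {η : ℝ} {G : ℕ} {e0 : Fin p.n}

variable {k : ℕ} {Gm : p.Noise → Matrix (Fin k) (Fin k) ℂ}

/-- The scale of the defect of the model. -/
def alpha (η : ℝ) (G : ℕ) : ℝ := 16 * η / (10000 * G)

theorem model_eq_a (h : p.Small η G e0) :
    evalG Gm (p.Y 0 (Fin.castAdd p.n 0))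
      = (p.θ : ℂ) • (letterMat Gm (Sum.inl 1) + letterMat Gm (Sum.inl (-1)))
        + ((η * p.θ / (10000 * G) : ℝ) : ℂ) • Gm (Sum.inl (Fin.castAdd p.n 0, false)) := by
  have := h.η_pos
  have := h.θ_pos
  have hva : Real.sqrt (p.v (Fin.castAdd p.n 0)) = η * p.θ / (10000 * G) := by
    rw [h.v_gen 0, Real.sqrt_sq (by positivity)]
  simp [-Complex.coe_smul, Params.Y, Params.base, hva, evalG_polyU, evalG_polyG, smul_add]

theorem model_eq_b (h : p.Small η G e0) :
    evalG Gm (p.Y 0 (Fin.castAdd p.n 1))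
      = (p.θ : ℂ) • ((-Complex.I) • letterMat Gm (Sum.inl 1)
          + Complex.I • letterMat Gm (Sum.inl (-1)))
        + ((η * p.θ / (10000 * G) : ℝ) : ℂ) • Gm (Sum.inl (Fin.castAdd p.n 1, false)) := by
  have := h.η_pos
  have := h.θ_pos
  have hva : Real.sqrt (p.v (Fin.castAdd p.n 1)) = η * p.θ / (10000 * G) := by
    rw [h.v_gen 1, Real.sqrt_sq (by positivity)]
  simp [-Complex.coe_smul, Params.Y, Params.base, hva, evalG_polyU, evalG_polyG, smul_add]

theorem model_eq_zero (h : p.Small η G e0) :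
    evalG Gm (p.Y 0 (Fin.natAdd 2 e0))
      = Gm (Sum.inr ()) + ((η / 10000 : ℝ) : ℂ) • Gm (Sum.inl (Fin.natAdd 2 e0, false)) := by
  have := h.η_pos
  have hv0 : Real.sqrt (p.v (Fin.natAdd 2 e0)) = η / 10000 := by
    rw [h.v_zero, Real.sqrt_sq (by positivity)]
  simp [-Complex.coe_smul, Params.Y, Params.base, hv0, evalG_polyU, evalG_polyG, h.g_zero,
    letterMat_zero]

theorem model_eq_e (h : p.Small η G e0) {e : Fin p.n} (he : e ≠ e0) :
    evalG Gm (p.Y 0 (Fin.natAdd 2 e))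
      = letterMat Gm (Sum.inl 1) ^ (p.g e).natAbs * Gm (Sum.inr ())
          * (letterMat Gm (Sum.inl 1))ᴴ ^ (p.g e).natAbs
        + Gm (Sum.inl (Fin.natAdd 2 e, false)) := by
  have hg : ((p.g e).natAbs : ℤ) = p.g e := Int.natAbs_of_nonneg (h.g_nonneg e)
  rw [← letterMat_natCast, ← letterMat_neg_natCast, hg]
  simp [Params.Y, Params.base, h.v_rest e he, evalG_polyU, evalG_polyG]

theorem model_hermitian (h : p.Small η G e0) (hGm : ∀ j, (Gm j)ᴴ = Gm j) :
    ∀ j, (evalG Gm (p.Y 0 j))ᴴ = evalG Gm (p.Y 0 j) := by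
  refine Fin.addCases (fun i => ?_) (fun e => ?_)
  · fin_cases i
    · show (evalG Gm (p.Y 0 (Fin.castAdd p.n 0)))ᴴ = evalG Gm (p.Y 0 (Fin.castAdd p.n 0))
      rw [model_eq_a h]
      simp [Matrix.conjTranspose_add, Matrix.conjTranspose_smul, letterMat_conjTranspose, hGm,
        Complex.conj_ofReal, add_comm, -Complex.coe_smul]
    · show (evalG Gm (p.Y 0 (Fin.castAdd p.n 1)))ᴴ = evalG Gm (p.Y 0 (Fin.castAdd p.n 1))
      rw [model_eq_b h]
      simp [Matrix.conjTranspose_add, Matrix.conjTranspose_smul, letterMat_conjTranspose, hGm,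
        Complex.conj_ofReal, add_comm, -Complex.coe_smul]
  · rcases eq_or_ne e e0 with rfl | he
    · rw [model_eq_zero h]
      simp [Matrix.conjTranspose_add, Matrix.conjTranspose_smul, hGm, Complex.conj_ofReal,
        -Complex.coe_smul]
    · rw [model_eq_e h he]
      simp [Matrix.conjTranspose_add, Matrix.conjTranspose_mul, Matrix.conjTranspose_pow, hGm,
        mul_assoc]

theorem alpha_bounds (h : p.Small η G e0) :
    0 ≤ alpha η G ∧ alpha η G * G = 16 * η / 10000 ∧ alpha η G ≤ 16 / 10000 := by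
  have hη := h.η_pos
  have hη1 := h.η_le
  have hG1 : (1 : ℝ) ≤ G := by exact_mod_cast h.G_pos
  have e : alpha η G * G = 16 * η / 10000 := by rw [alpha]; field_simp
  have h0 : 0 ≤ alpha η G := by rw [alpha]; positivity
  exact ⟨h0, e, by nlinarith⟩

theorem pow_one_add_alpha_le (h : p.Small η G e0) {i : ℕ} (hi : i ≤ G) :
    (1 + alpha η G) ^ i ≤ 1002 / 1000 := by
  obtain ⟨hα0, hαG, -⟩ := alpha_bounds h
  have hη := h.η_pos
  have hη1 := h.η_le
  have h1 : (1 + alpha η G) ^ i ≤ Real.exp (alpha η G * G) := by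
    calc (1 + alpha η G) ^ i ≤ Real.exp (alpha η G) ^ i :=
          pow_le_pow_left₀ (by linarith) (by linarith [Real.add_one_le_exp (alpha η G)]) i
      _ = Real.exp (i * alpha η G) := (Real.exp_nat_mul _ i).symm
      _ ≤ Real.exp (alpha η G * G) := by
          apply Real.exp_le_exp.2
          rw [mul_comm]
          exact mul_le_mul_of_nonneg_left (by exact_mod_cast hi) hα0
  refine h1.trans ?_
  rw [hαG]
  have h2 := Real.add_one_le_exp (-(16 * η / 10000))
  rw [Real.exp_neg] at h2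
  have h3 : 0 < Real.exp (16 * η / 10000) := Real.exp_pos _
  have h4 : (-(16 * η / 10000) + 1) * Real.exp (16 * η / 10000) ≤ 1 := by
    have := mul_le_mul_of_nonneg_right h2 h3.le
    rwa [inv_mul_cancel₀ h3.ne'] at this
  nlinarith

/-- What is used about the model: `T` is near `U`, `Z` near `z`. -/
theorem model_near (h : p.Small η G e0) (hGm : ∀ j, ‖Gm j‖ ≤ 16) :
    ‖evalA (fun j => evalG Gm (p.Y 0 j)) p.polyT - letterMat Gm (Sum.inl 1)‖ ≤ alpha η G ∧
      ‖evalA (fun j => evalG Gm (p.Y 0 j)) p.polyT‖ ≤ 1 + alpha η G ∧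
      ‖evalG Gm (p.Y 0 (Fin.natAdd 2 e0)) - Gm (Sum.inr ())‖ ≤ 16 * η / 10000 ∧
      ‖evalG Gm (p.Y 0 (Fin.natAdd 2 e0))‖ ≤ 1601 / 100 := by
  have hη := h.η_pos
  have hη1 := h.η_le
  have hθ := h.θ_pos
  set U := letterMat Gm (Sum.inl (1 : ℤ)) with hU
  set T := evalA (fun j => evalG Gm (p.Y 0 j)) p.polyT with hT
  set Na := Gm (Sum.inl (Fin.castAdd p.n 0, false))
  set Nb := Gm (Sum.inl (Fin.castAdd p.n 1, false))
  have hTeq : T = U + ((η / (20000 * G) : ℝ) : ℂ) • (Na + Complex.I • Nb) := by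
    have hθ' : (p.θ : ℂ) ≠ 0 := by exact_mod_cast hθ.ne'
    have hG' : (G : ℂ) ≠ 0 := by exact_mod_cast h.G_pos.ne'
    rw [hT, evalA_polyT, model_eq_a h, model_eq_b h]
    match_scalars <;> field_simp <;> ring_nf <;> simp [Complex.I_sq]; ring
  have hTU : ‖T - U‖ ≤ alpha η G := by
    rw [hTeq, add_sub_cancel_left, norm_smul, Complex.norm_real,
      Real.norm_of_nonneg (by positivity)]
    have : ‖Na + Complex.I • Nb‖ ≤ 32 := by
      refine (norm_add_le _ _).trans ?_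
      rw [norm_smul, Complex.norm_I, one_mul]
      linarith [hGm (Sum.inl (Fin.castAdd p.n 0, false)),
        hGm (Sum.inl (Fin.castAdd p.n 1, false))]
    calc η / (20000 * G) * ‖Na + Complex.I • Nb‖ ≤ η / (20000 * G) * 32 :=
          mul_le_mul_of_nonneg_left this (by positivity)
      _ = alpha η G := by rw [alpha]; ring
  have hZz : ‖evalG Gm (p.Y 0 (Fin.natAdd 2 e0)) - Gm (Sum.inr ())‖ ≤ 16 * η / 10000 := by
    rw [model_eq_zero h, add_sub_cancel_left, norm_smul, Complex.norm_real,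
      Real.norm_of_nonneg (by positivity)]
    nlinarith [hGm (Sum.inl (Fin.natAdd 2 e0, false))]
  refine ⟨hTU, ?_, hZz, ?_⟩
  · calc ‖T‖ = ‖U + (T - U)‖ := by rw [add_sub_cancel]
      _ ≤ ‖U‖ + ‖T - U‖ := norm_add_le _ _
      _ ≤ 1 + alpha η G := add_le_add (norm_letterMat_le Gm 1) hTU
  · calc ‖evalG Gm (p.Y 0 (Fin.natAdd 2 e0))‖
        = ‖Gm (Sum.inr ()) + (evalG Gm (p.Y 0 (Fin.natAdd 2 e0)) - Gm (Sum.inr ()))‖ := by
          rw [add_sub_cancel]
      _ ≤ ‖Gm (Sum.inr ())‖ + ‖evalG Gm (p.Y 0 (Fin.natAdd 2 e0)) - Gm (Sum.inr ())‖ :=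
          norm_add_le _ _
      _ ≤ _ := by linarith [hGm (Sum.inr ())]

theorem model_small (h : p.Small η G e0) (hGm : ∀ j, ‖Gm j‖ ≤ 16) :
    nrm2 (evalG Gm (p.Y 0 (Fin.castAdd p.n 0))) ≤ 20 ∧
      nrm2 (evalG Gm (p.Y 0 (Fin.castAdd p.n 1))) ≤ 20 ∧
      nrm2 (evalG Gm (p.Y 0 (Fin.natAdd 2 e0))) ≤ 20 := by
  have hη := h.η_pos
  have hη1 := h.η_le
  have hθ := h.θ_pos
  have hθ1 := h.θ_le
  have hG1 : (1 : ℝ) ≤ G := by exact_mod_cast h.G_pos
  have hcoef : η * p.θ / (10000 * G) ≤ 1 / 10000 := by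
    rw [div_le_div_iff₀ (by positivity) (by norm_num)]
    have : η * p.θ ≤ 1 := mul_le_one₀ hη1 hθ.le hθ1
    nlinarith
  have hL := norm_letterMat_le Gm
  refine ⟨(nrm2_le_opNorm _).trans ?_, (nrm2_le_opNorm _).trans ?_,
    (nrm2_le_opNorm _).trans ((model_near h hGm).2.2.2.trans (by norm_num))⟩
  · rw [model_eq_a h]
    refine (norm_add_le _ _).trans ?_
    rw [norm_smul, norm_smul, Complex.norm_real, Complex.norm_real,
      Real.norm_of_nonneg hθ.le, Real.norm_of_nonneg (by positivity)]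
    refine le_trans (add_le_add (mul_le_mul hθ1 ((norm_add_le _ _).trans
      (add_le_add (hL 1) (hL (-1)))) (norm_nonneg _) zero_le_one)
      (mul_le_mul hcoef (hGm _) (norm_nonneg _) (by norm_num))) (by norm_num)
  · rw [model_eq_b h]
    refine (norm_add_le _ _).trans ?_
    rw [norm_smul, norm_smul, Complex.norm_real, Complex.norm_real,
      Real.norm_of_nonneg hθ.le, Real.norm_of_nonneg (by positivity)]
    have h1 : ‖(-Complex.I) • letterMat Gm (Sum.inl 1) + Complex.I • letterMat Gm (Sum.inl (-1))‖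
        ≤ 2 := by
      refine (norm_add_le _ _).trans ?_
      rw [norm_smul, norm_smul, norm_neg, Complex.norm_I, one_mul, one_mul]
      linarith [hL 1, hL (-1)]
    refine le_trans (add_le_add (mul_le_mul hθ1 h1 (norm_nonneg _) zero_le_one)
      (mul_le_mul hcoef (hGm _) (norm_nonneg _) (by norm_num))) (by norm_num)

theorem model_defect (h : p.Small η G e0) (hGh : ∀ j, (Gm j)ᴴ = Gm j) (hGm : ∀ j, ‖Gm j‖ ≤ 16)
    {i g : ℕ} (hi : i ≤ G) (hg : g ≤ G) :
    nrm2 (evalA (fun j => evalG Gm (p.Y 0 j)) (p.polyDefect e0 g i)) ≤ 8 * η / (100 * G) := by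
  obtain ⟨hTU, hTn, -, hZn⟩ := model_near h hGm
  obtain ⟨hα0, -, hα1⟩ := alpha_bounds h
  have hη := h.η_pos
  simp only [polyDefect, map_sub, map_one, map_mul, map_pow, evalA_varA,
    evalA_polyT' (model_hermitian h hGh)]
  set T := evalA (fun j => evalG Gm (p.Y 0 j)) p.polyT
  set U := letterMat Gm (Sum.inl (1 : ℤ)) with hU
  set Z := evalG Gm (p.Y 0 (Fin.natAdd 2 e0))
  have hUn : ‖U‖ ≤ 1 := norm_letterMat_le Gm 1
  have hUU : Uᴴ * U = 1 := by
    rw [hU, letterMat_conjTranspose, letterMat_mul, neg_add_cancel, letterMat_zero]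
  clear hU
  clear_value T U Z
  have hUhn : ‖Uᴴ‖ ≤ 1 := (Matrix.l2_opNorm_conjTranspose U).trans_le hUn
  have hTh : ‖Tᴴ‖ ≤ 1 + alpha η G := (Matrix.l2_opNorm_conjTranspose T).trans_le hTn
  have hTUh : ‖Tᴴ - Uᴴ‖ ≤ alpha η G := by
    rw [← Matrix.conjTranspose_sub, Matrix.l2_opNorm_conjTranspose]
    exact hTU
  have hdef : ‖1 - Tᴴ * T‖ ≤ 3 * alpha η G := by
    have e : 1 - Tᴴ * T = -((Tᴴ - Uᴴ) * T + Uᴴ * (T - U)) := by
      have : Uᴴ * U = 1 := hUU
      rw [sub_mul, mul_sub, this]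
      abel
    rw [e, norm_neg]
    refine (norm_add_le _ _).trans ?_
    have a1 : ‖(Tᴴ - Uᴴ) * T‖ ≤ alpha η G * (1 + alpha η G) :=
      (norm_mul_le _ _).trans (mul_le_mul hTUh hTn (norm_nonneg _) hα0)
    have a2 : ‖Uᴴ * (T - U)‖ ≤ alpha η G :=
      ((norm_mul_le _ _).trans (mul_le_of_le_one_left (norm_nonneg _) hUhn)).trans hTU
    nlinarith
  refine (nrm2_le_opNorm _).trans ((norm_mul_le _ _).trans ?_)
  have hTi := ((norm_pow_sub_pow_le_of_le hα0 hUn hTn hTU i).1).trans (pow_one_add_alpha_le h hi)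
  have hTg := ((norm_pow_sub_pow_le_of_le hα0 hUhn hTh hTUh g).1).trans (pow_one_add_alpha_le h hg)
  have h1 : ‖T ^ i * (Z * (Tᴴ) ^ g)‖ ≤ 1002 / 1000 * (1601 / 100 * (1002 / 1000)) :=
    (norm_mul_le _ _).trans (mul_le_mul hTi
      ((norm_mul_le _ _).trans (mul_le_mul hZn hTg (norm_nonneg _) (by norm_num)))
      (norm_nonneg _) (by norm_num))
  refine (mul_le_mul hdef h1 (norm_nonneg _) (by positivity)).trans ?_
  rw [alpha, show 3 * (16 * η / (10000 * G)) * (1002 / 1000 * (1601 / 100 * (1002 / 1000)))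
      = (η / G) * (3 * 16 / 10000 * (1002 / 1000 * (1601 / 100 * (1002 / 1000)))) by ring,
    show 8 * η / (100 * (G : ℝ)) = (η / G) * (8 / 100) by ring]
  exact mul_le_mul_of_nonneg_left (by norm_num) (by positivity)

theorem model_res (h : p.Small η G e0)
    (hGm : ∀ j, (Gm j)ᴴ = Gm j ∧ ‖Gm j‖ ≤ 16 ∧ nrm2 (Gm j) ^ 2 ≤ 1 + η / 100)
    {e : Fin p.n} (he : e ≠ e0) :
    nrm2 (evalA (fun j => evalG Gm (p.Y 0 j)) (p.polyRes e0 e))
      ≤ 1 + η / 100 + 6 * η / 100 := by
  obtain ⟨hTU, hTn, hZz, hZn⟩ := model_near h (fun j => (hGm j).2.1)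
  obtain ⟨hα0, hαG, -⟩ := alpha_bounds h
  have hη := h.η_pos
  simp only [polyRes, map_sub, map_mul, map_pow, evalA_varA,
    evalA_polyT' (model_hermitian h fun j => (hGm j).1)]
  set T := evalA (fun j => evalG Gm (p.Y 0 j)) p.polyT
  set Z := evalG Gm (p.Y 0 (Fin.natAdd 2 e0))
  rw [model_eq_e h he]
  set g := (p.g e).natAbs
  have hgG : g ≤ G := h.g_le e
  set U := letterMat Gm (Sum.inl (1 : ℤ))
  set z := Gm (Sum.inr ())
  set N := Gm (Sum.inl (Fin.natAdd 2 e, false))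
  have e1 : U ^ g * z * (Uᴴ) ^ g + N - T ^ g * Z * (Tᴴ) ^ g
      = N - ((T ^ g - U ^ g) * Z * (Tᴴ) ^ g + U ^ g * (Z - z) * (Tᴴ) ^ g
          + U ^ g * z * ((Tᴴ) ^ g - (Uᴴ) ^ g)) := by
    simp only [sub_mul, mul_sub]
    abel
  rw [e1]
  refine (nrm2_sub_le _ _).trans (add_le_add ?_ ?_)
  · have := (hGm (Sum.inl (Fin.natAdd 2 e, false))).2.2
    nlinarith [nrm2_nonneg N]
  refine (nrm2_le_opNorm _).trans ((norm_add_le _ _).trans
    ((add_le_add (norm_add_le _ _) le_rfl).trans ?_))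
  have hUn : ‖U‖ ≤ 1 := norm_letterMat_le Gm 1
  have hzn : ‖z‖ ≤ 16 := (hGm _).2.1
  clear_value T U Z z N
  have hUhn : ‖Uᴴ‖ ≤ 1 := (Matrix.l2_opNorm_conjTranspose U).trans_le hUn
  obtain ⟨-, hTUg⟩ := norm_pow_sub_pow_le_of_le hα0 hUn hTn hTU g
  obtain ⟨hThg, hTUhg⟩ := norm_pow_sub_pow_le_of_le (T := Tᴴ) (U := Uᴴ) hα0 hUhn
    ((Matrix.l2_opNorm_conjTranspose T).trans_le hTn)
    (by rw [← Matrix.conjTranspose_sub, Matrix.l2_opNorm_conjTranspose]; exact hTU) g
  have hp := pow_one_add_alpha_le h hgG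
  have hga : (g : ℝ) * alpha η G ≤ 16 * η / 10000 := by
    rw [← hαG, mul_comm]
    exact mul_le_mul_of_nonneg_left (by exact_mod_cast hgG) hα0
  have hUg := norm_pow_le_one hUn g
  have q0 : (g : ℝ) * alpha η G * (1 + alpha η G) ^ g ≤ 16 * η / 10000 * (1002 / 1000) :=
    mul_le_mul hga hp (by positivity) (by positivity)
  have b1 : ‖(T ^ g - U ^ g) * Z * (Tᴴ) ^ g‖
      ≤ 16 * η / 10000 * (1002 / 1000) * (1601 / 100) * (1002 / 1000) :=
    (norm_mul_le _ _).trans (mul_le_mul ((norm_mul_le _ _).trans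
      (mul_le_mul (hTUg.trans q0) hZn (norm_nonneg _) (by positivity)))
      (hThg.trans hp) (norm_nonneg _) (by positivity))
  have b2 : ‖U ^ g * (Z - z) * (Tᴴ) ^ g‖ ≤ 16 * η / 10000 * (1002 / 1000) :=
    (norm_mul_le _ _).trans (mul_le_mul (((norm_mul_le _ _).trans
      (mul_le_of_le_one_left (norm_nonneg _) hUg)).trans hZz)
      (hThg.trans hp) (norm_nonneg _) (by positivity))
  have b3 : ‖U ^ g * z * ((Tᴴ) ^ g - (Uᴴ) ^ g)‖ ≤ 16 * (16 * η / 10000 * (1002 / 1000)) :=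
    (norm_mul_le _ _).trans (mul_le_mul (((norm_mul_le _ _).trans
      (mul_le_of_le_one_left (norm_nonneg _) hUg)).trans hzn)
      (hTUhg.trans q0) (norm_nonneg _) (by norm_num))
  linarith

/-- Bounds at the finite-dimensional model. -/
theorem model_bounds (h : p.Small η G e0)
    (hGm : ∀ j, (Gm j)ᴴ = Gm j ∧ ‖Gm j‖ ≤ 16 ∧ nrm2 (Gm j) ^ 2 ≤ 1 + η / 100)
    (B : Fin (2 + p.n) → Matrix (Fin k) (Fin k) ℂ) (hB : B = fun j => evalG Gm (p.Y 0 j)) :
    (∀ j, (B j)ᴴ = B j) ∧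
      nrm2 (B (Fin.castAdd p.n 0)) ≤ 20 ∧ nrm2 (B (Fin.castAdd p.n 1)) ≤ 20 ∧
      nrm2 (B (Fin.natAdd 2 e0)) ≤ 20 ∧
      (∀ e, e ≠ e0 → nrm2 (evalA B (p.polyRes e0 e)) ≤ 1 + η / 100 + 6 * η / 100) ∧
      (∀ e i, i < G → nrm2 (evalA B (p.polyDefect e0 (p.g e).natAbs i)) ≤ 8 * η / (100 * G)) ∧
      (∀ i, i < G → nrm2 (evalA B (p.polyDefect0 e0 i)) ≤ 8 * η / (100 * G)) := by
  subst hB
  obtain ⟨ha, hb, h0⟩ := model_small h (fun j => (hGm j).2.1)
  refine ⟨model_hermitian h fun j => (hGm j).1, ha, hb, h0, fun e he => model_res h hGm he,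
    fun e i hi => model_defect h (fun j => (hGm j).1) (fun j => (hGm j).2.1) hi.le (h.g_le e),
    fun i hi => ?_⟩
  have e : p.polyDefect0 e0 i = p.polyDefect e0 0 i := by simp [polyDefect0, polyDefect]
  rw [e]
  exact model_defect h (fun j => (hGm j).1) (fun j => (hGm j).2.1) hi.le (Nat.zero_le G)

/-! ### The cover -/

/-- Radii of the balls. -/
def rad (η : ℝ) (e0 : Fin p.n) : Fin (2 + p.n) → ℝ :=
  Fin.addCases (fun _ => 21) fun e => if e = e0 then 21 else 1 + η

/-- The Hermitian matrix with the given coordinates. -/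
def netMat {k : ℕ} (y : EuclideanSpace ℝ (Fin k × Fin k)) : Matrix (Fin k) (Fin k) ℂ :=
  herm fun a b => y (a, b)

/-- Centres of the balls. -/
def centre (e0 : Fin p.n) {k : ℕ}
    (q : Matrix (Fin k) (Fin k) ℂ × EuclideanSpace ℝ (Fin k × Fin k)) :
    Fin (2 + p.n) → Fin k → Fin k → ℝ :=
  Fin.addCases (fun _ => 0) fun e =>
    if e = e0 then 0 else hermCoord (q.1 ^ (p.g e).natAbs * netMat q.2 * (q.1ᴴ) ^ (p.g e).natAbs)

/-- A product of balls. -/
def piece (η : ℝ) (e0 : Fin p.n) {k : ℕ}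
    (q : Matrix (Fin k) (Fin k) ℂ × EuclideanSpace ℝ (Fin k × Fin k)) :
    Set (Fin (2 + p.n) → Fin k → Fin k → ℝ) :=
  Set.univ.pi fun j => {x | nrm2 (herm x - herm (centre e0 q j)) ≤ rad η e0 j}

theorem nrm2_herm_sub {k : ℕ} (x c : Fin k → Fin k → ℝ) :
    nrm2 (herm x - herm c)
      = ‖(WithLp.toLp 2 (fun i => (x - c) i.1 i.2) : EuclideanSpace ℝ (Fin k × Fin k))‖
          / Real.sqrt k := by
  rw [← herm_sub]
  refine (pow_left_inj₀ (nrm2_nonneg _) (by positivity) two_ne_zero).1 ?_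
  rw [nrm2_sq, div_pow, Real.sq_sqrt (Nat.cast_nonneg k), hsSq_herm, EuclideanSpace.norm_sq_eq,
    Fintype.sum_prod_type]
  simp [sq_abs]

theorem volume_ball_herm_le {k : ℕ} (hk : 1 ≤ k) (c : Fin k → Fin k → ℝ) {r : ℝ} (hr : 0 ≤ r) :
    volume {x : Fin k → Fin k → ℝ | nrm2 (herm x - herm c) ≤ r}
      ≤ ENNReal.ofReal (ballBound (k * k) (r * Real.sqrt k)) := by
  have : Nonempty (Fin k) := ⟨⟨0, hk⟩⟩
  set e : (Fin k → Fin k → ℝ) ≃ᵐ EuclideanSpace ℝ (Fin k × Fin k) :=
    (MeasurableEquiv.curry (Fin k) (Fin k) ℝ).symm.trans (MeasurableEquiv.toLp 2 _) with he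
  have hmp : MeasurePreserving e volume volume :=
    (PiLp.volume_preserving_toLp (Fin k × Fin k)).comp (volume_preserving_uncurry (Fin k) (Fin k))
  have hs : Real.sqrt k ≠ 0 := by positivity
  have hset : {x : Fin k → Fin k → ℝ | nrm2 (herm x - herm c) ≤ r}
      = e ⁻¹' closedBall (e c) (r * Real.sqrt k) := by
    ext x
    rw [Set.mem_preimage, Metric.mem_closedBall, Set.mem_ofPred_eq, dist_eq_norm, nrm2_herm_sub,
      div_le_iff₀ (lt_of_le_of_ne (Real.sqrt_nonneg _) (Ne.symm hs))]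
    rfl
  rw [hset, hmp.measure_preimage measurableSet_closedBall.nullMeasurableSet]
  simpa [Fintype.card_prod] using volume_closedBall_le (e c) (r := r * Real.sqrt k) (by positivity)

theorem rad_pos (h : p.Small η G e0) (j : Fin (2 + p.n)) : 0 < rad η e0 j := by
  refine Fin.addCases (fun i => ?_) (fun e => ?_) j
  · simp [rad]
  · simp only [rad, Fin.addCases_right]
    split_ifs
    · norm_num
    · linarith [h.η_pos]

theorem volume_piece_le (h : p.Small η G e0) {k : ℕ} (hk : 1 ≤ k)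
    (q : Matrix (Fin k) (Fin k) ℂ × EuclideanSpace ℝ (Fin k × Fin k)) :
    volume (piece η e0 q)
      ≤ ENNReal.ofReal (∏ j, ballBound (k * k) (rad η e0 j * Real.sqrt k)) := by
  rw [piece, volume_pi_pi, ENNReal.ofReal_prod_of_nonneg fun j _ => ballBound_nonneg _ _]
  exact Finset.prod_le_prod' fun j _ => volume_ball_herm_le hk _ (rad_pos h j).le

theorem finrank_matrix (k : ℕ) :
    Module.finrank ℝ (Matrix (Fin k) (Fin k) ℂ) = 2 * (k * k) := by
  rw [← Module.finrank_mul_finrank ℝ ℂ, Module.finrank_matrix, Complex.finrank_real_complex]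
  simp

/-- The microstates are covered by few pieces. -/
theorem exists_cover (h : p.Small η G e0) :
    ∃ M : ℕ, ∃ ε > (0 : ℝ), ∀ (R : ℝ) (k : ℕ), 1 ≤ k →
      ∃ s : Finset (Matrix (Fin k) (Fin k) ℂ × EuclideanSpace ℝ (Fin k × Fin k)),
        (s.card : ℝ) ≤ (1 + 2000 * G / η) ^ (2 * (k * k)) * (1 + 4200 / η) ^ (k * k) ∧
          microstates (p.law 0) R M k ε ⊆ ⋃ q ∈ s, piece η e0 q := by
  have hη := h.η_pos
  have hη1 := h.η_le
  have hGpos : (0 : ℝ) < G := by exact_mod_cast h.G_pos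
  have hG1 : (1 : ℝ) ≤ G := by exact_mod_cast h.G_pos
  set δ : ℝ := η / (1000 * G) with hδ
  have hδ0 : 0 < δ := by positivity
  obtain ⟨M, ε₀, hε₀, htr⟩ := exists_transfer_finset (p.transferSet e0 G) hδ0
  refine ⟨M, min ε₀ (η / 100), lt_min hε₀ (by positivity), fun R k hk => ?_⟩
  obtain ⟨k', hk', Gm, hGm, hmom⟩ := exists_model p M (lt_min hε₀ (by positivity : 0 < η / 100))
  obtain ⟨hBh, hBa, hBb, hB0, hBres, hBdef, hBdef0⟩ := model_bounds h
    (fun j => ⟨(hGm j).1, (hGm j).2.1, (hGm j).2.2.trans (by linarith [min_le_right ε₀ (η / 100)])⟩)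
    _ rfl
  have hBmicro : IsMicro (p.law 0) (fun j => evalG Gm (p.Y 0 j)) M (min ε₀ (η / 100)) :=
    ⟨hBh, fun w _ hw => hmom w hw⟩
  -- nets
  obtain ⟨tU, htU, htUc, htUn⟩ := exists_small_net (E := Matrix (Fin k) (Fin k) ℂ)
    (ρ := 1) (δ := δ) zero_le_one hδ0 {U | ‖U‖ ≤ 1} (fun U hU => hU)
  have hsk : (0 : ℝ) < Real.sqrt k := Real.sqrt_pos.2 (by exact_mod_cast hk)
  obtain ⟨tZ, -, htZc, htZn⟩ := exists_small_net (E := EuclideanSpace ℝ (Fin k × Fin k))
    (ρ := 21 * Real.sqrt k) (δ := η / 100 * Real.sqrt k) (by positivity) (by positivity)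
    {y | ‖y‖ ≤ 21 * Real.sqrt k} (fun y hy => hy)
  refine ⟨tU ×ˢ tZ, ?_, ?_⟩
  · rw [Finset.card_product, Nat.cast_mul]
    refine mul_le_mul ?_ ?_ (Nat.cast_nonneg _) (by positivity)
    · rw [finrank_matrix] at htUc
      refine htUc.trans (le_of_eq ?_)
      congr 1
      rw [hδ]
      field_simp
      ring
    · rw [finrank_euclideanSpace, Fintype.card_prod, Fintype.card_fin] at htZc
      refine htZc.trans (le_of_eq ?_)
      congr 1
      field_simp
      ring
  intro x hx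
  obtain ⟨-, hxw⟩ := hx
  set A : Fin (2 + p.n) → Matrix (Fin k) (Fin k) ℂ := fun j => herm (x j) with hA
  have hAh : ∀ j, (A j)ᴴ = A j := fun j => herm_conjTranspose _
  have hAmicro : IsMicro (p.law 0) A M (min ε₀ (η / 100)) :=
    ⟨hAh, fun w h1 h2 => (hxw w h1 h2).le⟩
  have tr : ∀ P ∈ p.transferSet e0 G,
      nrm2 (evalA A P) ≤ nrm2 (evalA (fun j => evalG Gm (p.Y 0 j)) P) + δ :=
    fun P hP => htr P hP (p.law 0) M _ le_rfl (min_le_left _ _) k k' hk hk' A _ hAmicro hBmicro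
  have hvar : ∀ j, nrm2 (A j) ≤ nrm2 (evalG Gm (p.Y 0 j)) + δ := by
    intro j
    have := tr (varA j) (by simp [transferSet])
    simpa [evalA_varA] using this
  have hδ1 : δ ≤ 1 := by
    rw [hδ, div_le_one (by positivity)]; nlinarith
  set T := evalA A p.polyT with hT
  have hT' : evalA A p.polyT' = Tᴴ := evalA_polyT' hAh
  set Z := A (Fin.natAdd 2 e0) with hZ
  have hZ21 : nrm2 Z ≤ 21 := (hvar _).trans (by linarith)
  obtain ⟨U, hU, hUT⟩ := exists_contraction T
  obtain ⟨V, hVmem, hUV⟩ := htUn U hU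
  set yZ : EuclideanSpace ℝ (Fin k × Fin k) :=
    WithLp.toLp 2 (fun i => x (Fin.natAdd 2 e0) i.1 i.2) with hyZ
  have hn : ∀ y y' : EuclideanSpace ℝ (Fin k × Fin k),
      nrm2 (netMat y - netMat y') = ‖y - y'‖ / Real.sqrt k := fun y y' => by
    rw [netMat, netMat, nrm2_herm_sub]
    rfl
  have hyZn : ‖yZ‖ ≤ 21 * Real.sqrt k := by
    rw [← div_le_iff₀ hsk]
    refine le_trans (le_of_eq ?_) hZ21
    have h1 := nrm2_herm_sub (x (Fin.natAdd 2 e0)) 0
    have h0 : herm (0 : Fin k → Fin k → ℝ) = 0 := by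
      ext a b; simp [herm]
    rw [h0, sub_zero, sub_zero] at h1
    exact h1.symm
  obtain ⟨Y, hYmem, hYn⟩ := htZn yZ hyZn
  have hV : ‖V‖ ≤ 1 := htU hVmem
  refine Set.mem_iUnion₂.2 ⟨(V, Y), Finset.mem_product.2 ⟨hVmem, hYmem⟩, ?_⟩
  rw [piece, Set.mem_univ_pi]
  refine Fin.addCases (fun i => ?_) (fun e => ?_)
  · simp only [rad, centre, Fin.addCases_left, Set.mem_ofPred_eq]
    have h0 : herm (0 : Fin k → Fin k → ℝ) = 0 := by
      ext a b; simp [herm]
    rw [h0, sub_zero]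
    refine (hvar _).trans ?_
    fin_cases i
    · exact le_trans (add_le_add hBa hδ1) (by norm_num)
    · exact le_trans (add_le_add hBb hδ1) (by norm_num)
  rcases eq_or_ne e e0 with rfl | he
  · simp only [rad, centre, Fin.addCases_right, if_pos, Set.mem_ofPred_eq]
    have h0 : herm (0 : Fin k → Fin k → ℝ) = 0 := by
      ext a b; simp [herm]
    rw [h0, sub_zero]
    exact hZ21
  simp only [rad, centre, Fin.addCases_right, if_neg he, Set.mem_ofPred_eq]
  set g := (p.g e).natAbs with hg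
  have hgG := h.g_le e
  have hYh : (netMat Y)ᴴ = netMat Y := herm_conjTranspose _
  rw [herm_hermCoord (by
    simp [Matrix.conjTranspose_mul, Matrix.conjTranspose_pow, hYh, mul_assoc])]
  have hres : nrm2 (A (Fin.natAdd 2 e) - T ^ g * Z * (Tᴴ) ^ g)
      ≤ 1 + η / 100 + 6 * η / 100 + δ := by
    have := tr (p.polyRes e0 e) (by simp [transferSet])
    simp only [polyRes, map_sub, map_mul, map_pow, evalA_varA, ← hT, hT', ← hZ] at this
    refine this.trans (add_le_add ?_ le_rfl)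
    have := hBres e he
    simpa only [polyRes, map_sub, map_mul, map_pow, evalA_varA] using this
  have hsum : ∀ (F : ℕ → ℝ), (∀ i < g, F i ≤ 8 * η / (100 * G) + δ) →
      ∑ i ∈ Finset.range g, F i ≤ 8 * η / 100 + η / 1000 := by
    intro F hF
    refine (Finset.sum_le_card_nsmul _ _ _ fun i hi => hF i (Finset.mem_range.1 hi)).trans ?_
    rw [Finset.card_range, nsmul_eq_mul]
    refine (mul_le_mul_of_nonneg_right (by exact_mod_cast hgG : (g : ℝ) ≤ G) (by positivity)).trans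
      (le_of_eq ?_)
    rw [hδ]
    field_simp
  have hconj := nrm2_conj_pow_sub_le hU hUT (hAh (Fin.natAdd 2 e0)) g
  have hd1 : ∑ i ∈ Finset.range g, nrm2 ((1 - Tᴴ * T) * (T ^ i * (Z * (Tᴴ) ^ g)))
      ≤ 8 * η / 100 + η / 1000 := by
    refine hsum _ fun i hi => ?_
    have := tr (p.polyDefect e0 g i) (by
      simp only [transferSet, Finset.mem_union, Finset.mem_image, Finset.mem_product]
      exact Or.inl (Or.inr ⟨(e, i), ⟨Finset.mem_univ _, Finset.mem_range.2 (lt_of_lt_of_le hi hgG)⟩,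
        rfl⟩))
    simp only [polyDefect, map_sub, map_one, map_mul, map_pow, evalA_varA, ← hT, hT', ← hZ] at this
    refine this.trans (add_le_add ?_ le_rfl)
    have := hBdef e i (lt_of_lt_of_le hi hgG)
    simpa only [polyDefect, map_sub, map_one, map_mul, map_pow, evalA_varA] using this
  have hd2 : ∑ i ∈ Finset.range g, nrm2 ((1 - Tᴴ * T) * (T ^ i * Z))
      ≤ 8 * η / 100 + η / 1000 := by
    refine hsum _ fun i hi => ?_
    have := tr (p.polyDefect0 e0 i) (by
      simp only [transferSet, Finset.mem_union, Finset.mem_image]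
      exact Or.inr ⟨i, Finset.mem_range.2 (lt_of_lt_of_le hi hgG), rfl⟩)
    simp only [polyDefect0, map_sub, map_one, map_mul, map_pow, evalA_varA, ← hT, hT', ← hZ] at this
    refine this.trans (add_le_add ?_ le_rfl)
    have := hBdef0 i (lt_of_lt_of_le hi hgG)
    simpa only [polyDefect0, map_sub, map_one, map_mul, map_pow, evalA_varA] using this
  have hlip := nrm2_conj_lipschitz (Z := Z) (Z' := netMat Y) hU hV g
  have hZY : nrm2 (Z - netMat Y) ≤ η / 100 := by
    have : Z = netMat yZ := rfl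
    rw [this, hn, div_le_iff₀ hsk]
    exact hYn
  have hlip2 : 2 * ((g : ℝ) * ‖U - V‖) * nrm2 Z ≤ 42 * η / 1000 := by
    have h1 : (g : ℝ) * ‖U - V‖ ≤ η / 1000 := by
      refine (mul_le_mul (by exact_mod_cast hgG : (g : ℝ) ≤ G) hUV (norm_nonneg _) hGpos.le).trans
        (le_of_eq ?_)
      rw [hδ]
      field_simp
    have := mul_le_mul (mul_le_mul_of_nonneg_left h1 zero_le_two) hZ21 (nrm2_nonneg Z)
      (by positivity : (0 : ℝ) ≤ 2 * (η / 1000))
    linarith
  have hδη : δ ≤ η / 1000 := by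
    rw [hδ]; gcongr; linarith
  have e1 : A (Fin.natAdd 2 e) - V ^ g * netMat Y * (Vᴴ) ^ g
      = (A (Fin.natAdd 2 e) - T ^ g * Z * (Tᴴ) ^ g)
        - (U ^ g * Z * (Uᴴ) ^ g - T ^ g * Z * (Tᴴ) ^ g)
        + (U ^ g * Z * (Uᴴ) ^ g - V ^ g * netMat Y * (Vᴴ) ^ g) := by abel
  show nrm2 (A (Fin.natAdd 2 e) - V ^ g * netMat Y * (Vᴴ) ^ g) ≤ 1 + η
  rw [e1]
  refine (nrm2_add_le _ _).trans ?_
  refine le_trans (add_le_add (nrm2_sub_le _ _) le_rfl) ?_
  linarith

/-! ### Logarithms -/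

theorem sum_log_rad_le (h : p.Small η G e0) :
    ∑ j, Real.log (2 * Real.pi * Real.exp 1 * rad η e0 j ^ 2)
      ≤ p.n * Real.log (2 * Real.pi * Real.exp 1 * (1 + η) ^ 2) + 42 := by
  have hη := h.η_pos
  have hπe : 1 ≤ 2 * Real.pi * Real.exp 1 := by
    nlinarith [Real.two_le_pi, Real.add_one_le_exp 1]
  have hL : 0 ≤ Real.log (2 * Real.pi * Real.exp 1 * (1 + η) ^ 2) := by
    refine Real.log_nonneg ?_
    nlinarith [one_le_pow₀ (n := 2) (by linarith : (1 : ℝ) ≤ 1 + η)]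
  have h21 : Real.log (2 * Real.pi * Real.exp 1 * 21 ^ 2) ≤ 14 := by
    rw [Real.log_le_iff_le_exp (by positivity)]
    have he : Real.exp 1 < 3 := by linarith [Real.exp_one_lt_d9]
    have h14 : (2 : ℝ) ^ 14 ≤ Real.exp 14 := by
      have : Real.exp 14 = Real.exp 1 ^ 14 := by rw [← Real.exp_nat_mul]; norm_num
      rw [this]
      exact pow_le_pow_left₀ (by norm_num) (by linarith [Real.add_one_le_exp (1 : ℝ)]) 14
    nlinarith [Real.pi_le_four, Real.pi_pos, Real.exp_pos 1]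
  rw [Fin.sum_univ_add]
  have h2 : ∑ i : Fin 2, Real.log (2 * Real.pi * Real.exp 1 * rad η e0 (Fin.castAdd p.n i) ^ 2)
      ≤ 28 := by
    simp only [rad, Fin.addCases_left, Finset.sum_const, Finset.card_univ, Fintype.card_fin,
      nsmul_eq_mul]
    push_cast
    linarith
  have hn : ∑ e : Fin p.n, Real.log (2 * Real.pi * Real.exp 1 * rad η e0 (Fin.natAdd 2 e) ^ 2)
      ≤ p.n * Real.log (2 * Real.pi * Real.exp 1 * (1 + η) ^ 2) + 14 := by
    refine (Finset.sum_le_sum (g := fun e => Real.log (2 * Real.pi * Real.exp 1 * (1 + η) ^ 2)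
      + if e = e0 then 14 else 0) fun e _ => ?_).trans (le_of_eq ?_)
    · simp only [rad, Fin.addCases_right]
      split_ifs
      · linarith
      · linarith
    · simp [Finset.sum_add_distrib]
  linarith

theorem log_one_add_div_le {c d η : ℝ} {G : ℕ} (hc : 0 ≤ c) (hd : 0 < d) (hcd : c + 1 ≤ d)
    (hη : 0 < η) (hη1 : η ≤ 1) (hG : 1 ≤ G) :
    Real.log (1 + c * G / η) ≤ Real.log d + Real.log G + |Real.log η| := by
  have hG' : (1 : ℝ) ≤ G := by exact_mod_cast hG
  have h1 : 1 + c * G / η ≤ d * G / η := by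
    rw [le_div_iff₀ hη, add_mul, one_mul, div_mul_cancel₀ _ hη.ne']
    nlinarith
  refine (Real.log_le_log (by positivity) h1).trans ?_
  rw [Real.log_div (by positivity) hη.ne', Real.log_mul hd.ne' (by positivity)]
  linarith [neg_le_abs (Real.log η)]

/-- The microstates entropy is at most that of `n` semicirculars of variance `(1 + η)^2`, plus a
term logarithmic in the parameters. -/
theorem freeEntropy_law_le : ∃ C : ℝ, ∀ (p : Params) (η : ℝ) (G : ℕ) (e0 : Fin p.n),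
    p.Small η G e0 →
      freeEntropy (p.law 0) ≤
        (((p.n : ℝ) / 2 * Real.log (2 * Real.pi * Real.exp 1 * (1 + η) ^ 2) +
          C * (1 + Real.log G + |Real.log η| + |Real.log p.θ|) : ℝ) : EReal) := by
  refine ⟨60, fun p η G e0 h => ?_⟩
  obtain ⟨M, ε, hε, hcov⟩ := exists_cover h
  refine iSup₂_le fun R _ => iInf_le_of_le M (iInf₂_le_of_le ε hε
    (limsup_le_of_le (h := ?_)))
  filter_upwards [eventually_ge_atTop 1] with k hk
  obtain ⟨s, hs, hsub⟩ := hcov R k hk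
  have hη := h.η_pos
  have hk0 : (0 : ℝ) < k := by exact_mod_cast hk
  set c1 : ℝ := 1 + 2000 * G / η with hc1
  set c2 : ℝ := 1 + 4200 / η with hc2
  have hc1' : 0 < c1 := by positivity
  have hc2' : 0 < c2 := by positivity
  set P : ℝ := ∏ j, ballBound (k * k) (rad η e0 j * Real.sqrt k) with hP
  have hP0 : 0 < P := by
    refine Finset.prod_pos fun j _ => Real.rpow_pos_of_pos ?_ _
    have := rad_pos h j
    have : (0 : ℝ) < ((k * k : ℕ) : ℝ) := by exact_mod_cast Nat.mul_pos hk hk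
    positivity
  set V : ℝ := c1 ^ (2 * (k * k)) * c2 ^ (k * k) * P with hVdef
  have hV0 : 0 < V := by positivity
  have hvol : volume (microstates (p.law 0) R M k ε) ≤ ENNReal.ofReal V := by
    refine (measure_le_card_mul_of_cover volume hsub (fun q _ => volume_piece_le h hk q)
      le_rfl).trans ?_
    rw [← ENNReal.ofReal_natCast, ← ENNReal.ofReal_mul (Nat.cast_nonneg _)]
    exact ENNReal.ofReal_le_ofReal (mul_le_mul_of_nonneg_right hs hP0.le)
  have hlog : Real.log V = (k : ℝ) ^ 2 * (2 * Real.log c1 + Real.log c2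
      + 1 / 2 * ∑ j, (Real.log (2 * Real.pi * Real.exp 1 * rad η e0 j ^ 2) - Real.log k)) := by
    rw [hVdef, Real.log_mul (by positivity) hP0.ne', Real.log_mul (by positivity) (by positivity),
      Real.log_pow, Real.log_pow, hP, Real.log_prod (fun j _ => ?_)]
    · have hb : ∀ j, Real.log (ballBound (k * k) (rad η e0 j * Real.sqrt k))
          = (k : ℝ) ^ 2 / 2 * (Real.log (2 * Real.pi * Real.exp 1 * rad η e0 j ^ 2) - Real.log k) := by
        intro j
        have hr := rad_pos h j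
        rw [log_ballBound _ (mul_pos hr (Real.sqrt_pos.2 hk0)).ne', mul_pow, Real.sq_sqrt hk0.le,
          ← Real.log_div (by positivity) hk0.ne']
        push_cast
        congr 1
        · ring
        · congr 1
          field_simp
      simp only [hb, ← Finset.mul_sum]
      push_cast
      ring
    · refine (Real.rpow_pos_of_pos ?_ _).ne'
      have := rad_pos h j
      have : (0 : ℝ) < ((k * k : ℕ) : ℝ) := by exact_mod_cast Nat.mul_pos hk hk
      positivity
  unfold microEntropy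
  refine le_trans (add_le_add (mul_le_mul_of_nonneg_left
    ((ENNReal.log_monotone hvol).trans_eq (ENNReal.log_ofReal_of_pos hV0))
    (by exact_mod_cast (by positivity : (0 : ℝ) ≤ ((k : ℝ) ^ 2)⁻¹))) le_rfl) ?_
  rw [← EReal.coe_mul, ← EReal.coe_add, EReal.coe_le_coe_iff, hlog, inv_mul_cancel_left₀ (by positivity)]
  have hs1 := sum_log_rad_le h
  have hl1 : Real.log c1 ≤ 12 + Real.log G + |Real.log η| := by
    refine (log_one_add_div_le (c := 2000) (d := 4096) (by norm_num) (by norm_num) (by norm_num) hη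
      h.η_le h.G_pos).trans ?_
    have : Real.log 4096 ≤ 12 := by
      rw [show (4096 : ℝ) = 2 ^ 12 by norm_num, Real.log_pow]
      push_cast
      linarith [Real.log_two_lt_d9]
    linarith
  have hl2 : Real.log c2 ≤ 13 + |Real.log η| := by
    have := log_one_add_div_le (c := 4200) (d := 8192) (η := η) (G := 1) (by norm_num)
      (by norm_num) (by norm_num) hη h.η_le le_rfl
    simp only [Nat.cast_one, mul_one, Real.log_one, add_zero] at this
    refine this.trans ?_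
    have : Real.log 8192 ≤ 13 := by
      rw [show (8192 : ℝ) = 2 ^ 13 by norm_num, Real.log_pow]
      push_cast
      linarith [Real.log_two_lt_d9]
    linarith
  have hlogG : 0 ≤ Real.log G := Real.log_natCast_nonneg G
  rw [Finset.sum_sub_distrib, Finset.sum_const, Finset.card_univ, Fintype.card_fin, nsmul_eq_mul]
  push_cast
  linarith [abs_nonneg (Real.log η), abs_nonneg (Real.log p.θ)]

end Params

end

end VAgent.P087
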