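import Mathlib
import Vale.Agent.P087.Lower
import Vale.Agent.P087.Upper
import Vale.Agent.P087.Star.Gain
import Vale.Agent.P087.Star.Mixed

/-!
# P087: comparison of the two entropies of the model

The integrand of `χ*` lies between integrable functions; the conjugates gain a fixed amount on
`[1000, 2000]`, and the loss is only logarithmic in their number `n`.
-/

namespace VAgent.P087

open MeasureTheory Filter Set
open scoped Topology ENNReal EReal

noncomputable section

/-! ### Measurability -/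

theorem lowerSemicontinuous_ofReal_div {a b : ℝ → ℝ} (ha : Continuous a) (hb : Continuous b) :
    LowerSemicontinuous fun t => ENNReal.ofReal (a t) / ENNReal.ofReal (b t) := by
  intro x y hy
  by_cases h : ENNReal.ofReal (a x) = 0
  · simp [h] at hy
  · exact (ENNReal.Tendsto.div ((ENNReal.continuous_ofReal.comp ha).continuousAt.tendsto)
      (Or.inl h) ((ENNReal.continuous_ofReal.comp hb).continuousAt.tendsto)
      (Or.inl ENNReal.ofReal_ne_top)).eventually_const_lt hy

theorem continuous_addSemicircular {N : ℕ} (m : List (Fin N) → ℂ) (w : List (Fin N)) :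
    Continuous fun t : ℝ => addSemicircular m (fun _ => t) w := by
  unfold addSemicircular
  refine continuous_finsetSum _ fun c _ => (continuous_finsetProd _ fun l _ => ?_).mul
    continuous_const
  by_cases h : c l <;> simp only [h, Bool.false_eq_true, if_true, if_false] <;> fun_prop

theorem measurable_fisher {N : ℕ} (m : List (Fin N) → ℂ) :
    Measurable fun t : ℝ => fisher (addSemicircular m fun _ : Fin N => t) := by
  have hc := continuous_addSemicircular m
  refine Finset.measurable_sum _ fun j _ => (lowerSemicontinuous_iSup fun P => ?_).measurable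
  refine lowerSemicontinuous_ofReal_div ?_ ?_
  · refine ((continuous_finsetSum _ fun w _ => continuous_const.mul ?_).norm).pow 2
    refine continuous_finsetSum _ fun l _ => ?_
    by_cases h : w.get l = j <;> simp only [h, if_true, if_false] <;> fun_prop
  · refine Complex.continuous_re.comp ?_
    exact continuous_finsetSum _ fun v _ => continuous_finsetSum _ fun w _ =>
      continuous_const.mul (hc _)

theorem measurable_starIntegrand {N : ℕ} (m : List (Fin N) → ℂ) :
    Measurable (starIntegrand m) := by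
  unfold starIntegrand
  exact (measurable_const.div (measurable_const.add measurable_id)).sub
    (measurable_fisher m).ennreal_toReal

/-! ### The comparison integrals -/

/-- `1/(1+t) - 1/(v+t)`. -/
def refFun (v t : ℝ) : ℝ := 1 / (1 + t) - 1 / (v + t)

/-- A primitive of `refFun v`. -/
def refPrim (v t : ℝ) : ℝ := Real.log (1 + t) - Real.log (v + t)

theorem hasDerivAt_refPrim {v t : ℝ} (hv : 0 < v) (ht : 0 ≤ t) :
    HasDerivAt (refPrim v) (refFun v t) t :=
  (((hasDerivAt_id t).const_add 1).log (by simp; linarith)).sub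
    (((hasDerivAt_id t).const_add v).log (by simp; linarith))

theorem tendsto_refPrim {v : ℝ} (hv : 0 < v) : Tendsto (refPrim v) atTop (𝓝 0) := by
  have h0 : Tendsto (fun t : ℝ => (1 - v) / (v + t)) atTop (𝓝 0) :=
    tendsto_const_nhds.div_atTop (tendsto_atTop_add_const_left _ v tendsto_id)
  have h1 : Tendsto (fun t : ℝ => Real.log (1 + (1 - v) / (v + t))) atTop (𝓝 (Real.log (1 + 0))) :=
    ((Real.continuousAt_log (by norm_num : (1 : ℝ) + 0 ≠ 0)).tendsto).comp (h0.const_add 1)
  rw [add_zero, Real.log_one] at h1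
  refine h1.congr' ?_
  filter_upwards [eventually_ge_atTop 0] with t ht
  rw [refPrim, ← Real.log_div (by linarith) (by linarith)]
  congr 1
  have : v + t ≠ 0 := by linarith
  field_simp
  ring

theorem refFun_nonpos {v : ℝ} (hv : 0 < v) (hv1 : v ≤ 1) {t : ℝ} (ht : t ∈ Ioi (0 : ℝ)) :
    refFun v t ≤ 0 := by
  have ht : 0 < t := ht
  exact sub_nonpos.2 (one_div_le_one_div_of_le (by linarith) (by linarith))

theorem refFun_nonneg {v : ℝ} (hv1 : 1 ≤ v) {t : ℝ} (ht : t ∈ Ioi (0 : ℝ)) :
    0 ≤ refFun v t := by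
  have ht : 0 < t := ht
  exact sub_nonneg.2 (one_div_le_one_div_of_le (by linarith) (by linarith))

theorem integrableOn_refFun {v : ℝ} (hv : 0 < v) : IntegrableOn (refFun v) (Ioi 0) := by
  rcases le_total v 1 with h | h
  · exact integrableOn_Ioi_deriv_of_nonpos' (fun t ht => hasDerivAt_refPrim hv ht)
      (fun t ht => refFun_nonpos hv h ht) (tendsto_refPrim hv)
  · exact integrableOn_Ioi_deriv_of_nonneg' (fun t ht => hasDerivAt_refPrim hv ht)
      (fun t ht => refFun_nonneg h ht) (tendsto_refPrim hv)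

theorem integral_refFun {v : ℝ} (hv : 0 < v) : ∫ t in Ioi 0, refFun v t = Real.log v := by
  rw [integral_Ioi_of_hasDerivAt_of_tendsto' (fun t ht => hasDerivAt_refPrim hv ht)
    (integrableOn_refFun hv) (tendsto_refPrim hv)]
  simp [refPrim]

/-! ### The model -/

namespace Params

variable (p : Params)

theorem fisher_add (t : ℝ) :
    fisher (addSemicircular (p.law 0) fun _ => t) = ∑ j, p.fisherTerm t j := by
  rw [funext (p.addSemicircular_law t), p.fisher_eq]

theorem law_pair {t : ℝ} (ht : 0 ≤ t) (j : Fin (2 + p.n)) :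
    (p.law t [j, j]).re = (p.law 0 [j, j]).re + t := by
  have hY : p.Y t j = p.Y 0 j + (Real.sqrt t : ℂ) • polyG (Sum.inl (j, true)) := by
    simp [Params.Y]
  have h1 : tauL (polyG (Sum.inl (j, true)) * p.Y 0 j) = 0 := by
    rw [tauL_polyG_mul, p.split_Y_noise]
    simp
  have h2 : tauL (p.Y 0 j * polyG (Sum.inl (j, true))) = 0 := by
    rw [tauL_mul_comm, h1]
  have h3 : tauL (polyG (Sum.inl (j, true)) * polyG (Sum.inl (j, true)) : Poly p.Noise) = 1 := by
    rw [tauL_polyG_mul, split_letter_same, tauL_one, mul_one]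
  have hsq : (Real.sqrt t : ℂ) * (Real.sqrt t : ℂ) = (t : ℂ) := by
    rw [← Complex.ofReal_mul, Real.mul_self_sqrt ht]
  simp only [Params.law, List.map_cons, List.map_nil, List.prod_cons, List.prod_nil, mul_one]
  rw [hY]
  simp only [add_mul, mul_add, smul_mul_assoc, mul_smul_comm, map_add, map_smul, smul_eq_mul,
    h1, h2, h3, mul_zero, add_zero, zero_add, mul_one, hsq, Complex.add_re, Complex.ofReal_re]

theorem fisherTerm_ne_top (hv : ∀ i, 0 < p.v i) {t : ℝ} (ht : 0 ≤ t) (j : Fin (2 + p.n)) :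
    p.fisherTerm t j ≠ ⊤ :=
  ((p.fisherTerm_le t hv ht j).trans_lt ENNReal.ofReal_lt_top).ne

theorem toReal_fisherTerm_le (hv : ∀ i, 0 < p.v i) {t : ℝ} (ht : 0 ≤ t) (j : Fin (2 + p.n)) :
    (p.fisherTerm t j).toReal ≤ 1 / (p.v j + t) :=
  ENNReal.toReal_le_of_le_ofReal (one_div_nonneg.2 (by linarith [hv j])) (p.fisherTerm_le t hv ht j)

theorem toReal_fisherTerm_ge (hv : ∀ i, 0 < p.v i) {t : ℝ} (ht : 0 < t) (j : Fin (2 + p.n)) :
    1 / (max 1 (p.law 0 [j, j]).re + t) ≤ (p.fisherTerm t j).toReal := by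
  have hge := p.fisherTerm_ge t j
  have hc : 0 < (p.law t [j, j]).re := by
    by_contra hle
    rw [not_lt] at hle
    rw [ENNReal.ofReal_eq_zero.2 hle, ENNReal.div_zero (by simp)] at hge
    exact p.fisherTerm_ne_top hv ht.le j (top_le_iff.1 hge)
  rw [← ENNReal.ofReal_div_of_pos hc,
    ENNReal.ofReal_le_iff_le_toReal (p.fisherTerm_ne_top hv ht.le j)] at hge
  refine le_trans (one_div_le_one_div_of_le hc ?_) hge
  rw [p.law_pair ht.le]
  linarith [le_max_right 1 (p.law 0 [j, j]).re]

theorem starIntegrand_eq (hv : ∀ i, 0 < p.v i) {t : ℝ} (ht : 0 ≤ t) :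
    starIntegrand (p.law 0) t = ∑ j, (1 / (1 + t) - (p.fisherTerm t j).toReal) := by
  rw [starIntegrand, p.fisher_add, ENNReal.toReal_sum fun j _ => p.fisherTerm_ne_top hv ht j,
    Finset.sum_sub_distrib]
  simp
  ring

theorem fisher_lt_top (hv : ∀ i, 0 < p.v i) {t : ℝ} (ht : 0 < t) :
    fisher (addSemicircular (p.law 0) fun _ => t) < ⊤ := by
  rw [p.fisher_add]
  exact ENNReal.sum_lt_top.2 fun j _ => (p.fisherTerm_ne_top hv ht.le j).lt_top

theorem integrableOn_starIntegrand (hv : ∀ i, 0 < p.v i) :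
    IntegrableOn (starIntegrand (p.law 0)) (Ioi 0) := by
  refine Integrable.mono' (g := fun t => ∑ j, |refFun (p.v j) t| +
      ∑ j, |refFun (max 1 (p.law 0 [j, j]).re) t|) (Integrable.add
        (integrable_finsetSum _ fun j _ => (integrableOn_refFun (hv j)).abs)
        (integrable_finsetSum _ fun j _ =>
          (integrableOn_refFun (lt_of_lt_of_le one_pos (le_max_left _ _))).abs))
    (measurable_starIntegrand _).aestronglyMeasurable ?_
  refine (ae_restrict_mem measurableSet_Ioi).mono fun t ht => ?_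
  have ht : 0 < t := ht
  rw [Real.norm_eq_abs, p.starIntegrand_eq hv ht.le, abs_le]
  constructor
  · refine le_trans (neg_le_neg (le_add_of_nonneg_right (Finset.sum_nonneg fun j _ => abs_nonneg _))) ?_
    rw [← Finset.sum_neg_distrib]
    refine Finset.sum_le_sum fun j _ => (neg_abs_le _).trans ?_
    unfold refFun
    linarith [p.toReal_fisherTerm_le hv ht.le j]
  · refine le_trans ?_ (le_add_of_nonneg_left (Finset.sum_nonneg fun j _ => abs_nonneg _))
    refine Finset.sum_le_sum fun j _ => le_trans ?_ (le_abs_self _)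
    unfold refFun
    linarith [p.toReal_fisherTerm_ge hv ht j]

/-- The gain on `[1000, 2000]`. -/
def gain : ℝ → ℝ := (Icc 1000 2000).indicator fun _ => 2 / 10 ^ 7

theorem integrableOn_gain : IntegrableOn gain (Ioi 0) :=
  ((integrableOn_const measure_Icc_lt_top.ne).integrable_indicator measurableSet_Icc).integrableOn

theorem integral_gain : ∫ t in Ioi 0, gain t = 2 / 10 ^ 4 := by
  rw [gain, setIntegral_indicator measurableSet_Icc,
    show Ioi (0 : ℝ) ∩ Icc 1000 2000 = Icc 1000 2000 from
      inter_eq_right.2 fun t ht => lt_of_lt_of_le (by norm_num) ht.1,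
    setIntegral_const]
  simp [Real.volume_real_Icc]
  norm_num

theorem toReal_conj_le (hp : p.Good) {t : ℝ} (ht : 0 < t) (e : Fin p.n) :
    (p.fisherTerm t (Fin.natAdd 2 e)).toReal + gain t ≤ 1 / (p.v (Fin.natAdd 2 e) + t) := by
  by_cases h : t ∈ Icc (1000 : ℝ) 2000
  · rw [gain, indicator_of_mem h]
    have hv := hp.v_pos (Fin.natAdd 2 e)
    have hv' := hp.v_le (Fin.natAdd 2 e)
    have h1 := ENNReal.toReal_le_of_le_ofReal (div_nonneg (by norm_num) (by linarith [h.1]))
      (p.fisherTerm_conj_le hp h.1 h.2 e)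
    refine le_trans (add_le_add h1 le_rfl) ?_
    set u := p.v (Fin.natAdd 2 e)
    have hu : u + t ≤ 2001 := by linarith [h.2]
    have hu0 : 1000 ≤ u + t := by linarith [h.1]
    have e1 : 1 + u + t = (u + t) + 1 := by ring
    rw [e1]
    set s := u + t
    rw [div_add' _ _ _ (by linarith), div_le_div_iff₀ (by linarith) (by linarith)]
    nlinarith
  · rw [gain, indicator_of_notMem h, add_zero]
    exact p.toReal_fisherTerm_le hp.v_pos ht.le _

/-- `χ*` is at least that of free semicirculars with the noise variances on the two generators,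
plus a linear gain. -/
theorem freeEntropyStar_ge (hp : p.Good) :
    ((2 + p.n : ℕ) : ℝ) / 2 * Real.log (2 * Real.pi * Real.exp 1) +
        1 / 2 * ∑ j, Real.log (p.v j) + p.n * (1 / 10 ^ 4) ≤ freeEntropyStar (p.law 0) := by
  have hint : IntegrableOn (fun t => ∑ j, refFun (p.v j) t + p.n * gain t) (Ioi 0) :=
    Integrable.add (integrable_finsetSum _ fun j _ => integrableOn_refFun (hp.v_pos j))
      (integrableOn_gain.const_mul _)
  have hle : ∀ t ∈ Ioi (0 : ℝ),
      ∑ j, refFun (p.v j) t + p.n * gain t ≤ starIntegrand (p.law 0) t := by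
    intro t ht
    have ht : 0 < t := ht
    rw [p.starIntegrand_eq hp.v_pos ht.le, Fin.sum_univ_add, Fin.sum_univ_add, add_assoc]
    refine add_le_add (Finset.sum_le_sum fun i _ => ?_) ?_
    · unfold refFun
      linarith [p.toReal_fisherTerm_le hp.v_pos ht.le (Fin.castAdd p.n i)]
    · rw [show (p.n : ℝ) * gain t = ∑ _e : Fin p.n, gain t by simp, ← Finset.sum_add_distrib]
      refine Finset.sum_le_sum fun e _ => ?_
      unfold refFun
      linarith [p.toReal_conj_le hp ht e]
  have h := setIntegral_mono_on hint (p.integrableOn_starIntegrand hp.v_pos) measurableSet_Ioi hle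
  rw [integral_add (integrable_finsetSum _ fun j _ => integrableOn_refFun (hp.v_pos j))
      (integrableOn_gain.const_mul _),
    integral_finsetSum _ (fun j _ => integrableOn_refFun (hp.v_pos j)), integral_const_mul,
    integral_gain] at h
  simp only [integral_refFun (hp.v_pos _)] at h
  rw [freeEntropyStar]
  linarith

end Params

/-! ### The parameters -/

/-- Sidon exponents between `0` and `4 n ^ 3`. -/
def sidonExp (n : ℕ) (e : Fin n) : ℤ := (e : ℤ) * (2 * (n : ℤ) ^ 2 + 1) + (e : ℤ) ^ 2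

theorem sidonExp_sidon (n : ℕ) (e f e' f' : Fin n) (hne : e ≠ f)
    (h : sidonExp n f - sidonExp n e = sidonExp n f' - sidonExp n e') : e = e' ∧ f = f' := by
  unfold sidonExp at h
  have b : ∀ a : Fin n, 0 ≤ (a : ℤ) ^ 2 ∧ (a : ℤ) ^ 2 ≤ (n : ℤ) ^ 2 := fun a => by
    have : (a : ℤ) ≤ n := by exact_mod_cast a.isLt.le
    exact ⟨sq_nonneg _, pow_le_pow_left₀ (by positivity) this 2⟩
  have := b e; have := b f; have := b e'; have := b f'
  have hd : ((f : ℤ) - e) = f' - e' := by
    rcases lt_trichotomy ((f : ℤ) - e) (f' - e') with h' | h' | h'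
    · nlinarith [mul_le_mul_of_nonneg_right (show ((f : ℤ) - e) - (f' - e') ≤ -1 by omega)
        (show (0 : ℤ) ≤ 2 * (n : ℤ) ^ 2 + 1 by positivity)]
    · exact h'
    · nlinarith [mul_le_mul_of_nonneg_right (show 1 ≤ ((f : ℤ) - e) - (f' - e') by omega)
        (show (0 : ℤ) ≤ 2 * (n : ℤ) ^ 2 + 1 by positivity)]
  have hs : ((f : ℤ) + e) * ((f : ℤ) - e) = ((f' : ℤ) + e') * ((f : ℤ) - e) := by
    conv_rhs => rw [hd]
    linear_combination h - (2 * (n : ℤ) ^ 2 + 1) * hd
  have hne' : (f : ℤ) - e ≠ 0 := fun h0 => hne (Fin.ext (by omega))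
  have := mul_right_cancel₀ hne' hs
  exact ⟨Fin.ext (by omega), Fin.ext (by omega)⟩

/-- The counterexample. -/
def counterexample (n : ℕ) (hn : 0 < n) : Params where
  n := n
  g := sidonExp n
  θ := 1 / 10 ^ 4
  v := Fin.addCases (fun _ => (1 / 10 ^ 5 * (1 / 10 ^ 4) / (10000 * (4 * n ^ 3 : ℕ))) ^ 2)
    (fun e => if e = ⟨0, hn⟩ then (1 / 10 ^ 5 / 10000) ^ 2 else 1)

theorem counterexample_v_left (n : ℕ) (hn : 0 < n) (i : Fin 2) :
    (counterexample n hn).v (Fin.castAdd (counterexample n hn).n i) =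
      (1 / 10 ^ 5 * (1 / 10 ^ 4) / (10000 * (4 * n ^ 3 : ℕ))) ^ 2 :=
  Fin.addCases_left (m := 2) (n := n) (motive := fun _ => ℝ)
    (left := fun _ => (1 / 10 ^ 5 * (1 / 10 ^ 4) / (10000 * (4 * n ^ 3 : ℕ))) ^ 2)
    (right := fun e => if e = ⟨0, hn⟩ then (1 / 10 ^ 5 / 10000) ^ 2 else 1) i

theorem counterexample_v_right (n : ℕ) (hn : 0 < n) (e : Fin (counterexample n hn).n) :
    (counterexample n hn).v (Fin.natAdd 2 e) =
      if e = ⟨0, hn⟩ then (1 / 10 ^ 5 / 10000) ^ 2 else 1 :=
  Fin.addCases_right (m := 2) (n := n) (motive := fun _ => ℝ)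
    (left := fun _ => (1 / 10 ^ 5 * (1 / 10 ^ 4) / (10000 * (4 * n ^ 3 : ℕ))) ^ 2)
    (right := fun e => if e = ⟨0, hn⟩ then (1 / 10 ^ 5 / 10000) ^ 2 else 1) e

theorem counterexample_small (n : ℕ) (hn : 0 < n) :
    (counterexample n hn).Small (1 / 10 ^ 5) (4 * n ^ 3) ⟨0, hn⟩ where
  η_pos := by norm_num
  η_le := by norm_num
  θ_pos := by norm_num [counterexample]
  θ_le := by norm_num [counterexample]
  G_pos := by positivity
  g_le e := by
    have h1 : ((e : Fin n) : ℤ) ≤ n := by exact_mod_cast e.isLt.le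
    have h0 : (0 : ℤ) ≤ ((e : Fin n) : ℤ) := by positivity
    have hn1 : (1 : ℤ) ≤ n := by exact_mod_cast hn
    have h2 := pow_le_pow_left₀ h0 h1 2
    have h3 := mul_le_mul_of_nonneg_right h1 (show (0 : ℤ) ≤ 2 * (n : ℤ) ^ 2 + 1 by positivity)
    have h4 : (n : ℤ) ≤ (n : ℤ) ^ 3 := le_self_pow₀ hn1 (by norm_num)
    have h5 : (n : ℤ) ^ 2 ≤ (n : ℤ) ^ 3 := pow_le_pow_right₀ hn1 (by norm_num)
    show (sidonExp n e).natAbs ≤ 4 * n ^ 3
    have h6 : sidonExp n e ≤ ((4 * n ^ 3 : ℕ) : ℤ) := by
      unfold sidonExp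
      push_cast
      nlinarith
    have h7 : 0 ≤ sidonExp n e := by unfold sidonExp; positivity
    omega
  g_nonneg e := by
    show 0 ≤ sidonExp n e
    unfold sidonExp
    positivity
  g_zero := by simp [counterexample, sidonExp]
  v_gen i := by
    rw [counterexample_v_left]
    rfl
  v_zero := by rw [counterexample_v_right]; exact if_pos rfl
  v_rest e he := by rw [counterexample_v_right]; exact if_neg he

theorem counterexample_good (n : ℕ) (hn : 0 < n) : (counterexample n hn).Good where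
  θ_pos := by norm_num [counterexample]
  θ_le := by norm_num [counterexample]
  v_pos i := by
    induction i using Fin.addCases with
    | left i =>
      rw [counterexample_v_left]
      have : (0 : ℝ) < ((4 * n ^ 3 : ℕ) : ℝ) :=
        Nat.cast_pos.2 (Nat.mul_pos (by norm_num) (pow_pos hn 3))
      positivity
    | right e =>
      rw [counterexample_v_right]
      split <;> norm_num
  v_le i := by
    induction i using Fin.addCases with
    | left i =>
      rw [counterexample_v_left]
      refine pow_le_one₀ (by positivity) (div_le_one_of_le₀ ?_ (by positivity))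
      have : (1 : ℝ) ≤ ((4 * n ^ 3 : ℕ) : ℝ) :=
        Nat.one_le_cast.2 (Nat.mul_pos (by norm_num) (pow_pos hn 3))
      linarith
    | right e =>
      rw [counterexample_v_right]
      split <;> norm_num
  sidon e f e' f' hne h := sidonExp_sidon n e f e' f' hne h

/-- A bound affine in `log n` is eventually less than a positive multiple of `n`. -/
theorem exists_log_lt_linear (A B : ℝ) {c : ℝ} (hc : 0 < c) :
    ∃ n : ℕ, 0 < n ∧ A + B * Real.log n < c * n := by
  have hδ : 0 < c / (2 * (|B| + 1)) := by positivity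
  have h1 := (Real.isLittleO_log_id_atTop.def hδ).natCast_atTop
  have h2 := (tendsto_natCast_atTop_atTop (R := ℝ)).eventually_gt_atTop (2 * A / c)
  obtain ⟨n, hn1, hn2, hn3⟩ := (h1.and (h2.and (eventually_gt_atTop 0))).exists
  refine ⟨n, hn3, ?_⟩
  simp only [Real.norm_eq_abs, id_eq, Nat.abs_cast] at hn1
  rw [div_lt_iff₀ hc] at hn2
  have h3 : B * Real.log n ≤ (|B| + 1) * (c / (2 * (|B| + 1)) * n) :=
    (le_abs_self _).trans (by
      rw [abs_mul]
      exact mul_le_mul (by linarith) hn1 (abs_nonneg _) (by positivity))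
  have h4 : (|B| + 1) * (c / (2 * (|B| + 1)) * n) = c / 2 * n := by field_simp
  linarith

/-- The two free entropies differ. -/
theorem exists_freeEntropy_lt_freeEntropyStar :
    ∃ (N : ℕ) (m : List (Fin N) → ℂ), 1 ≤ N ∧ IsLaw m ∧ ⊥ < freeEntropy m ∧
      (∀ t : ℝ, 0 < t → fisher (addSemicircular m fun _ => t) < ⊤) ∧
      IntegrableOn (starIntegrand m) (Ioi 0) ∧
      freeEntropy m < ((freeEntropyStar m : ℝ) : EReal) := by
  obtain ⟨C, hC⟩ := Params.freeEntropy_law_le
  obtain ⟨n, hn, hbig⟩ := exists_log_lt_linear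
    (C * (1 + |Real.log (1 / 10 ^ 5)| + |Real.log (1 / 10 ^ 4)|) + (2 + C) * Real.log 4
      - Real.log (2 * Real.pi * Real.exp 1)
      - 2 * Real.log (1 / 10 ^ 5 * (1 / 10 ^ 4) / 10000) - Real.log (1 / 10 ^ 5 / 10000))
    (3 * (2 + C)) (show (0 : ℝ) < 9 / 10 ^ 5 by norm_num)
  set p := counterexample n hn with hp
  have hgood := counterexample_good n hn
  refine ⟨_, p.law 0, le_trans one_le_two (Nat.le_add_right 2 _), p.law_isLaw le_rfl, p.freeEntropy_law_ne_bot hgood.v_pos,
    fun t ht => p.fisher_lt_top hgood.v_pos ht, p.integrableOn_starIntegrand hgood.v_pos,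
    lt_of_le_of_lt (hC p _ _ _ (counterexample_small n hn))
      (lt_of_lt_of_le (EReal.coe_lt_coe_iff.2 ?_) (EReal.coe_le_coe_iff.2
        (p.freeEntropyStar_ge hgood)))⟩
  have hn0 : (0 : ℝ) < n := by exact_mod_cast hn
  have hG : Real.log ((4 * n ^ 3 : ℕ) : ℝ) = Real.log 4 + 3 * Real.log n := by
    push_cast
    rw [Real.log_mul (by norm_num) (by positivity), Real.log_pow]
    norm_num
  have hsum : ∑ j, Real.log (p.v j) =
      4 * (Real.log (1 / 10 ^ 5 * (1 / 10 ^ 4) / 10000) - Real.log ((4 * n ^ 3 : ℕ) : ℝ)) +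
        2 * Real.log (1 / 10 ^ 5 / 10000) := by
    have hv2 : ∀ i, p.v (Fin.castAdd n i) =
        (1 / 10 ^ 5 * (1 / 10 ^ 4) / 10000 / ((4 * n ^ 3 : ℕ) : ℝ)) ^ 2 := fun i => by
      rw [div_div]
      exact counterexample_v_left n hn i
    have hv1 : ∀ e : Fin n, p.v (Fin.natAdd 2 e : Fin (2 + n)) =
        if e = ⟨0, hn⟩ then (1 / 10 ^ 5 / 10000) ^ 2 else 1 := fun e => by
      exact counterexample_v_right n hn e
    show ∑ j : Fin (2 + n), Real.log (p.v j) = _
    rw [Fin.sum_univ_add]
    simp only [hv2, hv1, apply_ite Real.log, Real.log_one, Finset.sum_ite_eq', Finset.mem_univ,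
      if_true, Finset.sum_const, Finset.card_univ, Fintype.card_fin, Real.log_pow, nsmul_eq_mul]
    rw [Real.log_div (by norm_num) (by positivity)]
    push_cast
    ring
  have hlog : Real.log (2 * Real.pi * Real.exp 1 * (1 + 1 / 10 ^ 5) ^ 2) ≤
      Real.log (2 * Real.pi * Real.exp 1) + 2 / 10 ^ 5 := by
    rw [Real.log_mul (by positivity) (by norm_num), Real.log_pow]
    have := Real.log_le_sub_one_of_pos (show (0 : ℝ) < 1 + 1 / 10 ^ 5 by norm_num)
    push_cast
    linarith
  have hlog' := mul_le_mul_of_nonneg_left hlog (show (0 : ℝ) ≤ (n : ℝ) / 2 by positivity)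
  rw [hsum, hG]
  show (n : ℝ) / 2 * _ + C * (1 + _ + _ + |Real.log (1 / 10 ^ 4)|) <
    ((2 + n : ℕ) : ℝ) / 2 * _ + _ + (n : ℝ) * (1 / 10 ^ 4)
  rw [Nat.cast_add, Nat.cast_ofNat]
  nlinarith

end

end VAgent.P087
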