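import Mathlib
import Vale.Agent.P087.Defs

/-!
# P087: `mixedMoment` is the joint law of a tuple and a free semicircular family free from it

`mixedMoment m` restricts to `m` on the tuple, gives each added letter the semicircular moments
and satisfies the alternating centred product condition defining freeness, for the algebra of
the tuple and the algebras of the added letters.
-/

namespace VAgent.P087

noncomputable section

/-- Which algebra a letter belongs to: `none` for the tuple, `some j` for the `j`th semicircular. -/
def colour {N : ℕ} : Fin N ⊕ Fin N → Option (Fin N) := Sum.elim (fun _ => none) some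

/-- `φ (P₁ * ⋯ * P_r)` for polynomials given by their coefficients on words. -/
def evalProd {α : Type*} : List (List α →₀ ℂ) → (List α → ℂ) → ℂ
  | [], φ => φ []
  | P :: Ps, φ => P.sum fun w c => c * evalProd Ps fun r => φ (w ++ r)

namespace Freeness

variable {α : Type*}

/-- `φ ((w₁ - μ w₁) ⋯ (w_r - μ w_r))`. -/
def cm (μ : List α → ℂ) : List (List α) → (List α → ℂ) → ℂ
  | [], φ => φ []
  | w :: ws, φ => cm μ ws (fun r => φ (w ++ r)) - μ w * cm μ ws φ

variable (μ : List α → ℂ)

lemma cm_lin (ws : List (List α)) (a b : ℂ) (φ ψ : List α → ℂ) :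
    cm μ ws (fun r => a * φ r + b * ψ r) = a * cm μ ws φ + b * cm μ ws ψ := by
  induction ws generalizing φ ψ with
  | nil => rfl
  | cons w ws ih =>
    simp only [cm]
    rw [ih (fun r => φ (w ++ r)) (fun r => ψ (w ++ r)), ih φ ψ]
    ring

lemma cm_zero (ws : List (List α)) : cm μ ws (fun _ => 0) = 0 := by
  simpa using cm_lin μ ws 0 0 (fun _ => 0) (fun _ => 0)

lemma cm_add (ws : List (List α)) (φ ψ : List α → ℂ) :
    cm μ ws (fun r => φ r + ψ r) = cm μ ws φ + cm μ ws ψ := by
  simpa using cm_lin μ ws 1 1 φ ψ

lemma cm_mul (ws : List (List α)) (a : ℂ) (φ : List α → ℂ) :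
    cm μ ws (fun r => a * φ r) = a * cm μ ws φ := by
  simpa using cm_lin μ ws a 0 φ φ

lemma cm_concat (ws : List (List α)) (B : List α) (φ : List α → ℂ) :
    cm μ (ws ++ [B]) φ = cm μ ws (fun r => φ (r ++ B)) - μ B * cm μ ws φ := by
  induction ws generalizing φ with
  | nil => simp [cm]
  | cons w ws ih =>
    simp only [List.cons_append, cm, ih, List.append_assoc]
    ring

variable [DecidableEq α] (s : α)

/-- `∑ f p * g q` over the splittings `r = p ++ s :: q`. -/
def split : (List α → ℂ) → (List α → ℂ) → List α → ℂ
  | _, _, [] => 0
  | f, g, x :: r => (if x = s then f [] * g r else 0) + split (fun p => f (x :: p)) g r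

lemma split_eq_sum (f g : List α → ℂ) (v : List α) :
    (∑ q : Fin v.length, if v.get q = s then f (v.take q) * g (v.drop (q + 1)) else 0) =
      split s f g v := by
  induction v generalizing f with
  | nil => simp [split]
  | cons x v ih =>
    simp only [List.length_cons, Fin.sum_univ_succ, split]
    congr 1
    rw [← ih]
    simp

lemma split_append (f g : List α → ℂ) (v r : List α) :
    split s f g (v ++ r) =
      split s f (fun q => g (q ++ r)) v + split s (fun p => f (v ++ p)) g r := by
  induction v generalizing f with
  | nil => simp [split]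
  | cons x v ih => simp [split, ih, add_assoc]

lemma split_eq_zero {f g : List α → ℂ} {v : List α}
    (h : ∀ p q, v = p ++ s :: q → f p * g q = 0) : split s f g v = 0 := by
  induction v generalizing f with
  | nil => rfl
  | cons x v ih =>
    rw [split, ih fun p q e => h (x :: p) q (by simp [e]), add_zero]
    split_ifs with hx
    · exact h [] v (by simp [hx])
    · rfl

lemma split_lin_left (f f' g : List α → ℂ) (a : ℂ) (v : List α) :
    split s (fun p => f p - a * f' p) g v = split s f g v - a * split s f' g v := by
  induction v generalizing f f' with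
  | nil => simp [split]
  | cons x v ih =>
    simp only [split, ih (fun p => f (x :: p)) (fun p => f' (x :: p))]
    split_ifs <;> ring

lemma split_lin_right (f g g' : List α → ℂ) (a : ℂ) (v : List α) :
    split s f (fun q => g q - a * g' q) v = split s f g v - a * split s f g' v := by
  induction v generalizing f with
  | nil => simp [split]
  | cons x v ih =>
    simp only [split, ih]
    split_ifs <;> ring

lemma split_mul_right (f g : List α → ℂ) (a : ℂ) (v : List α) :
    split s f (fun q => g q * a) v = split s f g v * a := by
  induction v generalizing f with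
  | nil => simp [split]
  | cons x v ih =>
    simp only [split, ih]
    split_ifs <;> ring

lemma cm_split_right (ws : List (List α)) (f : List α → ℂ) (G : List α → List α → ℂ) (v : List α) :
    cm μ ws (fun r => split s f (fun q => G q r) v) =
      split s f (fun q => cm μ ws (G q)) v := by
  induction v generalizing f with
  | nil => simpa [split] using cm_zero μ ws
  | cons x v ih =>
    simp only [split]
    rw [cm_add, ih]
    congr 1
    split_ifs
    · exact cm_mul μ ws _ _
    · exact cm_zero μ ws

/-- Splittings inside a centred product vanish if all the first factors do. -/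
lemma cm_split_eq_zero : ∀ (ws : List (List α)) (f g : List α → ℂ),
    (∀ mid v tail, ws = mid ++ v :: tail → ∀ p q, v = p ++ s :: q →
      cm μ mid (fun r => f (r ++ p)) = 0) → cm μ ws (split s f g) = 0
  | [], f, g, _ => rfl
  | w :: ws, f, g, h => by
    have h1 : ∀ r, split s f (fun q => g (q ++ r)) w = 0 := fun r => split_eq_zero s fun p q e => by
      rw [show f p = 0 by simpa [cm] using h [] w ws rfl p q e, zero_mul]
    have h2 : cm μ ws (split s (fun p => f (w ++ p) - μ w * f p) g) = 0 := by
      refine cm_split_eq_zero ws _ g fun mid v tail e p q e' => ?_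
      have h3 := h (w :: mid) v tail (by simp [e]) p q e'
      simp only [cm, List.append_assoc] at h3
      have h4 := cm_lin μ mid 1 (-μ w) (fun r => f (w ++ (r ++ p))) (fun r => f (r ++ p))
      simp only [one_mul, neg_mul, ← sub_eq_add_neg] at h4
      rw [h4, h3]
    have h5 := cm_lin μ ws 1 (-μ w) (fun r => split s (fun p => f (w ++ p)) g r) (split s f g)
    simp only [one_mul, neg_mul, ← sub_eq_add_neg] at h5
    simp only [cm, split_append, h1, zero_add]
    rw [← h5]
    refine Eq.trans ?_ h2
    congr 1
    funext r
    rw [split_lin_left]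

variable {N : ℕ} {m : List (Fin N) → ℂ}

lemma mm_of_left (u : List (Fin N ⊕ Fin N)) (hu : ∀ a ∈ u, colour a = none) :
    mixedMoment m u = m (u.map (Sum.elim id id)) := by
  rw [mixedMoment, dif_neg]
  rintro ⟨l, hl⟩
  have h2 := hu _ (u.get_mem l)
  revert hl h2
  cases u.get l <;> simp [colour]

lemma mm_inl (w : List (Fin N)) : mixedMoment m (w.map Sum.inl) = m w := by
  rw [mm_of_left]
  · simp [List.map_map, Function.comp_def]
  · simp [colour]

lemma mm_append (u r : List (Fin N ⊕ Fin N)) (hu : ∀ a ∈ u, colour a = none) (j : Fin N) :
    mixedMoment m (u ++ Sum.inr j :: r) =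
      split (Sum.inr j) (mixedMoment m) (mixedMoment m) (r ++ u) := by
  set W := u ++ Sum.inr j :: r with hW
  have h : ∃ l : Fin W.length, (W.get l).isRight :=
    ⟨⟨u.length, by simp [hW]⟩, by simp [hW]⟩
  have hl : (Fin.find (p := fun l : Fin W.length => (W.get l).isRight = true) h : ℕ) = u.length := by
    have hspec := Fin.find_spec (p := fun l : Fin W.length => (W.get l).isRight = true) h
    set l := Fin.find (p := fun l : Fin W.length => (W.get l).isRight = true) h
    rcases lt_trichotomy (l : ℕ) u.length with hlt | he | hgt
    · exfalso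
      simp only [hW, List.get_eq_getElem, List.getElem_append_left hlt] at hspec
      have h2 := hu _ (List.getElem_mem hlt)
      revert hspec h2
      cases u[(l : ℕ)] <;> simp [colour]
    · exact he
    · exact absurd (show ((W.get ⟨u.length, by simp [hW]⟩).isRight = true) by simp [hW])
        (Fin.find_min (p := fun l : Fin W.length => (W.get l).isRight = true) h hgt)
  have h3 : W.get (Fin.find (p := fun l : Fin W.length => (W.get l).isRight = true) h) =
      Sum.inr j := by
    rw [show Fin.find (p := fun l : Fin W.length => (W.get l).isRight = true) h =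
      ⟨u.length, by simp [hW]⟩ from Fin.ext hl]
    simp [hW]
  have h4 : W.drop (u.length + 1) ++ W.take u.length = r ++ u := by
    simp [hW, List.drop_append]
  rw [mixedMoment, dif_pos h]
  simp only [h3]
  rw [split_eq_sum, hl, h4]

lemma split_left_zero (f g : List (Fin N ⊕ Fin N) → ℂ) {j : Fin N} {u : List (Fin N ⊕ Fin N)}
    (hu : ∀ a ∈ u, colour a = none) : split (Sum.inr j) f g u = 0 :=
  split_eq_zero _ fun p q e => by
    have := hu (Sum.inr j) (by simp [e])
    simp [colour] at this

lemma mm_rotate (htr : ∀ u v, m (u ++ v) = m (v ++ u)) (u r : List (Fin N ⊕ Fin N))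
    (hu : ∀ a ∈ u, colour a = none) : mixedMoment m (u ++ r) = mixedMoment m (r ++ u) := by
  induction r generalizing u with
  | nil => simp
  | cons a r ih =>
    by_cases hr : ∀ b ∈ a :: r, colour b = none
    · rw [mm_of_left _ fun b hb => (List.mem_append.1 hb).elim (hu b) (hr b),
        mm_of_left _ fun b hb => (List.mem_append.1 hb).elim (hr b) (hu b)]
      simpa only [List.map_append] using htr _ _
    · rcases a with i | j
      · have hi : ∀ b ∈ [Sum.inl i], colour (N := N) b = none := by simp [colour]
        have hui : ∀ b ∈ u ++ [Sum.inl i], colour b = none := fun b hb =>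
          (List.mem_append.1 hb).elim (hu b) (hi b)
        have h2 := ih [Sum.inl i] hi
        have h3 := ih (u ++ [Sum.inl i]) hui
        simp only [List.append_assoc, List.singleton_append] at h3
        rw [h3]
        -- both sides only depend on the part after the first added letter
        obtain ⟨p, c, q, rfl, hp⟩ : ∃ p c q, r = p ++ Sum.inr c :: q ∧
            ∀ b ∈ p, colour b = none := by
          clear h2 h3 ih
          induction r with
          | nil => simp [colour] at hr
          | cons b r ihr =>
            rcases b with b | c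
            · obtain ⟨p, c, q, rfl, hp⟩ := ihr (by simpa [colour] using hr)
              exact ⟨Sum.inl b :: p, c, q, rfl, by simpa [colour] using hp⟩
            · exact ⟨[], c, r, rfl, by simp⟩
        rw [show (p ++ Sum.inr c :: q) ++ (u ++ [Sum.inl i]) =
            p ++ Sum.inr c :: (q ++ u ++ [Sum.inl i]) by simp,
          show (Sum.inl i :: (p ++ Sum.inr c :: q)) ++ u =
            (Sum.inl i :: p) ++ Sum.inr c :: (q ++ u) by simp,
          mm_append _ _ hp, mm_append _ _ (by simpa [colour] using hp)]
        simp
      · rw [mm_append u r hu j, List.cons_append,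
          show Sum.inr j :: (r ++ u) = [] ++ Sum.inr j :: (r ++ u) from rfl,
          mm_append [] _ (by simp) j, List.append_nil]

/-- Centred blocks: each word only uses its colour, neighbours differ. -/
def Good (L : List (Option (Fin N) × List (Fin N ⊕ Fin N))) : Prop :=
  L.IsChain (fun a b => a.1 ≠ b.1) ∧ ∀ b ∈ L, ∀ a ∈ b.2, colour a = b.1

/-- Number of letters. -/
def size (L : List (Option (Fin N) × List (Fin N ⊕ Fin N))) : ℕ :=
  (L.map fun b => b.2.length).sum

lemma size_append (L L' : List (Option (Fin N) × List (Fin N ⊕ Fin N))) :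
    size (L ++ L') = size L + size L' := by
  simp [size]

lemma full_of_first (hu1 : m [] = 1) (htr : ∀ u v, m (u ++ v) = m (v ++ u)) (n : ℕ)
    (h : ∀ (j : Fin N) A rest z, Good ((some j, A) :: rest) → size ((some j, A) :: rest) ≤ n →
      (∀ a ∈ z, colour a = none) →
      cm (mixedMoment m) (A :: rest.map Prod.snd) (fun r => mixedMoment m (r ++ z)) = 0)
    (L : List (Option (Fin N) × List (Fin N ⊕ Fin N))) (hL : Good L) (hne : L ≠ [])
    (hn : size L ≤ n) : cm (mixedMoment m) (L.map Prod.snd) (mixedMoment m) = 0 := by
  obtain ⟨⟨c, A⟩, rest, rfl⟩ := List.exists_cons_of_ne_nil hne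
  rcases c with _ | j
  · have hA : ∀ a ∈ A, colour a = none := hL.2 (none, A) (by simp)
    rcases rest with _ | ⟨⟨c, B⟩, rest⟩
    · have h0 : mixedMoment m ([] : List (Fin N ⊕ Fin N)) = 1 := by
        simpa [hu1] using mm_inl (m := m) []
      simp [cm, h0]
    · obtain ⟨j, rfl⟩ : ∃ j, c = some j := by
        have := (List.isChain_cons_cons.1 hL.1).1
        cases c with
        | none => simp at this
        | some j => exact ⟨j, rfl⟩
      have hg : Good ((some j, B) :: rest) :=
        ⟨(List.isChain_cons_cons.1 hL.1).2, fun b hb => hL.2 b (List.mem_cons_of_mem _ hb)⟩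
      have hs : size ((some j, B) :: rest) ≤ n := le_trans (by simp [size]) hn
      show cm (mixedMoment m) (B :: rest.map Prod.snd) (fun r => mixedMoment m (A ++ r)) -
        mixedMoment m A * cm (mixedMoment m) (B :: rest.map Prod.snd) (mixedMoment m) = 0
      rw [funext fun r => mm_rotate htr A r hA, h j B rest A hg hs hA]
      have h2 := h j B rest [] hg hs (by simp)
      simp only [List.append_nil] at h2
      rw [h2, mul_zero, sub_zero]
  · have h2 := h j A rest [] hL hn (by simp)
    simpa using h2

lemma first_eq_zero (hu1 : m [] = 1) (htr : ∀ u v, m (u ++ v) = m (v ++ u)) : ∀ (n : ℕ) (j : Fin N)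
    (A : List (Fin N ⊕ Fin N)) (rest : List (Option (Fin N) × List (Fin N ⊕ Fin N)))
    (z : List (Fin N ⊕ Fin N)), Good ((some j, A) :: rest) → size ((some j, A) :: rest) ≤ n →
    (∀ a ∈ z, colour a = none) →
    cm (mixedMoment m) (A :: rest.map Prod.snd) (fun r => mixedMoment m (r ++ z)) = 0 := by
  have h0 : mixedMoment m ([] : List (Fin N ⊕ Fin N)) = 1 := by
    simpa [hu1] using mm_inl (m := m) []
  intro n
  induction n using Nat.strong_induction_on with
  | _ n IH =>
    intro j A rest z hL hn hz
    rcases A with _ | ⟨a, A⟩
    · simp [cm, h0]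
    obtain rfl : a = Sum.inr j := by
      have h1 := hL.2 (some j, a :: A) (by simp) a (by simp)
      rcases a with i | i <;> simp [colour] at h1 ⊢
      exact h1
    have hA : ∀ b ∈ A, colour b = some j := fun b hb =>
      hL.2 (some j, Sum.inr j :: A) (by simp) b (List.mem_cons_of_mem _ hb)
    have hsz : size ((some j, A) :: rest) + 1 ≤ n := le_of_eq_of_le (by simp [size]; ring) hn
    set s : Fin N ⊕ Fin N := Sum.inr j
    set μ := mixedMoment m with hμ
    set R := rest.map Prod.snd with hR
    have e : ∀ r, μ ((s :: A) ++ r ++ z) = split s μ (fun q => μ (q ++ r ++ z)) A +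
        split s (fun p => μ (A ++ p)) (fun q => μ (q ++ z)) r := by
      intro r
      have h1 := mm_append (m := m) [] (A ++ r ++ z) (by simp) j
      simp only [List.nil_append, List.append_nil] at h1
      simp only [List.cons_append, hμ, s]
      rw [h1, List.append_assoc, split_append, split_append, split_left_zero _ _ hz, add_zero]
      simp only [List.append_assoc]
    have eA : μ (s :: A) = split s μ μ A := by
      simpa using mm_append (m := m) [] A (by simp) j
    simp only [cm]
    rw [show (fun r => μ ((s :: A) ++ r ++ z)) = _ from funext e, cm_add,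
      cm_split_right μ s R μ (fun q r => μ (q ++ r ++ z)) A, eA, ← split_mul_right]
    have hinside : split s μ (fun q => cm μ R (fun r => μ (q ++ r ++ z))) A -
        split s μ (fun q => μ q * cm μ R (fun r => μ (r ++ z))) A = 0 := by
      have h1 := split_lin_right s μ (fun q => cm μ R (fun r => μ (q ++ r ++ z)))
        (fun q => μ q * cm μ R (fun r => μ (r ++ z))) 1 A
      simp only [one_mul] at h1
      rw [← h1]
      refine split_eq_zero s fun p q e => ?_
      have hg : Good ((some j, q) :: rest) := by
        refine ⟨hL.1.imp_head (by simp), ?_⟩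
        intro b hb c hc
        rcases List.mem_cons.1 hb with rfl | hb
        · exact hA c (by simp [e, hc])
        · exact hL.2 b (List.mem_cons_of_mem _ hb) c hc
      have hlt : size ((some j, q) :: rest) < n := by
        have : q.length ≤ A.length := by simp [e]; omega
        simp [size] at hsz ⊢
        omega
      have h2 := IH _ hlt j q rest z hg le_rfl hz
      simp only [cm, ← hR, List.append_assoc] at h2
      simp only [hμ, List.append_assoc] at *
      rw [h2, mul_zero]
    have houtside : cm μ R (split s (fun p => μ (A ++ p)) (fun q => μ (q ++ z))) = 0 := by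
      refine cm_split_eq_zero μ s R _ _ fun mid v tail e p q ev => ?_
      obtain ⟨Mid, Tail0, hrest, hmid, htail⟩ := List.map_eq_append_iff.1 (hR ▸ e)
      obtain ⟨⟨c, v'⟩, Tail, rfl, hv', -⟩ := List.map_eq_cons_iff.1 htail
      simp only at hv'
      subst hv'
      obtain rfl : some j = c := by
        have h1 := hL.2 (c, v') (by simp [hrest]) s (by simp [ev])
        simpa [colour, s] using h1
      have hchain := hL.1
      rw [hrest, show (some j, s :: A) :: (Mid ++ (some j, v') :: Tail) =
        ((some j, s :: A) :: Mid) ++ (some j, v') :: Tail from rfl] at hchain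
      obtain ⟨hc1, hc2, hc3⟩ := List.isChain_append.1 hchain
      have hMid : Mid ≠ [] := by
        rintro rfl
        exact hc3 (some j, s :: A) (by simp) (some j, v') (by simp) rfl
      have hmem : ∀ b ∈ Mid, ∀ a ∈ b.2, colour a = b.1 := fun b hb =>
        hL.2 b (by simp [hrest, hb])
      have hp : ∀ a ∈ p, colour a = some j := fun a ha =>
        hL.2 (some j, v') (by simp [hrest]) a (by simp [ev, ha])
      have hlt : size ((some j, A) :: (Mid ++ [(some j, p)])) < n := by
        have : p.length < v'.length := by simp [ev]
        simp [hrest, size] at hsz ⊢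
        omega
      have full : ∀ L, Good L → L ≠ [] →
          size L ≤ size ((some j, A) :: (Mid ++ [(some j, p)])) →
          cm μ (L.map Prod.snd) μ = 0 := fun L hg hne hs =>
        full_of_first hu1 htr _ (fun j' A' rest' z' => IH _ hlt j' A' rest' z') L hg hne hs
      have g4 : Good Mid := ⟨hc1.tail, hmem⟩
      have g3 : Good ((some j, A) :: Mid) := by
        refine ⟨hc1.imp_head (by simp), ?_⟩
        intro b hb
        rcases List.mem_cons.1 hb with rfl | hb
        · exact hA
        · exact hmem b hb
      have hlast : ∀ x ∈ Mid.getLast?, x.1 ≠ some j := fun x hx =>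
        hc3 x (by simp [List.getLast?_cons, Option.mem_def.1 hx]) (some j, v') (by simp)
      have g2 : Good (Mid ++ [(some j, p)]) := by
        refine ⟨List.isChain_append.2 ⟨g4.1, List.IsChain.singleton _, ?_⟩, ?_⟩
        · intro x hx y hy
          obtain rfl : y = (some j, p) := by simpa using hy.symm
          exact hlast x hx
        · intro b hb
          rcases List.mem_append.1 hb with hb | hb
          · exact hmem b hb
          · obtain rfl := List.mem_singleton.1 hb
            exact hp
      have g1 : Good ((some j, A) :: (Mid ++ [(some j, p)])) := by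
        refine ⟨?_, ?_⟩
        · rw [show (some j, A) :: (Mid ++ [(some j, p)]) =
            ((some j, A) :: Mid) ++ [(some j, p)] from rfl]
          refine List.isChain_append.2 ⟨g3.1, List.IsChain.singleton _, ?_⟩
          intro x hx y hy
          obtain rfl : y = (some j, p) := by simpa using hy.symm
          refine hlast x ?_
          obtain ⟨l, hl⟩ := List.getLast?_isSome.2 hMid |> Option.isSome_iff_exists.1
          simpa [List.getLast?_cons, hl] using hx
        · intro b hb
          rcases List.mem_cons.1 hb with rfl | hb
          · exact hA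
          · exact g2.2 b hb
      have f1 := full _ g1 (by simp) le_rfl
      have f2 := full _ g2 (by simp) (by simp [size])
      have f3 := full _ g3 (by simp) (by simp [size])
      have f4 := full _ g4 hMid (by simp [size]; omega)
      rw [← hmid]
      simp only [List.map_cons, List.map_append, List.map_nil, cm, cm_concat]
        at f1 f2 f3 f4 ⊢
      linear_combination f1 + μ A * f2 + μ p * f3 + μ p * μ A * f4
    rw [houtside, add_zero]
    simpa only [hμ, List.append_assoc] using hinside

omit [DecidableEq α] in
lemma evalProd_lin (Ps : List (List α →₀ ℂ)) (a b : ℂ) (φ ψ : List α → ℂ) :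
    evalProd Ps (fun r => a * φ r + b * ψ r) = a * evalProd Ps φ + b * evalProd Ps ψ := by
  induction Ps generalizing φ ψ with
  | nil => rfl
  | cons P Ps ih =>
    simp only [evalProd, Finsupp.sum, Finset.mul_sum, ← Finset.sum_add_distrib]
    refine Finset.sum_congr rfl fun w _ => ?_
    rw [ih]
    ring

omit [DecidableEq α] in
lemma evalProd_eq_zero : ∀ (Ps : List (List α →₀ ℂ)) (φ : List α → ℂ),
    (∀ P ∈ Ps, P.sum (fun w c => c * μ w) = 0) →
    (∀ ws, List.Forall₂ (fun w (P : List α →₀ ℂ) => w ∈ P.support) ws Ps → cm μ ws φ = 0) →
    evalProd Ps φ = 0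
  | [], φ, _, h => by simpa [evalProd, cm] using h [] List.Forall₂.nil
  | P :: Ps, φ, hc, h => by
    have h1 : ∀ w ∈ P.support,
        evalProd Ps (fun r => φ (w ++ r)) = μ w * evalProd Ps φ := by
      intro w hw
      have h2 := evalProd_eq_zero Ps (fun r => φ (w ++ r) + -μ w * φ r)
        (fun Q hQ => hc Q (List.mem_cons_of_mem _ hQ)) fun ws hws => by
          have h3 := h (w :: ws) (List.Forall₂.cons hw hws)
          have h4 := cm_lin μ ws 1 (-μ w) (fun r => φ (w ++ r)) φ
          simp only [one_mul] at h4
          rw [h4, ← h3, cm]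
          ring
      have h5 := evalProd_lin Ps 1 (-μ w) (fun r => φ (w ++ r)) φ
      simp only [one_mul] at h5
      linear_combination h2 - h5
    have h6 := hc P List.mem_cons_self
    simp only [evalProd, Finsupp.sum] at h6 ⊢
    rw [Finset.sum_congr rfl fun w hw => by rw [h1 w hw, ← mul_assoc], ← Finset.sum_mul, h6,
      zero_mul]

lemma sum_range_even (g : ℕ → ℂ) : ∀ k, (∀ i < k, g (2 * i + 1) = 0) →
    ∑ q ∈ Finset.range (2 * k + 1), g q = ∑ i ∈ Finset.range (k + 1), g (2 * i)
  | 0, _ => by simp
  | k + 1, hg => by
    rw [show 2 * (k + 1) + 1 = 2 * k + 1 + 1 + 1 from by ring, Finset.sum_range_succ,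
      Finset.sum_range_succ, sum_range_even g k (fun i hi => hg i (by omega)), hg k (by omega),
      Finset.sum_range_succ (n := k + 1)]
    ring_nf

lemma split_replicate (f g : List α → ℂ) : ∀ n, split s f g (List.replicate n s) =
    ∑ q ∈ Finset.range n, f (List.replicate q s) * g (List.replicate (n - 1 - q) s)
  | 0 => rfl
  | n + 1 => by
    rw [List.replicate_succ, split, if_pos rfl, split_replicate _ _ n, Finset.sum_range_succ']
    simp only [List.replicate_succ, List.replicate_zero, add_comm (f [] * _)]
    congr 1
    refine Finset.sum_congr rfl fun q hq => ?_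
    congr 3
    omega

lemma semicircular_moments (hu1 : m [] = 1) (j : Fin N) : ∀ k : ℕ,
    mixedMoment m (List.replicate (2 * k) (Sum.inr j)) = catalan k ∧
    mixedMoment m (List.replicate (2 * k + 1) (Sum.inr j)) = 0 := by
  intro k
  induction k using Nat.strong_induction_on with
  | _ k ih =>
    have hrec : ∀ n, mixedMoment m (List.replicate (n + 1) (Sum.inr j)) =
        ∑ q ∈ Finset.range n, mixedMoment m (List.replicate q (Sum.inr j)) *
          mixedMoment m (List.replicate (n - 1 - q) (Sum.inr j)) := by
      intro n
      rw [← split_replicate, List.replicate_succ]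
      simpa using mm_append (m := m) [] (List.replicate n (Sum.inr j)) (by simp) j
    have hodd : mixedMoment m (List.replicate (2 * k + 1) (Sum.inr j)) = 0 := by
      rw [hrec]
      refine Finset.sum_eq_zero fun q hq => ?_
      rw [Finset.mem_range] at hq
      obtain ⟨i, hi | hi⟩ := Nat.even_or_odd' q
      · rw [show 2 * k - 1 - q = 2 * (k - 1 - i) + 1 by omega,
          (ih (k - 1 - i) (by omega)).2, mul_zero]
      · rw [hi, (ih i (by omega)).2, zero_mul]
    refine ⟨?_, hodd⟩
    rcases k with _ | k
    · simpa [hu1] using mm_inl (m := m) []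
    · rw [show 2 * (k + 1) = 2 * k + 1 + 1 from by ring, hrec, sum_range_even _ _ (fun i => ?_),
        catalan_succ, Nat.cast_sum,
        Fin.sum_univ_eq_sum_range (fun i => ((catalan i * catalan (k - i) : ℕ) : ℂ))]
      · refine Finset.sum_congr rfl fun i hi => ?_
        rw [Finset.mem_range] at hi
        rw [show 2 * k + 1 - 1 - 2 * i = 2 * (k - i) by omega, (ih i (by omega)).1,
          (ih (k - i) (by omega)).1, Nat.cast_mul]
      · intro hi
        rw [(ih i (by omega)).2, zero_mul]

end Freeness

open Freeness

/-- `mixedMoment m` is the joint law of the tuple with law `m` and a free semicircular family free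
from it. -/
theorem mixedMoment_free {N : ℕ} {m : List (Fin N) → ℂ} (hm : IsLaw m) :
    (∀ w, mixedMoment m (w.map Sum.inl) = m w) ∧
    (∀ j k, mixedMoment m (List.replicate (2 * k) (Sum.inr j)) = catalan k ∧
      mixedMoment m (List.replicate (2 * k + 1) (Sum.inr j)) = 0) ∧
    ∀ L : List (Option (Fin N) × (List (Fin N ⊕ Fin N) →₀ ℂ)), L ≠ [] →
      L.IsChain (fun a b => a.1 ≠ b.1) →
      (∀ b ∈ L, ∀ w ∈ b.2.support, ∀ a ∈ w, colour a = b.1) →
      (∀ b ∈ L, b.2.sum (fun w c => c * mixedMoment m w) = 0) →
      evalProd (L.map Prod.snd) (mixedMoment m) = 0 := by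
  refine ⟨fun w => mm_inl w, semicircular_moments hm.unit, fun L hne hch hcol hcen => ?_⟩
  refine evalProd_eq_zero (mixedMoment m) _ _ (fun P hP => ?_) fun ws hws => ?_
  · obtain ⟨b, hb, rfl⟩ := List.mem_map.1 hP
    exact hcen b hb
  -- pair each word with the colour of its block
  obtain ⟨L', hL1, hL2, hL3⟩ : ∃ L' : List (Option (Fin N) × List (Fin N ⊕ Fin N)),
      L'.map Prod.snd = ws ∧ L'.map Prod.fst = L.map Prod.fst ∧
      ∀ b ∈ L', ∀ a ∈ b.2, colour a = b.1 := by
    clear hne hch hcen
    induction L generalizing ws with
    | nil =>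
      cases hws
      exact ⟨[], rfl, rfl, by simp⟩
    | cons b L ih =>
      rw [List.map_cons] at hws
      cases hws with
      | cons hw hws' =>
        rename_i w ws'
        obtain ⟨L', e1, e2, e3⟩ := ih (fun c hc => hcol c (List.mem_cons_of_mem _ hc)) ws' hws'
        refine ⟨(b.1, w) :: L', by simp [e1], by simp [e2], ?_⟩
        intro c hc
        rcases List.mem_cons.1 hc with rfl | hc
        · exact hcol b List.mem_cons_self w hw
        · exact e3 c hc
  have hgood : Good L' := by
    refine ⟨?_, hL3⟩
    have h1 : (L.map Prod.fst).IsChain (· ≠ ·) := (List.isChain_map _).2 hch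
    rw [← hL2] at h1
    exact (List.isChain_map _).1 h1
  rw [← hL1]
  refine full_of_first hm.unit hm.tracial (size L') (first_eq_zero hm.unit hm.tracial _) L' hgood
    ?_ le_rfl
  rintro rfl
  exact hne (List.map_eq_nil_iff.1 hL2.symm)

end

end VAgent.P087
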