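import Mathlib

/-!
# P087: what it means to realise a law by operators
-/

namespace VAgent.P087

open scoped InnerProductSpace

/-- A unit vector whose vector state is tracial on `A` and which is separating for `A`: the
state is then a faithful normal tracial state. -/
def TracialVector {H : Type} [NormedAddCommGroup H] [InnerProductSpace ℂ H] [CompleteSpace H]
    (A : VonNeumannAlgebra H) (Ω : H) : Prop :=
  ‖Ω‖ = 1 ∧ (∀ a ∈ A, ∀ b ∈ A, ⟪Ω, a (b Ω)⟫_ℂ = ⟪Ω, b (a Ω)⟫_ℂ) ∧ ∀ a ∈ A, a Ω = 0 → a = 0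

/-- `X` is a tuple of self-adjoint generators of `A` (that is, `A` is their bicommutant) with
moments `m` in the vector state of `Ω`. -/
def RealisedBy {H : Type} [NormedAddCommGroup H] [InnerProductSpace ℂ H] [CompleteSpace H]
    {N : ℕ} (m : List (Fin N) → ℂ) (A : VonNeumannAlgebra H) (Ω : H)
    (X : Fin N → H →L[ℂ] H) : Prop :=
  (∀ j, X j ∈ A ∧ IsSelfAdjoint (X j)) ∧
    (A : Set (H →L[ℂ] H)) = Set.centralizer (Set.centralizer (Set.range X)) ∧
    ∀ w, m w = ⟪Ω, (w.map X).prod Ω⟫_ℂ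

/-- `m` is the law of bounded self-adjoint generators of a tracial von Neumann algebra. -/
def Realised {N : ℕ} (m : List (Fin N) → ℂ) : Prop :=
  ∃ (H : Type) (_ : NormedAddCommGroup H) (_ : InnerProductSpace ℂ H) (_ : CompleteSpace H)
    (A : VonNeumannAlgebra H) (Ω : H) (X : Fin N → H →L[ℂ] H),
    TracialVector A Ω ∧ RealisedBy m A Ω X

end VAgent.P087
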