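import Mathlib
import Vale.Agent.P087.Defs
import Vale.Agent.P087.Realisation

/-!
# P087: the GNS realisation of a law

Every law `m` is the law of a tuple of bounded self-adjoint elements of a von Neumann algebra
with a tracial vector state whose vector is separating (so the state is faithful and normal).
-/

namespace VAgent.P087.GNS

open scoped InnerProductSpace ComplexConjugate
open UniformSpace

noncomputable section

variable {N : ℕ} {m : List (Fin N) → ℂ}

/-- The sesquilinear form of a moment functional on polynomials. -/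
def form (m : List (Fin N) → ℂ) (P Q : List (Fin N) →₀ ℂ) : ℂ :=
  P.sum fun v a => Q.sum fun w b => conj a * b * m (v.reverse ++ w)

lemma form_single (v w : List (Fin N)) (a b : ℂ) :
    form m (Finsupp.single v a) (Finsupp.single w b) = conj a * b * m (v.reverse ++ w) := by
  simp [form, Finsupp.sum_single_index]

lemma form_add_left (P P' Q : List (Fin N) →₀ ℂ) :
    form m (P + P') Q = form m P Q + form m P' Q := by
  unfold form
  rw [Finsupp.sum_add_index' (by simp)]
  intro v a a'
  simp only [map_add, add_mul, Finsupp.sum_add]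

lemma form_add_right (P Q Q' : List (Fin N) →₀ ℂ) :
    form m P (Q + Q') = form m P Q + form m P Q' := by
  unfold form
  rw [← Finsupp.sum_add]
  refine Finsupp.sum_congr fun v _ => ?_
  rw [Finsupp.sum_add_index' (by simp)]
  intro w b b'
  ring

lemma form_zero_left (Q : List (Fin N) →₀ ℂ) : form m 0 Q = 0 := by simp [form]

lemma form_zero_right (P : List (Fin N) →₀ ℂ) : form m P 0 = 0 := by simp [form]

lemma form_conj (hm : IsLaw m) (P Q : List (Fin N) →₀ ℂ) :
    conj (form m Q P) = form m P Q := by
  induction P using Finsupp.induction_linear with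
  | zero => simp [form_zero_left, form_zero_right]
  | add P P' hP hP' => rw [form_add_left, form_add_right, map_add, hP, hP']
  | single v a =>
    induction Q using Finsupp.induction_linear with
    | zero => simp [form_zero_left, form_zero_right]
    | add Q Q' hQ hQ' => rw [form_add_left, form_add_right, map_add, hQ, hQ']
    | single w b =>
      rw [form_single, form_single]
      simp only [map_mul, Complex.conj_conj]
      rw [← hm.selfAdjoint]
      simp only [List.reverse_append, List.reverse_reverse]
      ring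

lemma form_smul_left (r : ℂ) (P Q : List (Fin N) →₀ ℂ) :
    form m (r • P) Q = conj r * form m P Q := by
  induction P using Finsupp.induction_linear with
  | zero => simp [form_zero_left]
  | add P P' hP hP' => rw [smul_add, form_add_left, form_add_left, hP, hP', mul_add]
  | single v a =>
    induction Q using Finsupp.induction_linear with
    | zero => simp [form_zero_right]
    | add Q Q' hQ hQ' => rw [form_add_right, form_add_right, hQ, hQ', mul_add]
    | single w b =>
      rw [Finsupp.smul_single, form_single, form_single, smul_eq_mul, map_mul]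
      ring

/-- Polynomials with the inner product given by a law. -/
@[nolint unusedArguments]
def Pre {N : ℕ} {m : List (Fin N) → ℂ} (_ : IsLaw m) := List (Fin N) →₀ ℂ

variable (hm : IsLaw m)

instance : AddCommGroup (Pre hm) := inferInstanceAs (AddCommGroup (List (Fin N) →₀ ℂ))
instance : Module ℂ (Pre hm) := inferInstanceAs (Module ℂ (List (Fin N) →₀ ℂ))

/-- Polynomials as vectors. -/
def of : (List (Fin N) →₀ ℂ) ≃ₗ[ℂ] Pre hm := LinearEquiv.refl ℂ _

/-- The positive form as a pre-inner product. -/
abbrev core : PreInnerProductSpace.Core ℂ (Pre hm) where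
  inner P Q := form m ((of hm).symm P) ((of hm).symm Q)
  conj_inner_symm P Q := form_conj hm _ _
  re_inner_nonneg P := hm.positive ((of hm).symm P)
  add_left P P' Q := by rw [map_add]; exact form_add_left _ _ _
  smul_left P Q r := by rw [map_smul]; exact form_smul_left _ _ _

instance : SeminormedAddCommGroup (Pre hm) :=
  InnerProductSpace.Core.toSeminormedAddCommGroup (c := core hm)
instance : InnerProductSpace ℂ (Pre hm) := InnerProductSpace.ofCore (core hm)

/-- The GNS space. -/
abbrev Space := Completion (Pre hm)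

/-- A word as a vector. -/
def e (w : List (Fin N)) : Pre hm := of hm (Finsupp.single w 1)

lemma inner_e (v w : List (Fin N)) : ⟪e hm v, e hm w⟫_ℂ = m (v.reverse ++ w) := by
  show form m (Finsupp.single v 1) (Finsupp.single w 1) = _
  rw [form_single]
  simp

/-- Induction along words. -/
lemma ind {p : Pre hm → Prop} (h0 : p 0) (hadd : ∀ P Q, p P → p Q → p (P + Q))
    (hw : ∀ (w : List (Fin N)) (a : ℂ), p (a • e hm w)) (P : Pre hm) : p P := by
  obtain ⟨Q, rfl⟩ := (of hm).surjective P
  induction Q using Finsupp.induction_linear with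
  | zero => rw [map_zero]; exact h0
  | add Q Q' hQ hQ' => rw [map_add]; exact hadd _ _ hQ hQ'
  | single w a =>
    have h := hw w a
    rw [e, ← map_smul, Finsupp.smul_single, smul_eq_mul, mul_one] at h
    exact h

/-- The operator moving each word by `f`. -/
def op (f : List (Fin N) → List (Fin N)) : Pre hm →ₗ[ℂ] Pre hm :=
  (of hm).toLinearMap ∘ₗ Finsupp.lmapDomain ℂ ℂ f ∘ₗ (of hm).symm.toLinearMap

lemma op_e (f : List (Fin N) → List (Fin N)) (w : List (Fin N)) :
    op hm f (e hm w) = e hm (f w) := by
  show of hm (Finsupp.mapDomain f (Finsupp.single w 1)) = _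
  rw [Finsupp.mapDomain_single]
  rfl

/-- A symmetric word move of degree one. -/
structure Move (f : List (Fin N) → List (Fin N)) : Prop where
  len : ∀ w, (f w).length = w.length + 1
  sym : ∀ v w, m ((f v).reverse ++ w) = m (v.reverse ++ f w)

lemma move_cons (i : Fin N) : Move (m := m) (List.cons i) :=
  ⟨fun w => List.length_cons, fun v w => by simp⟩

include hm in
lemma move_snoc (i : Fin N) : Move (m := m) (fun w => w ++ [i]) := by
  refine ⟨fun w => by simp, fun v w => ?_⟩
  have h := hm.tracial [i] (v.reverse ++ w)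
  simp only [List.singleton_append, List.append_assoc] at h
  simpa using h

variable {f : List (Fin N) → List (Fin N)}

lemma op_sym (hf : Move (m := m) f) (P Q : Pre hm) :
    ⟪op hm f P, Q⟫_ℂ = ⟪P, op hm f Q⟫_ℂ := by
  induction P using ind hm with
  | h0 => simp
  | hadd P P' hP hP' => rw [map_add, inner_add_left, inner_add_left, hP, hP']
  | hw v a =>
    induction Q using ind hm with
    | h0 => simp
    | hadd Q Q' hQ hQ' => rw [map_add, inner_add_right, inner_add_right, hQ, hQ']
    | hw w b =>
      simp only [map_smul, op_e, inner_smul_left, inner_smul_right, inner_e, hf.sym]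

lemma iter_sym (hf : Move (m := m) f) (k : ℕ) (P Q : Pre hm) :
    ⟪(op hm f)^[k] P, Q⟫_ℂ = ⟪P, (op hm f)^[k] Q⟫_ℂ := by
  induction k generalizing P Q with
  | zero => rfl
  | succ k ih =>
    rw [Function.iterate_succ_apply', Function.iterate_succ_apply, op_sym hm hf, ih]

/-- The operator bound. -/
def rad : ℝ := |hm.bounded.choose| + 1

lemma rad_pos : 0 < rad hm := by unfold rad; positivity

lemma norm_e_le (w : List (Fin N)) : ‖e hm w‖ ≤ rad hm ^ w.length := by
  have h0 : 0 ≤ rad hm ^ w.length := pow_nonneg (rad_pos hm).le _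
  rw [← pow_le_pow_iff_left₀ (norm_nonneg _) h0 two_ne_zero, @norm_sq_eq_re_inner ℂ, inner_e,
    ← pow_mul]
  refine (RCLike.re_le_norm _).trans ((hm.bounded.choose_spec _).trans ((le_abs_self _).trans ?_))
  rw [abs_pow, List.length_append, List.length_reverse, mul_two]
  exact pow_le_pow_left₀ (abs_nonneg _) (by simp [rad]) _

lemma growth (hf : Move (m := m) f) (P : Pre hm) :
    ∃ C : ℝ, ∀ k, ‖(op hm f)^[k] P‖ ≤ C * rad hm ^ k := by
  induction P using ind hm with
  | h0 => exact ⟨0, fun k => by simp [iterate_map_zero]⟩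
  | hadd P Q hP hQ =>
    obtain ⟨C, hC⟩ := hP
    obtain ⟨D, hD⟩ := hQ
    refine ⟨C + D, fun k => ?_⟩
    rw [iterate_map_add, add_mul]
    exact (norm_add_le _ _).trans (add_le_add (hC k) (hD k))
  | hw w a =>
    refine ⟨‖a‖ * rad hm ^ w.length, fun k => ?_⟩
    have hk : (op hm f)^[k] (a • e hm w) = a • e hm (f^[k] w) := by
      induction k with
      | zero => rfl
      | succ k ih =>
        rw [Function.iterate_succ_apply', ih, map_smul, op_e, Function.iterate_succ_apply']
    have hl : (f^[k] w).length = w.length + k := by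
      clear hk
      induction k with
      | zero => rfl
      | succ k ih => rw [Function.iterate_succ_apply', hf.len]; omega
    rw [hk, norm_smul, mul_assoc, ← pow_add, ← hl]
    exact mul_le_mul_of_nonneg_left (norm_e_le hm _) (norm_nonneg _)

lemma double (hf : Move (m := m) f) (P : Pre hm) (k : ℕ) :
    ‖(op hm f)^[k] P‖ ^ 2 ≤ ‖P‖ * ‖(op hm f)^[2 * k] P‖ := by
  rw [@norm_sq_eq_re_inner ℂ, iter_sym hm hf, ← Function.iterate_add_apply, ← two_mul]
  exact re_inner_le_norm _ _

lemma op_bound (hf : Move (m := m) f) (P : Pre hm) : ‖op hm f P‖ ≤ rad hm * ‖P‖ := by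
  by_contra! hlt
  have hpos : 0 < ‖op hm f P‖ :=
    lt_of_le_of_lt (mul_nonneg (rad_pos hm).le (norm_nonneg P)) hlt
  have hP : 0 < ‖P‖ := by
    rcases (norm_nonneg P).lt_or_eq with h | h
    · exact h
    · have h1 := double hm hf P 1
      rw [← h, zero_mul] at h1
      exact absurd h1 (not_le.mpr (pow_pos (by simpa using hpos) 2))
  have hR := rad_pos hm
  set ρ := ‖op hm f P‖ / (rad hm * ‖P‖) with hρ
  have hρ1 : 1 < ρ := by rw [hρ, one_lt_div (by positivity)]; exact hlt
  obtain ⟨C, hC⟩ := growth hm hf P
  have key : ∀ n : ℕ, (rad hm * ρ) ^ (2 ^ n) * ‖P‖ ≤ ‖(op hm f)^[2 ^ n] P‖ := by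
    intro n
    induction n with
    | zero =>
      simp only [pow_zero, pow_one, Function.iterate_one]
      rw [hρ]
      field_simp
      rfl
    | succ n ih =>
      have h2 := (pow_le_pow_left₀ (by positivity) ih 2).trans (double hm hf P (2 ^ n))
      rw [mul_pow, ← pow_mul, ← pow_succ, mul_comm 2 (2 ^ n), ← pow_succ] at h2
      refine le_of_mul_le_mul_left ?_ hP
      linarith
  obtain ⟨n, hn⟩ := pow_unbounded_of_one_lt (C / ‖P‖) hρ1
  have h3 := (key n).trans (hC (2 ^ n))
  rw [mul_pow, mul_assoc, mul_comm C] at h3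
  have h4 : ρ ^ (2 ^ n) * ‖P‖ ≤ C := le_of_mul_le_mul_left h3 (by positivity)
  rw [div_lt_iff₀ hP] at hn
  have h5 : ρ ^ n ≤ ρ ^ (2 ^ n) := pow_le_pow_right₀ hρ1.le n.lt_two_pow_self.le
  nlinarith

/-- The bounded operator on the GNS space moving each word by `f`. -/
def opC (hf : Move (m := m) f) : Space hm →L[ℂ] Space hm :=
  ((op hm f).mkContinuous (rad hm) (op_bound hm hf)).completion

lemma opC_coe (hf : Move (m := m) f) (P : Pre hm) :
    opC hm hf (P : Space hm) = ((op hm f P : Pre hm) : Space hm) := by
  simp [opC]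

/-- A word as a vector of the GNS space. -/
def eH (w : List (Fin N)) : Space hm := (e hm w : Space hm)

lemma opC_eH (hf : Move (m := m) f) (w : List (Fin N)) : opC hm hf (eH hm w) = eH hm (f w) := by
  rw [eH, opC_coe, op_e]
  rfl

lemma inner_eH (v w : List (Fin N)) : ⟪eH hm v, eH hm w⟫_ℂ = m (v.reverse ++ w) := by
  rw [eH, eH, Completion.inner_coe, inner_e]

lemma clm_ext {A B : Space hm →L[ℂ] Space hm} (h : ∀ w, A (eH hm w) = B (eH hm w)) : A = B := by
  ext ξ
  induction ξ using Completion.induction_on with
  | hp => exact isClosed_eq A.continuous B.continuous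
  | ih P =>
    induction P using ind hm with
    | h0 => rw [Completion.coe_zero, map_zero, map_zero]
    | hadd P Q hP hQ => rw [Completion.coe_add, map_add, map_add, hP, hQ]
    | hw w a =>
      rw [Completion.coe_smul, map_smul, map_smul]
      exact congrArg (a • ·) (h w)

lemma opC_selfAdjoint (hf : Move (m := m) f) : IsSelfAdjoint (opC hm hf) := by
  rw [ContinuousLinearMap.isSelfAdjoint_iff_isSymmetric]
  intro ξ η
  show ⟪opC hm hf ξ, η⟫_ℂ = ⟪ξ, opC hm hf η⟫_ℂ
  induction ξ, η using Completion.induction_on₂ with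
  | hp => apply isClosed_eq <;> fun_prop
  | ih P Q => rw [opC_coe, opC_coe, Completion.inner_coe, Completion.inner_coe, op_sym hm hf]

/-- Left multiplication by a letter. -/
def X (i : Fin N) : Space hm →L[ℂ] Space hm := opC hm (move_cons i)

/-- Right multiplication by a letter. -/
def Y (i : Fin N) : Space hm →L[ℂ] Space hm := opC hm (move_snoc hm i)

/-- Conjugate reversal of polynomials. -/
def J₀ : Pre hm →ₛₗ[starRingEnd ℂ] Pre hm where
  toFun P := of hm (Finsupp.mapDomain List.reverse
    (((of hm).symm P).mapRange (starRingEnd ℂ) (map_zero _)))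
  map_add' P Q := by
    rw [map_add, Finsupp.mapRange_add (map_add _), Finsupp.mapDomain_add, map_add]
  map_smul' a P := by
    rw [map_smul, ← map_smul (of hm), ← Finsupp.mapDomain_smul]
    congr 2
    ext w
    simp

lemma J₀_e (w : List (Fin N)) : J₀ hm (e hm w) = e hm w.reverse := by
  show of hm (Finsupp.mapDomain List.reverse
    ((Finsupp.single w 1).mapRange (starRingEnd ℂ) (map_zero _))) = _
  rw [Finsupp.mapRange_single, map_one, Finsupp.mapDomain_single]
  rfl

lemma J₀_swap (P Q : Pre hm) : ⟪P, J₀ hm Q⟫_ℂ = ⟪Q, J₀ hm P⟫_ℂ := by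
  induction P using ind hm with
  | h0 => simp
  | hadd P P' hP hP' => rw [map_add, inner_add_left, inner_add_right, hP, hP']
  | hw v a =>
    induction Q using ind hm with
    | h0 => simp
    | hadd Q Q' hQ hQ' => rw [map_add, inner_add_left, inner_add_right, hQ, hQ']
    | hw w b =>
      simp only [map_smulₛₗ, J₀_e, inner_smul_left, inner_smul_right, inner_e]
      rw [hm.tracial]
      ring

lemma J₀_norm (P : Pre hm) : ‖J₀ hm P‖ = ‖P‖ := by
  have h2 : ∀ Q, J₀ hm (J₀ hm Q) = Q := fun Q => by
    induction Q using ind hm with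
    | h0 => simp
    | hadd Q Q' hQ hQ' => rw [map_add, map_add, hQ, hQ']
    | hw w b => simp [map_smulₛₗ, J₀_e]
  rw [← pow_left_inj₀ (norm_nonneg _) (norm_nonneg _) two_ne_zero, @norm_sq_eq_re_inner ℂ,
    @norm_sq_eq_re_inner ℂ, J₀_swap, h2]

lemma J₀_uniform : UniformContinuous (J₀ hm) :=
  (AddMonoidHomClass.isometry_of_norm (J₀ hm) (J₀_norm hm)).uniformContinuous

/-- The modular conjugation. -/
def J : Space hm → Space hm := Completion.map (J₀ hm)

lemma J_coe (P : Pre hm) : J hm (P : Space hm) = ((J₀ hm P : Pre hm) : Space hm) :=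
  Completion.map_coe (J₀_uniform hm) P

lemma J_continuous : Continuous (J hm) := Completion.continuous_map

lemma J_swap (ξ η : Space hm) : ⟪ξ, J hm η⟫_ℂ = ⟪η, J hm ξ⟫_ℂ := by
  induction ξ, η using Completion.induction_on₂ with
  | hp =>
    exact isClosed_eq (Continuous.inner continuous_fst ((J_continuous hm).comp continuous_snd))
      (Continuous.inner continuous_snd ((J_continuous hm).comp continuous_fst))
  | ih P Q => rw [J_coe, J_coe, Completion.inner_coe, Completion.inner_coe, J₀_swap]

/-- The von Neumann algebra generated by the left multiplications. -/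
def vn : VonNeumannAlgebra (Space hm) where
  toStarSubalgebra := StarSubalgebra.centralizer ℂ
    (StarSubalgebra.centralizer ℂ (Set.range (X hm)) : Set (Space hm →L[ℂ] Space hm))
  centralizer_centralizer' := by simp

lemma coe_vn :
    (vn hm : Set (Space hm →L[ℂ] Space hm)) =
      Set.centralizer (Set.centralizer (Set.range (X hm))) := by
  have h : star (Set.range (X hm)) = Set.range (X hm) := by
    ext A
    rw [Set.mem_star]
    constructor <;> rintro ⟨i, hi⟩ <;> refine ⟨i, ?_⟩
    · rw [← star_star A, ← hi]
      exact (opC_selfAdjoint hm _).star_eq.symm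
    · rw [← hi]
      exact (opC_selfAdjoint hm _).star_eq.symm
  have h' : star (Set.centralizer (Set.range (X hm))) = Set.centralizer (Set.range (X hm)) := by
    rw [Set.star_centralizer, h]
  simp [vn, h, h']

lemma X_mem (i : Fin N) : X hm i ∈ vn hm := by
  rw [← SetLike.mem_coe, coe_vn]
  exact Set.subset_centralizer_centralizer ⟨i, rfl⟩

lemma vn_comm {x : Space hm →L[ℂ] Space hm} (hx : x ∈ vn hm) (i : Fin N) (ξ : Space hm) :
    x (Y hm i ξ) = Y hm i (x ξ) := by
  rw [← SetLike.mem_coe, coe_vn] at hx
  have hY : Y hm i ∈ Set.centralizer (Set.range (X hm)) := by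
    rintro _ ⟨j, rfl⟩
    refine clm_ext hm fun w => ?_
    simp only [mul_apply_eq_comp, X, Y, opC_eH]
    rfl
  exact (congrArg (fun A : Space hm →L[ℂ] Space hm => A ξ) (hx _ hY)).symm

lemma separating {x : Space hm →L[ℂ] Space hm} (hx : x ∈ vn hm) (h : x (eH hm []) = 0) :
    x = 0 := by
  refine clm_ext hm fun w => ?_
  induction w using List.reverseRecOn with
  | nil => simpa using h
  | append_singleton w i ih =>
    rw [← opC_eH hm (move_snoc hm i) w]
    show x (Y hm i (eH hm w)) = _
    rw [vn_comm hm hx, ih]
    simp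

lemma inner_x {x : Space hm →L[ℂ] Space hm} (hx : x ∈ vn hm) (v u : List (Fin N)) :
    ⟪x (eH hm v), eH hm u⟫_ℂ = ⟪x (eH hm []), eH hm (u ++ v.reverse)⟫_ℂ := by
  induction v using List.reverseRecOn generalizing u with
  | nil => simp
  | append_singleton v i ih =>
    have h := ((opC_selfAdjoint hm (move_snoc hm i)).isSymmetric (x (eH hm v)) (eH hm u))
    rw [← opC_eH hm (move_snoc hm i) v]
    show ⟪x (Y hm i (eH hm v)), eH hm u⟫_ℂ = _
    rw [vn_comm hm hx]
    refine h.trans ?_
    show ⟪x (eH hm v), opC hm (move_snoc hm i) (eH hm u)⟫_ℂ = _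
    rw [opC_eH, ih]
    simp

lemma J_vec {x : Space hm →L[ℂ] Space hm} (hx : x ∈ vn hm) :
    star x (eH hm []) = J hm (x (eH hm [])) := by
  refine ext_inner_left ℂ fun ξ => ?_
  rw [ContinuousLinearMap.star_eq_adjoint, ContinuousLinearMap.adjoint_inner_right, J_swap]
  induction ξ using Completion.induction_on with
  | hp =>
    exact isClosed_eq (x.continuous.inner continuous_const)
      (continuous_const.inner (J_continuous hm))
  | ih P =>
    induction P using ind hm with
    | h0 => rw [J_coe, map_zero, Completion.coe_zero, map_zero, inner_zero_left, inner_zero_right]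
    | hadd P Q hP hQ =>
      rw [J_coe] at hP hQ
      rw [J_coe, map_add, Completion.coe_add, Completion.coe_add, map_add, inner_add_left,
        inner_add_right, hP, hQ]
    | hw w a =>
      rw [J_coe, map_smulₛₗ, J₀_e, Completion.coe_smul, Completion.coe_smul, map_smul,
        inner_smul_left, inner_smul_right]
      congr 1
      simpa [eH] using inner_x hm hx w []

lemma trace_vec {x y : Space hm →L[ℂ] Space hm} (hx : x ∈ vn hm) (hy : y ∈ vn hm) :
    ⟪eH hm [], x (y (eH hm []))⟫_ℂ = ⟪eH hm [], y (x (eH hm []))⟫_ℂ := by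
  have hx' : star x ∈ vn hm := star_mem hx
  have hy' : star y ∈ vn hm := star_mem hy
  have hadj : ∀ (z : Space hm →L[ℂ] Space hm) (ξ : Space hm),
      ⟪eH hm [], z ξ⟫_ℂ = ⟪star z (eH hm []), ξ⟫_ℂ := fun z ξ => by
    rw [ContinuousLinearMap.star_eq_adjoint, ContinuousLinearMap.adjoint_inner_left]
  have hyJ : y (eH hm []) = J hm (star y (eH hm [])) := by
    rw [← J_vec hm hy', star_star]
  rw [hadj x, hadj y, hyJ, J_swap, ← J_vec hm hx', star_star]

lemma prod_eH (w : List (Fin N)) : (w.map (X hm)).prod (eH hm []) = eH hm w := by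
  induction w with
  | nil => simp
  | cons i w ih =>
    rw [List.map_cons, List.prod_cons, mul_apply_eq_comp, ih, X, opC_eH]

lemma norm_vac : ‖eH hm []‖ = 1 := by
  rw [← pow_left_inj₀ (norm_nonneg _) zero_le_one two_ne_zero, @norm_sq_eq_re_inner ℂ, inner_eH]
  simp [hm.unit]

end

end VAgent.P087.GNS

namespace VAgent.P087

open scoped InnerProductSpace

/-- Every law is the law of a tuple of self-adjoint elements generating a von Neumann algebra
with a tracial vector state whose vector is separating. -/
theorem IsLaw.realised {N : ℕ} {m : List (Fin N) → ℂ} (hm : IsLaw m) : Realised m :=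
  ⟨GNS.Space hm, inferInstance, inferInstance, inferInstance, GNS.vn hm, GNS.eH hm [], GNS.X hm,
    ⟨GNS.norm_vac hm, fun _ hx _ hy => GNS.trace_vec hm hx hy,
      fun _ hx h => GNS.separating hm hx h⟩,
    fun j => ⟨GNS.X_mem hm j, GNS.opC_selfAdjoint hm _⟩, GNS.coe_vn hm,
    fun w => by rw [GNS.prod_eH, GNS.inner_eH, List.reverse_nil, List.nil_append]⟩

end VAgent.P087
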